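import Vale.Agent.P032.H587.Shell

/-!
# P032: generic parameters

For a continuous map `f : X → ℂ` the palettes `Pal U (f x)`, `T (f x)` are locally constant on a dense
open set of parameters `x` (`LcP`, `LcT`).  For finitely many maps the intersection is dense open
(`dense_iInter_lc`).  If `f` is an open map, then `T (f x)` is a single colour on a dense open set
(`Irr.dense_pure`).  `Mx.sep_param`: two maps `f`, `g` with `dist (f x) (g x) = 1`; a colour which is
in the palettes of `f x'` for all `x'` near `x` and of `g x` excludes that `f` leaves the circle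
`S(g x)` to both sides.
-/

open Set Filter Topology Metric

noncomputable section

namespace Vale.Agent.P032.Six

variable {k : ℕ} {U : Fin k → Set ℂ} {T : ℂ → Set (Fin k)} {X : Type*} [TopologicalSpace X]

/-- an upper semicontinuous map to the subsets of a finite set is locally constant on a dense open
set -/
theorem lc_open (F : X → Set (Fin k)) : IsOpen {x | ∀ᶠ y in 𝓝 x, F y = F x} := by
  rw [isOpen_iff_mem_nhds]
  intro x hx
  have hx' : ∀ᶠ y in 𝓝 x, F y = F x := hx
  filter_upwards [hx'.eventually_nhds, hx'] with y hy hy'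
  have : ∀ᶠ w in 𝓝 y, F w = F y := by
    filter_upwards [hy] with w hw
    rw [hw, hy']
  exact this

theorem lc_dense (F : X → Set (Fin k)) (hF : ∀ x, ∀ᶠ y in 𝓝 x, F y ⊆ F x) :
    Dense {x | ∀ᶠ y in 𝓝 x, F y = F x} := by
  intro x
  rw [_root_.mem_closure_iff]
  intro o ho hxo
  have hne : ((fun y => (F y).ncard) '' o).Nonempty := ⟨_, x, hxo, rfl⟩
  obtain ⟨_, ⟨r, hr, rfl⟩, hrmin⟩ :=
    WellFounded.has_min (r := ((· < ·) : ℕ → ℕ → Prop)) wellFounded_lt _ hne
  refine ⟨r, hr, ?_⟩
  have h2 : ∀ᶠ s in 𝓝 r, F s = F r := by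
    filter_upwards [hF r, ho.mem_nhds hr] with s hs hso
    refine Set.eq_of_subset_of_ncard_le hs ?_ (Set.toFinite _)
    exact not_lt.1 (hrmin _ ⟨s, hso, rfl⟩)
  exact h2

/-- parameters at which `Pal U (f x)` is locally constant -/
def LcP (U : Fin k → Set ℂ) (f : X → ℂ) : Set X := {x | ∀ᶠ y in 𝓝 x, Pal U (f y) = Pal U (f x)}

/-- parameters at which `T (f x)` is locally constant -/
def LcT (T : ℂ → Set (Fin k)) (f : X → ℂ) : Set X := {x | ∀ᶠ y in 𝓝 x, T (f y) = T (f x)}

theorem isOpen_LcP (f : X → ℂ) : IsOpen (LcP U f) := lc_open fun x => Pal U (f x)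

theorem isOpen_LcT (f : X → ℂ) : IsOpen (LcT T f) := lc_open fun x => T (f x)

theorem dense_LcP {f : X → ℂ} (hf : Continuous f) : Dense (LcP U f) :=
  lc_dense _ fun _ => hf.continuousAt.eventually (pal_nhd U _)

theorem Irr.dense_LcT (h : Irr U T) {f : X → ℂ} (hf : Continuous f) : Dense (LcT T f) :=
  lc_dense _ fun _ => hf.continuousAt.eventually (h.nhd _)

/-- finitely many dense open sets -/
theorem dense_open_inter {ι : Type*} [Finite ι] {S : ι → Set X} (ho : ∀ i, IsOpen (S i))
    (hd : ∀ i, Dense (S i)) : Dense (⋂ i, S i) ∧ IsOpen (⋂ i, S i) := by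
  classical
  have := Fintype.ofFinite ι
  have key : ∀ s : Finset ι, Dense (⋂ i ∈ s, S i) ∧ IsOpen (⋂ i ∈ s, S i) := by
    intro s
    induction s using Finset.induction_on with
    | empty => simp
    | insert a s _ ih =>
      rw [Finset.set_biInter_insert]
      exact ⟨(hd a).inter_of_isOpen_left ih.1 (ho a), (ho a).inter ih.2⟩
  have h1 := key Finset.univ
  simpa using h1

/-- **Generic parameters**: for finitely many continuous maps all palettes `Pal` and `T` are locally
constant on a dense open set -/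
theorem Irr.dense_lc {ι : Type*} [Finite ι] (h : Irr U T) {f : ι → X → ℂ}
    (hf : ∀ i, Continuous (f i)) :
    Dense (⋂ i, LcP U (f i) ∩ LcT T (f i)) ∧ IsOpen (⋂ i, LcP U (f i) ∩ LcT T (f i)) :=
  dense_open_inter (fun i => (isOpen_LcP _).inter (isOpen_LcT _)) fun i =>
    (dense_LcP (hf i)).inter_of_isOpen_left (h.dense_LcT (hf i)) (isOpen_LcP _)

/-- the pure points form a dense open set -/
theorem Irr.pure_open_dense (h : Irr U T) : Dense {x | ∃ i, T x = {i}} ∧ IsOpen {x | ∃ i, T x = {i}} := by
  constructor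
  · intro x
    rw [mem_closure_iff_frequently]
    obtain ⟨i, hi⟩ := h.ne x
    exact (h.pure x i hi).mono fun w hw => ⟨i, hw⟩
  · rw [isOpen_iff_mem_nhds]
    rintro x ⟨i, hi⟩
    filter_upwards [h.nhd x] with w hw
    rw [hi] at hw
    exact ⟨i, hw.antisymm (by
      obtain ⟨j, hj⟩ := h.ne w
      have : j = i := hw hj
      rintro m rfl
      exact this ▸ hj)⟩

/-- for an open continuous map the colour of `f x` is pure on a dense open set of parameters -/
theorem Irr.dense_pure (h : Irr U T) {f : X → ℂ} (hf : Continuous f) (hfo : IsOpenMap f) :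
    Dense {x | ∃ i, T (f x) = {i}} ∧ IsOpen {x | ∃ i, T (f x) = {i}} :=
  ⟨h.pure_open_dense.1.preimage hfo, h.pure_open_dense.2.preimage hf⟩

/-- pure points at distance one have different colours -/
theorem Irr.pure_ne (h : Irr U T) {x y : ℂ} (hxy : dist x y = 1) {i j : Fin k} (hx : T x = {i})
    (hy : T y = {j}) : i ≠ j := by
  rintro rfl
  have h1 : x ∈ U i := h.mem_of_single hx.subset
  exact h.mx.notMem' h1 hxy (h.sub y (by rw [hy]; rfl))

/-- a pure point and any point at distance one -/
theorem Irr.pure_notMem (h : Irr U T) {x y : ℂ} (hxy : dist x y = 1) {i : Fin k} (hx : T x = {i}) :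
    i ∉ Pal U y :=
  h.mx.notMem' (h.mem_of_single hx.subset) hxy

/-- **Separation along parameters**: a colour in the palettes of all `f x'`, `x'` in a preconnected
set, with points on both sides of `S(q)`: not in `Pal U q` -/
theorem Mx.sep_param (h : Mx U) {f : X → ℂ} {N : Set X} (hN : IsPreconnected N)
    (hf : ContinuousOn f N) {i : Fin k} (hi : ∀ x ∈ N, i ∈ Pal U (f x)) {q : ℂ} {x1 x2 : X}
    (h1 : x1 ∈ N) (h2 : x2 ∈ N) (hlt : dist (f x1) q < 1) (hgt : 1 < dist (f x2) q) :
    i ∉ Pal U q := by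
  refine h.wlemma (hN.image f hf) ?_ (mem_image_of_mem f h1) (mem_image_of_mem f h2) hlt hgt
  rintro _ ⟨x, hx, rfl⟩
  exact hi x hx

end Vale.Agent.P032.Six
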