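import Vale.Agent.P032.H587.Triple
import Vale.Agent.P032.H249.Wall
import Vale.Agent.P032.H249.Contact
import Vale.Agent.P032.S5.H824.Two
import Vale.Agent.P032.S5.H767.Exc

/-!
# P032: which four-coloured points exchange `e` and `f` with a neighbour (wild form)

`z = ab | cd`, `y`, `y'` neighbours on `S(z)` (all three distances one), `e, f` in `T y` and in `T y'`,
`T y'` with at most three colours.

* `Irr.exch_lt`: exact `ef`-arcs of `S(y)` accumulate at `y'` (so `ef` is unbroken at `y`).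
* `Irr.flip_sides`: if `S(y)` has `d` on one half branch at `z` and `b` on the other one, then `a`
  and `c` are absent on the same side of `S(z)` near `y`.
* `Irr.exch_mixed`: if `T y = {a, c, e, f}` then `y = ac | ef` is a two-pair centre: a harmless point
  with a mixed palette carries no exchange.
* `Irr.fc_end`: a two-pair point `y` of `S(z)` at which exact `ab`-arcs of `S(z)` accumulate has no
  exact pair `ab` itself; `Irr.norot_low`: `y` with at most three colours, `a, b, t` in `T y`, `a, b`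
  in `T y'`, `t` in `T y''` (`y', y''` the two neighbours): impossible if `S(y')` has no palette inside
  `{a, b}`.
-/

open Set Filter Topology Metric

noncomputable section

namespace Vale.Agent.P032.Six

variable {U : Fin 6 → Set ℂ} {T : ℂ → Set (Fin 6)} {z y y' p : ℂ} {a b c d e f i j : Fin 6}

/-- **Exact arcs at an exchange.** `T z` misses exactly `e, f`; `y, y'` neighbours on `S(z)` with
`e, f` in both palettes, `T y'` with at most three colours: exact `ef`-arcs of `S(y)` accumulate at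
`y'`. -/
theorem Irr.exch_lt (h : Irr U T) (hef : e ≠ f) (hall : ∀ l, l = e ∨ l = f ∨ l ∈ T z)
    (hy'z : dist y' z = 1) (hy'y : dist y' y = 1) (hne : z ≠ y) (hne2 : z + y ≠ 2 * y')
    (h3 : (T y').ncard ≤ 3) (he : e ∈ T y) (hf : f ∈ T y) (he' : e ∈ T y') (hf' : f ∈ T y') :
    Lt T y y' {e, f} := by
  -- at most one further colour
  have hone : ∀ l ∈ T y', ∀ l' ∈ T y', l ≠ e → l ≠ f → l' ≠ e → l' ≠ f → l = l' := by
    intro l hl l' hl' h1 h2 h4 h5
    by_contra hne
    have hsub : ({e, f, l, l'} : Set (Fin 6)) ⊆ T y' := by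
      rintro x (rfl | rfl | rfl | rfl)
      exacts [he', hf', hl, hl']
    have hc : ({e, f, l, l'} : Set (Fin 6)).ncard = 4 := by
      rw [Set.ncard_insert_of_notMem, Set.ncard_insert_of_notMem, Set.ncard_pair hne]
      · simp only [mem_insert_iff, mem_singleton_iff, not_or]
        exact ⟨fun e1 => h2 e1.symm, fun e1 => h5 e1.symm⟩
      · simp only [mem_insert_iff, mem_singleton_iff, not_or]
        exact ⟨hef, fun e1 => h1 e1.symm, fun e1 => h4 e1.symm⟩
    have := Set.ncard_le_ncard hsub (Set.toFinite _)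
    omega
  have key : ∀ t ∈ T z, (∀ l ∈ T y', l = e ∨ l = f ∨ l = t) → Lt T y y' {e, f} := by
    intro t ht hcov
    obtain ⟨o, ho, hto⟩ := h.apex hy'y hy'z hne hne2 ht
    have hop := h.lt_sub ho
    have hoy : o ⊆ {e, f} := by
      intro l hl
      rcases hcov l (hop hl) with rfl | rfl | rfl
      · exact Or.inl rfl
      · exact Or.inr rfl
      · exact absurd hl hto
    have hoT : o ⊆ T y := by
      intro l hl
      rcases hoy hl with rfl | rfl
      exacts [he, hf]
    have h2 := (h.lt_two ho hoT).1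
    have h4 : ({e, f} : Set (Fin 6)).ncard = 2 := Set.ncard_pair hef
    have h5 : o = {e, f} := Set.eq_of_subset_of_ncard_le hoy (by omega) (Set.toFinite _)
    rwa [h5] at ho
  by_cases hx : ∃ x ∈ T y', x ≠ e ∧ x ≠ f
  · obtain ⟨x, hx, hxe, hxf⟩ := hx
    refine key x ?_ ?_
    · rcases hall x with h1 | h1 | h1
      exacts [absurd h1 hxe, absurd h1 hxf, h1]
    · intro l hl
      by_cases h1 : l = e
      · exact Or.inl h1
      by_cases h2 : l = f
      · exact Or.inr (Or.inl h2)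
      exact Or.inr (Or.inr (hone l hl x hx h1 h2 hxe hxf))
  · push Not at hx
    have hTp : ∀ l ∈ T y', l = e ∨ l = f := by
      intro l hl
      by_contra h1
      rw [not_or] at h1
      exact h1.2 (hx l hl h1.1)
    -- a colour of `T z`
    obtain ⟨t, ht⟩ := h.ne z
    exact key t ht fun l hl => by
      rcases hTp l hl with h1 | h1
      exacts [Or.inl h1, Or.inr (Or.inl h1)]

theorem ip_sm (r : ℝ) (u v : ℂ) : ip (r * u) v = r * ip u v := by
  unfold ip
  simp only [Complex.mul_re, Complex.mul_im, Complex.ofReal_re, Complex.ofReal_im]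
  ring

theorem cr_neg_neg (u v : ℂ) : cr (-u) (-v) = cr u v := by
  unfold cr
  simp only [Complex.neg_re, Complex.neg_im]
  ring

/-- a ray and a half branch of one colour `x` at `z`: the same side at every `q` on `S(z)` with `x` in
`T q` -/
theorem Irr.ray_branch (h : Irr U T) {q u : ℂ} {x : Fin 6} {τ : ℝ} (hqz : dist q z = 1)
    (hx : x ∈ T q) (hr : Ray (U x) z u) (hip : ip u (q - z) ≠ 0)
    (hb : ∀ᶠ t : ℝ in 𝓝[>] 0, x ∈ T (hb y z τ t)) (hs : τ * sg y z q ≠ 0) :
    ip u (q - z) * (τ * sg y z q) < 0 := by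
  rcases lt_or_gt_of_ne hip with h1 | h1 <;> rcases lt_or_gt_of_ne hs with h2 | h2
  · exfalso
    have o1 : InF U z q x := h.mx.near hr hqz h1
    exact not_both_free h hx (h.br_out hb hqz h2) o1
  · exact mul_neg_of_neg_of_pos h1 h2
  · exact mul_neg_of_pos_of_neg h1 h2
  · exfalso
    have o1 : OutF U z q x := h.mx.far hr hqz h1
    exact not_both_free h hx o1 (h.br_in hb hqz h2)

theorem pos_of_mul_pos_right' {x y : ℝ} (h : 0 < x * y) (hx : 0 < x) : 0 < y := by
  by_contra hcon
  have := mul_nonpos_of_nonneg_of_nonpos hx.le (not_lt.1 hcon)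
  linarith

/-- **Sides from a flip at the centre.**  `z = ab | cd`, `y` on `S(z)`; `S(y)` carries `d` on the half
branch `τ` at `z` and `b` on the other one.  Then near `y` the colours `a`, `c` are absent on the same
side of `S(z)`, and `b`, `d` on the other one. -/
theorem Irr.flip_sides (h : Irr U T) (hz : DPt T z a b c d) (hy : dist y z = 1) {τ : ℝ}
    (hτ : τ = 1 ∨ τ = -1) (hd : ∀ᶠ t : ℝ in 𝓝[>] 0, d ∈ T (hb y z τ t))
    (hb' : ∀ᶠ t : ℝ in 𝓝[>] 0, b ∈ T (hb y z (-τ) t)) :
    (Sd U z y a b ∧ Sd U z y c d) ∨ (Sd U z y b a ∧ Sd U z y d c) := by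
  obtain ⟨p1, hp1⟩ := hz.arc1
  obtain ⟨p2, hp2⟩ := hz.arc2
  obtain ⟨q1, hq1, n1, n1'⟩ := hp1.exists_off_line (y := y)
  obtain ⟨q2, hq2, n2, n2'⟩ := hp2.exists_off_line (y := y)
  have t1 := hq1.mem
  have t2 := hq2.mem
  have hn : q1 ≠ q2 := by
    intro e1
    rw [e1, t2] at t1
    have : a ∈ ({c, d} : Set (Fin 6)) := by rw [t1]; exact Or.inl rfl
    rcases this with e2 | e2
    exacts [hz.ac e2, hz.ad e2]
  have hn2 : q1 + q2 ≠ 2 * z := by
    intro e1
    have e2 : 2 * z - q1 = q2 := by rw [← e1]; ring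
    refine h.anti hz hq1.1 (h.sub _ (by rw [t1]; exact Or.inl rfl))
      (h.sub _ (by rw [t1]; exact Or.inr rfl)) ?_ ?_
    · rw [e2]; exact h.sub _ (by rw [t2]; exact Or.inl rfl)
    · rw [e2]; exact h.sub _ (by rw [t2]; exact Or.inr rfl)
  obtain ⟨ε, hε, ra, rb⟩ := h.d0_sign hz hq2
  obtain ⟨δ, hδ, rc, rd⟩ := h.d0_sign hz.swap hq1
  have X0 : cr (q1 - z) (q2 - z) ≠ 0 := cr_ne_of hq1.1 hq2.1 hn hn2
  have Y1 : cr (y - z) (q1 - z) ≠ 0 := cr_ne_of hy hq1.1 n1.symm (by rwa [add_comm])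
  have Y2 : cr (y - z) (q2 - z) ≠ 0 := cr_ne_of hy hq2.1 n2.symm (by rwa [add_comm])
  have s1 : sg y z q1 = cr (y - z) (q1 - z) := by
    unfold sg
    rw [← neg_sub y z, ← neg_sub q1 z, cr_neg_neg]
  have s2 : sg y z q2 = cr (y - z) (q2 - z) := by
    unfold sg
    rw [← neg_sub y z, ← neg_sub q2 z, cr_neg_neg]
  have hτ0 : τ ≠ 0 := by rcases hτ with rfl | rfl <;> norm_num
  have hε0 : ε ≠ 0 := by rcases hε with rfl | rfl <;> norm_num
  have hδ0 : δ ≠ 0 := by rcases hδ with rfl | rfl <;> norm_num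
  -- the colour `b` at `q1`
  have ib : ip (-(ε * (Complex.I * (q2 - z)))) (q1 - z) = ε * cr (q1 - z) (q2 - z) := by
    rw [ip_neg, ip_sm, ip_I, cr_swap]; ring
  have A := h.ray_branch (y := y) (x := b) (τ := -τ) hq1.1 (by rw [t1]; exact Or.inr rfl) rb
    (by rw [ib]; exact mul_ne_zero hε0 X0) hb' (by rw [s1]; exact mul_ne_zero (neg_ne_zero.2 hτ0) Y1)
  rw [ib, s1] at A
  -- the colour `d` at `q2`
  have id' : ip (-(δ * (Complex.I * (q1 - z)))) (q2 - z) = -(δ * cr (q1 - z) (q2 - z)) := by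
    rw [ip_neg, ip_sm, ip_I]
  have B := h.ray_branch (y := y) (x := d) (τ := τ) hq2.1 (by rw [t2]; exact Or.inr rfl) rd
    (by rw [id']; exact neg_ne_zero.2 (mul_ne_zero hδ0 X0)) hd
    (by rw [s2]; exact mul_ne_zero hτ0 Y2)
  rw [id', s2] at B
  -- the rays `a`, `c` at `y`
  have ia : ip (ε * (Complex.I * (q2 - z))) (y - z) = -(ε * cr (y - z) (q2 - z)) := by
    rw [ip_sm, ip_I, cr_swap]; ring
  have ic : ip (δ * (Complex.I * (q1 - z))) (y - z) = -(δ * cr (y - z) (q1 - z)) := by
    rw [ip_sm, ip_I, cr_swap]; ring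
  have key : 0 < (ε * cr (y - z) (q2 - z)) * (δ * cr (y - z) (q1 - z)) := by
    have hX : 0 < cr (q1 - z) (q2 - z) ^ 2 := by positivity
    have hτ2 : τ ^ 2 = 1 := by rcases hτ with rfl | rfl <;> norm_num
    have hprod := mul_pos_of_neg_of_neg A B
    have e1 : ε * cr (q1 - z) (q2 - z) * (-τ * cr (y - z) (q1 - z)) *
        (-(δ * cr (q1 - z) (q2 - z)) * (τ * cr (y - z) (q2 - z))) =
        cr (q1 - z) (q2 - z) ^ 2 *
          ((ε * cr (y - z) (q2 - z)) * (δ * cr (y - z) (q1 - z))) * τ ^ 2 := by ring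
    rw [e1, hτ2, mul_one] at hprod
    exact pos_of_mul_pos_right' hprod hX
  rcases lt_or_gt_of_ne (mul_ne_zero hε0 Y2) with k1 | k1
  · have k2 : δ * cr (y - z) (q1 - z) < 0 := by
      by_contra hcon
      have := mul_nonpos_of_nonpos_of_nonneg k1.le (not_lt.1 hcon)
      linarith
    left
    exact ⟨h.mx.sd_of_rays ra rb hy (by rw [ia]; linarith),
      h.mx.sd_of_rays rc rd hy (by rw [ic]; linarith)⟩
  · have k2 : 0 < δ * cr (y - z) (q1 - z) := by
      by_contra hcon
      have := mul_nonpos_of_nonneg_of_nonpos k1.le (not_lt.1 hcon)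
      linarith
    right
    exact ⟨h.mx.sd_of_rays' ra rb hy (by rw [ia]; linarith),
      h.mx.sd_of_rays' rc rd hy (by rw [ic]; linarith)⟩

/-- **No exchange at a harmless mixed point.** `z = ab | cd`, `y, y'` neighbours on `S(z)`,
`T y = {a, c, e, f}`, `e, f` in `T y'`, `T y'` with at most three colours: `y = ac | ef` is a two-pair
centre. -/
theorem Irr.exch_mixed (h : Irr U T) (hnd : [a, b, c, d, e, f].Nodup) (hz : DPt T z a b c d)
    (hy : dist y z = 1) (hy'z : dist y' z = 1) (hy'y : dist y' y = 1) (hTy : T y = {a, c, e, f})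
    (h3 : (T y').ncard ≤ 3) (he' : e ∈ T y') (hf' : f ∈ T y') : DPt T y a c e f := by
  obtain ⟨⟨ab, ac, ad, ae, af, bc, bd, be, bf, cd, ce, cf, de, df, ef⟩, -⟩ := nd6 hnd
  have hall := nodup_all hnd
  have hay : a ∈ T y := by rw [hTy]; simp
  have hcy : c ∈ T y := by rw [hTy]; simp
  have hey : e ∈ T y := by rw [hTy]; simp
  have hfy : f ∈ T y := by rw [hTy]; simp
  have hzy : dist z y = 1 := by rw [dist_comm]; exact hy
  have n1 : z ≠ y := fun e1 => by rw [e1, dist_self] at hy; exact zero_ne_one hy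
  have n2 : z + y ≠ 2 * y' := by
    intro e1
    have h8 : y - z = 2 * (y' - z) := by linear_combination e1
    rw [dist_eq_norm, h8, norm_mul, ← dist_eq_norm, hy'z] at hy
    norm_num at hy
  have m1 : z ≠ y' := fun e1 => by rw [e1, dist_self] at hy'z; exact zero_ne_one hy'z
  have m2 : z + y' ≠ 2 * y := by
    intro e1
    have h8 : y' - z = 2 * (y - z) := by linear_combination e1
    rw [dist_eq_norm, h8, norm_mul, ← dist_eq_norm, hy] at hy'z
    norm_num at hy'z
  have hall' : ∀ l, l = e ∨ l = f ∨ l ∈ T z := by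
    intro l
    rw [hz.pal]
    rcases hall l with rfl | rfl | rfl | rfl | rfl | rfl <;> simp
  have hlt := h.exch_lt ef hall' hy'z hy'y n1 n2 h3 hey hfy he' hf'
  -- a half branch of `S(y)` at `z` is exact `ac`
  have hex : ∃ τ : ℝ, ∀ᶠ t : ℝ in 𝓝[>] 0, T (hb y z τ t) = {a, c} := by
    by_contra hno0
    have hno : ∀ τ : ℝ, ¬ ∀ᶠ t : ℝ in 𝓝[>] 0, T (hb y z τ t) = {a, c} := fun τ h1 => hno0 ⟨τ, h1⟩
    -- the kill
    have kill : ∀ τ : ℝ, τ = 1 ∨ τ = -1 → (∀ᶠ t : ℝ in 𝓝[>] 0, d ∈ T (hb y z τ t)) →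
        (∀ᶠ t : ℝ in 𝓝[>] 0, b ∈ T (hb y z (-τ) t)) → False := by
      intro τ hτ h1 h2
      have hyy' : dist y y' = 1 := by rw [dist_comm]; exact hy'y
      have hsg : sg y' y z ≠ 0 := sg_ne hyy' hzy m1 m2
      -- a half branch of `S(y')` at `y` without `a` and `c`
      have hfin : ∀ τ' : ℝ, (∀ᶠ t : ℝ in 𝓝[>] 0, a ∉ Pal U (hb y' y τ' t)) →
          (∀ᶠ t : ℝ in 𝓝[>] 0, c ∉ Pal U (hb y' y τ' t)) → False := by
        intro τ' g1 g2
        have g3 := (tendsto_hb y' y τ').eventually (h.nhd y)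
        obtain ⟨t, ⟨k1, k2⟩, k3⟩ := ((g1.and g2).and g3).exists
        obtain ⟨l, hl, hl'⟩ := h.not_sub' (dist_hb hyy' τ' t) h3
        have hl2 := k3 hl
        rw [hTy] at hl2
        rcases hl2 with rfl | rfl | rfl | rfl
        · exact k1 (h.sub _ hl)
        · exact k2 (h.sub _ hl)
        · exact hl' he'
        · exact hl' hf'
      obtain ⟨⟨τ1, hτ1, j1⟩, ⟨τ2, hτ2, j2⟩⟩ := exists_sign hsg
      rcases h.flip_sides hz hy hτ h1 h2 with ⟨o1, o2⟩ | ⟨o1, o2⟩
      · -- absent outside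
        have g0 := hb_out (z := y') (v := y) (g := z) hzy j2
        refine hfin τ2 ?_ ?_
        · filter_upwards [g0, (tendsto_hb y' y τ2).eventually o1] with t k1 k2
          exact k2.1 k1
        · filter_upwards [g0, (tendsto_hb y' y τ2).eventually o2] with t k1 k2
          exact k2.1 k1
      · -- absent inside
        have g0 := hb_in (z := y') (v := y) (g := z) hzy j1
        refine hfin τ1 ?_ ?_
        · filter_upwards [g0, (tendsto_hb y' y τ1).eventually o1] with t k1 k2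
          exact k2.2 k1
        · filter_upwards [g0, (tendsto_hb y' y τ1).eventually o2] with t k1 k2
          exact k2.2 k1
    rcases h.germ_branch hz hzy with h1 | h1 | h1 | h1
    · exact hno 1 (h.hb_exact hzy h1.1 (h.sub _ hay) (h.sub _ hcy))
    · refine kill 1 (Or.inl rfl) (h.hb_mem hzy h1.1 (h.sub _ hay)) ?_
      have h2 : ∀ᶠ t : ℝ in 𝓝[>] 0, T (hb y z (-1) t) ⊆ {c, b} := by
        filter_upwards [h1.2] with t ht
        rw [Set.pair_comm]; exact ht
      exact h.hb_mem hzy h2 (h.sub _ hcy)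
    · refine kill (-1) (Or.inr rfl) (h.hb_mem hzy h1.2 (h.sub _ hay)) ?_
      have h2 : ∀ᶠ t : ℝ in 𝓝[>] 0, T (hb y z (-(-1)) t) ⊆ {c, b} := by
        rw [neg_neg]
        filter_upwards [h1.1] with t ht
        rw [Set.pair_comm]; exact ht
      exact h.hb_mem hzy h2 (h.sub _ hcy)
    · exact hno (-1) (h.hb_exact hzy h1.2 (h.sub _ hay) (h.sub _ hcy))
  obtain ⟨τ, hτ⟩ := hex
  have hlt2 := h.lt_of_hb ac hay hcy hzy hτ
  obtain ⟨q1, hq1⟩ := hlt2.exists
  obtain ⟨q2, hq2⟩ := hlt.exists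
  exact ⟨hTy, ae, af, ce, cf, ac, ef, ⟨q1, hq1⟩, ⟨q2, hq2⟩⟩

/-- near a point of the circle, from the angle to the circle -/
theorem ev_circle_pv {w : ℝ} {P : ℂ → Prop} (h : ∀ᶠ s in 𝓝 w, P (pv z s)) :
    ∀ᶠ q in 𝓝[sphere z 1] (pv z w), P q := by
  have e1 : ∀ s : ℝ, S5.H767.pt z s = pv z s := fun s => by
    unfold S5.H767.pt pv
    rw [mul_comm]
  have h1 : ∀ᶠ s in 𝓝 w, P (S5.H767.pt z s) := by
    filter_upwards [h] with s hs
    rw [e1]; exact hs
  have h2 := S5.H767.ev_circle z h1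
  rwa [e1] at h2

/-- **a special end has not the pair of the arc**: `y` a two-pair point of `S(z)`, exact `ab`-arcs of
`S(z)` accumulate at `y`: no palette on `S(y)` is inside `{a, b}` -/
theorem Irr.fc_end (h : Irr U T) {x x' k k' : Fin 6} (hyz : dist y z = 1) (hy : DPt T y x x' k k')
    (hlt : Lt T z y {a, b}) : S5.H767.Fc T y {a, b} := by
  have key : ∀ {x x' k k' : Fin 6}, DPt T y x x' k k' → ({a, b} : Set (Fin 6)) ≠ {x, x'} := by
    intro x x' k k' hy he
    have hG : ∀ τ : ℝ, (τ = 1 ∨ τ = -1) → ∀ᶠ t : ℝ in 𝓝[>] 0, T (hb z y τ t) ≠ {x, x'} := by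
      intro τ hτ
      have hsub : ∀ {m n : Fin 6}, (m = x ∨ m = x') → (n = k ∨ n = k') → ∀ {t : ℝ},
          T (hb z y τ t) ⊆ {m, n} → T (hb z y τ t) ≠ {x, x'} := by
        intro m n hm hn t ht hcon
        rw [hcon] at ht
        have h1 := ht (Or.inl rfl)
        have h2 := ht (Or.inr rfl)
        simp only [mem_insert_iff, mem_singleton_iff] at h1 h2
        have e1 := hy.ab
        have e2 := hy.ac
        have e3 := hy.ad
        have e4 := hy.bc
        have e5 := hy.bd
        rcases hm with rfl | rfl <;> rcases hn with rfl | rfl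
        · rcases h2 with h2 | h2
          exacts [e1 h2.symm, e4 h2]
        · rcases h2 with h2 | h2
          exacts [e1 h2.symm, e5 h2]
        · rcases h1 with h1 | h1
          exacts [e1 h1, e2 h1]
        · rcases h1 with h1 | h1
          exacts [e1 h1, e3 h1]
      rcases h.germ_branch hy hyz with g | g | g | g <;> rcases hτ with rfl | rfl
      · filter_upwards [g.1] with t ht using hsub (Or.inl rfl) (Or.inl rfl) ht
      · filter_upwards [g.2] with t ht using hsub (Or.inr rfl) (Or.inr rfl) ht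
      · filter_upwards [g.1] with t ht using hsub (Or.inl rfl) (Or.inr rfl) ht
      · filter_upwards [g.2] with t ht using hsub (Or.inr rfl) (Or.inl rfl) ht
      · filter_upwards [g.1] with t ht using hsub (Or.inr rfl) (Or.inl rfl) ht
      · filter_upwards [g.2] with t ht using hsub (Or.inl rfl) (Or.inr rfl) ht
      · filter_upwards [g.1] with t ht using hsub (Or.inr rfl) (Or.inr rfl) ht
      · filter_upwards [g.2] with t ht using hsub (Or.inl rfl) (Or.inl rfl) ht
    -- transfer to the angles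
    obtain ⟨w, rfl⟩ := exists_pv hyz
    have hR := ev_right (P := fun q => T q ≠ {x, x'}) (hG 1 (Or.inl rfl))
    have hL := ev_left (P := fun q => T q ≠ {x, x'}) (hG (-1) (Or.inr rfl))
    have hlt2 := hlt.freq
    -- a point of the circle near `y`
    have hpv : ∃ᶠ s in 𝓝 w, T (pv z s) = {a, b} := fun hcon => hlt2 (ev_circle_pv hcon)
    have hc : T (pv z w) ≠ {x, x'} := by
      rw [hy.pal]
      intro hcon
      have h1 : k ∈ ({x, x'} : Set (Fin 6)) := by rw [← hcon]; simp
      rcases h1 with h1 | h1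
      exacts [hy.ac h1.symm, hy.bc h1.symm]
    refine hpv ?_
    rw [he]
    have h5 : ∀ᶠ s in 𝓝[≠] w, T (pv z s) ≠ {x, x'} := by
      rw [← nhdsLT_sup_nhdsGT, eventually_sup]
      exact ⟨hL, hR⟩
    rw [eventually_nhdsWithin_iff] at h5
    filter_upwards [h5] with s hs
    by_cases e1 : s = w
    · rw [e1]; exact hc
    · exact hs e1
  intro g hg hgs
  have ha : a ∈ T y := h.lt_sub hlt (Or.inl rfl)
  have hb' : b ∈ T y := h.lt_sub hlt (Or.inr rfl)
  have h2 := h.two_of_sub hg (hgs.trans (by rintro l (rfl | rfl); exacts [ha, hb']))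
  by_cases hab : a = b
  · subst hab
    have h4 : T g ⊆ {a} := fun l hl => by
      rcases hgs hl with h5 | h5
      exacts [h5, h5]
    have := Set.ncard_le_ncard h4 (Set.toFinite _)
    rw [Set.ncard_singleton] at this
    omega
  have h4 : T g = {a, b} := Set.eq_of_subset_of_ncard_le hgs
    (by rw [Set.ncard_pair hab]; exact h2) (Set.toFinite _)
  have h5 := h.arc_of_eq hab ha hb' hg h4
  have h6 : Lt T y g {a, b} := by
    have h7 : ∀ᶠ q in 𝓝[sphere y 1] g, Arc T y q {a, b} := by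
      have h8 := eventually_eventually_nhdsWithin.2 h5.2
      filter_upwards [h8, self_mem_nhdsWithin] with q hq hqs
      exact ⟨hqs, hq⟩
    have : (𝓝[sphere y 1] g).NeBot := mem_closure_iff_nhdsWithin_neBot.1 (subset_closure hg)
    exact h7.frequently
  rcases h.lt_pair hy h6 (by rintro l (rfl | rfl); exacts [ha, hb']) with h7 | h7
  · exact key hy h7
  · exact key hy.swap h7

/-- **No rotation**, one position with at most three colours -/
theorem Irr.norot_low (h : Irr U T) {y'' : ℂ} {t : Fin 6} (hyy' : dist y y' = 1)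
    (hyy'' : dist y y'' = 1) (hne : y'' ≠ y') (hne2 : y'' + y' ≠ 2 * y)
    (hTy : T y ⊆ {a, b, t}) (ht : t ∈ T y'') (hF : S5.H767.Fc T y' {a, b}) : False := by
  rcases S5.H767.lemmaF h (t := t) hyy' hF (fun l hl => by
      rcases hTy hl with h1 | h1 | h1
      exacts [Or.inr (Or.inl h1), Or.inr (Or.inr h1), Or.inl h1]) hyy'' (h.sub _ ht) with h1 | h1
  exacts [hne h1, hne2 h1]

end Vale.Agent.P032.Six
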