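import Vale.Agent.P032.H587.Block

/-!
# P032: connected sets of one colour next to exact arcs (column lemma)

* `Irr.two_partner`: `p` on `S(z)`, `T p` inside `{x, y}`, `y` in `Pal z`: the `x`-partners of `p` are
  `z` and `2 p - z` at most.
* `Irr.cell_discs`: `p, p'` two different such points of one circle `S(z)` (other colours `y, y'`);
  a preconnected set `G` of points with `x` in the palette, not containing `z`, which meets both open
  unit discs about `p`, `p'` in a common point lies inside both discs.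
* `Irr.chain_discs`: a chain of such sets `s 0, s 1, ...`, consecutive ones with a common point, stays
  in the two discs; `Irr.chain_finite`: if the junction points have at least four colours and such
  points are locally finite, then only finitely many junction points exist.
* `Mx.far_or_near`: two preconnected sets inside `U x` have all mutual distances `< 1` or all `> 1`.
-/

open Set Filter Topology Metric

noncomputable section

namespace Vale.Agent.P032.Six

variable {U : Fin 6 → Set ℂ} {T : ℂ → Set (Fin 6)} {z p p' q : ℂ} {x y y' : Fin 6}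

/-- the partners of a two-coloured point of a circle -/
theorem Irr.two_partner (h : Irr U T) (hp : dist p z = 1) (hT : T p ⊆ {x, y}) (hy : y ∈ Pal U z)
    (hq : dist p q = 1) (hx : x ∈ Pal U q) : q = z ∨ q + z = 2 * p :=
  S5.H767.lemmaF h (u := z) (s := {y}) hp (fun _ hw => h.not_single hy hw)
    (fun l hl => by
      rcases hT hl with h1 | h1
      exacts [Or.inl h1, Or.inr h1]) hq hx

/-- two unit vectors -/
theorem far_reflection {u v : ℂ} (hu : ‖u‖ = 1) (hv : ‖v‖ = 1) (hne : u ≠ v) : 1 < ‖2 * u - v‖ := by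
  have h1 : ‖2 * u - v‖ ^ 2 = 5 - 4 * (u.re * v.re + u.im * v.im) := by
    have hu2 : u.re ^ 2 + u.im ^ 2 = 1 := by
      have := Complex.sq_norm u
      rw [hu, Complex.normSq_apply] at this
      nlinarith
    have hv2 : v.re ^ 2 + v.im ^ 2 = 1 := by
      have := Complex.sq_norm v
      rw [hv, Complex.normSq_apply] at this
      nlinarith
    rw [Complex.sq_norm, Complex.normSq_apply]
    simp only [Complex.sub_re, Complex.sub_im, Complex.mul_re, Complex.mul_im, Complex.re_ofNat,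
      Complex.im_ofNat]
    nlinarith
  have h2 : 0 < ‖u - v‖ ^ 2 := by
    have : 0 < ‖u - v‖ := norm_pos_iff.2 (sub_ne_zero.2 hne)
    positivity
  have h3 : ‖u - v‖ ^ 2 = 2 - 2 * (u.re * v.re + u.im * v.im) := by
    have hu2 : u.re ^ 2 + u.im ^ 2 = 1 := by
      have := Complex.sq_norm u
      rw [hu, Complex.normSq_apply] at this
      nlinarith
    have hv2 : v.re ^ 2 + v.im ^ 2 = 1 := by
      have := Complex.sq_norm v
      rw [hv, Complex.normSq_apply] at this
      nlinarith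
    rw [Complex.sq_norm, Complex.normSq_apply]
    simp only [Complex.sub_re, Complex.sub_im]
    nlinarith
  nlinarith [norm_nonneg (2 * u - v)]

theorem far_refl_pt (hp : dist p z = 1) (hp' : dist p' z = 1) (hne : p ≠ p') {q : ℂ}
    (hq : q + z = 2 * p) : 1 < dist q p' := by
  have h1 : q - p' = 2 * (p - z) - (p' - z) := by linear_combination hq
  rw [dist_eq_norm, h1]
  rw [dist_eq_norm] at hp hp'
  exact far_reflection hp hp' fun e => hne (by linear_combination e)

/-- **Column lemma.** -/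
theorem Irr.cell_discs (h : Irr U T) (hp : dist p z = 1) (hp' : dist p' z = 1) (hne : p ≠ p')
    (hT : T p ⊆ {x, y}) (hT' : T p' ⊆ {x, y'}) (hy : y ∈ Pal U z) (hy' : y' ∈ Pal U z)
    {G : Set ℂ} (hG : IsPreconnected G) (hx : ∀ g ∈ G, x ∈ Pal U g) (hz : z ∉ G)
    {g0 : ℂ} (hg0 : g0 ∈ G) (h0 : dist g0 p < 1) (h0' : dist g0 p' < 1) :
    ∀ g ∈ G, dist g p < 1 ∧ dist g p' < 1 := by
  have hcl : ∀ g ∈ G, dist g p ≤ 1 → dist g p' ≤ 1 → dist g p < 1 ∧ dist g p' < 1 := by
    intro g hg h1 h2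
    refine ⟨lt_of_le_of_ne h1 fun e => ?_, lt_of_le_of_ne h2 fun e => ?_⟩
    · rcases h.two_partner hp hT hy (by rw [dist_comm]; exact e) (hx g hg) with h4 | h4
      · exact hz (h4 ▸ hg)
      · have := far_refl_pt hp hp' hne h4
        linarith
    · rcases h.two_partner hp' hT' hy' (by rw [dist_comm]; exact e) (hx g hg) with h4 | h4
      · exact hz (h4 ▸ hg)
      · have := far_refl_pt hp' hp hne.symm h4
        linarith
  by_contra hcon
  push Not at hcon
  obtain ⟨g1, hg1, hg1'⟩ := hcon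
  have hA : IsOpen {g : ℂ | dist g p < 1 ∧ dist g p' < 1} := by
    have e1 : {g : ℂ | dist g p < 1 ∧ dist g p' < 1} = ball p 1 ∩ ball p' 1 := by
      ext g; simp [mem_ball]
    rw [e1]; exact isOpen_ball.inter isOpen_ball
  have hB : IsOpen {g : ℂ | 1 < dist g p ∨ 1 < dist g p'} := by
    have e1 : {g : ℂ | 1 < dist g p ∨ 1 < dist g p'} = (closedBall p 1)ᶜ ∪ (closedBall p' 1)ᶜ := by
      ext g; simp [mem_closedBall]
    rw [e1]; exact isClosed_closedBall.isOpen_compl.union isClosed_closedBall.isOpen_compl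
  have hcov : G ⊆ {g : ℂ | dist g p < 1 ∧ dist g p' < 1} ∪ {g : ℂ | 1 < dist g p ∨ 1 < dist g p'} := by
    intro g hg
    by_cases h1 : dist g p ≤ 1
    · by_cases h2 : dist g p' ≤ 1
      · exact Or.inl (hcl g hg h1 h2)
      · exact Or.inr (Or.inr (not_le.1 h2))
    · exact Or.inr (Or.inl (not_le.1 h1))
  obtain ⟨g, hg, ⟨h1, h2⟩, h4⟩ := hG _ _ hA hB hcov ⟨g0, hg0, h0, h0'⟩ ⟨g1, hg1, by
    rcases hcov hg1 with h5 | h5
    · exact absurd h5.2 (not_lt.2 (hg1' h5.1))
    · exact h5⟩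
  rcases h4 with h4 | h4 <;> linarith

/-- **Chains.** -/
theorem Irr.chain_discs (h : Irr U T) (hp : dist p z = 1) (hp' : dist p' z = 1) (hne : p ≠ p')
    (hT : T p ⊆ {x, y}) (hT' : T p' ⊆ {x, y'}) (hy : y ∈ Pal U z) (hy' : y' ∈ Pal U z)
    {s : ℕ → Set ℂ} {w : ℕ → ℂ} (hs : ∀ n, IsPreconnected (s n))
    (hx : ∀ n, ∀ g ∈ s n, x ∈ Pal U g) (hz : ∀ n, z ∉ s n) (hw : ∀ n, w n ∈ s n)
    (hw' : ∀ n, w (n + 1) ∈ s n) (h0 : dist (w 0) p < 1) (h0' : dist (w 0) p' < 1) :
    ∀ n, ∀ g ∈ s n, dist g p < 1 ∧ dist g p' < 1 := by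
  have key : ∀ n, dist (w n) p < 1 ∧ dist (w n) p' < 1 := by
    intro n
    induction n with
    | zero => exact ⟨h0, h0'⟩
    | succ n ih =>
      exact h.cell_discs hp hp' hne hT hT' hy hy' (hs n) (hx n) (hz n) (hw n) ih.1 ih.2 _ (hw' n)
  intro n
  exact h.cell_discs hp hp' hne hT hT' hy hy' (hs n) (hx n) (hz n) (hw n) (key n).1 (key n).2

/-- the junction points of a chain, if they have at least four colours and such points are locally
finite -/
theorem Irr.chain_finite (h : Irr U T) (hp : dist p z = 1) (hp' : dist p' z = 1) (hne : p ≠ p')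
    (hT : T p ⊆ {x, y}) (hT' : T p' ⊆ {x, y'}) (hy : y ∈ Pal U z) (hy' : y' ∈ Pal U z)
    {s : ℕ → Set ℂ} {w : ℕ → ℂ} (hs : ∀ n, IsPreconnected (s n))
    (hx : ∀ n, ∀ g ∈ s n, x ∈ Pal U g) (hz : ∀ n, z ∉ s n) (hw : ∀ n, w n ∈ s n)
    (hw' : ∀ n, w (n + 1) ∈ s n) (h0 : dist (w 0) p < 1) (h0' : dist (w 0) p' < 1)
    (h4 : ∀ n, 4 ≤ (T (w n)).ncard)
    (hLF : ∀ (c : ℂ) (R : ℝ), (closedBall c R ∩ {v | 4 ≤ (T v).ncard}).Finite) :
    (range w).Finite := by
  have key := h.chain_discs hp hp' hne hT hT' hy hy' hs hx hz hw hw' h0 h0'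
  refine (hLF p 1).subset ?_
  rintro _ ⟨n, rfl⟩
  exact ⟨mem_closedBall.2 (key n (w n) (hw n)).1.le, h4 n⟩

/-- **near or far** -/
theorem Mx.far_or_near (h : Mx U) {A B : Set ℂ} (hA : IsPreconnected A) (hB : IsPreconnected B)
    (hAU : A ⊆ U x) (hBU : B ⊆ U x) :
    (∀ a ∈ A, ∀ b ∈ B, dist a b < 1) ∨ ∀ a ∈ A, ∀ b ∈ B, 1 < dist a b := by
  have h1 : ∀ a ∈ A, ∀ b ∈ B, dist a b ≠ 1 := fun a ha b hb =>
    h.free x a (hAU ha) b (subset_closure (hBU hb))
  have hAB : IsPreconnected (A ×ˢ B) := hA.prod hB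
  have h2 : IsPreconnected ((fun r : ℂ × ℂ => dist r.1 r.2) '' (A ×ˢ B)) :=
    hAB.image _ (by fun_prop)
  by_contra hcon
  rw [not_or] at hcon
  obtain ⟨c1, c2⟩ := hcon
  push Not at c1 c2
  obtain ⟨a, ha, b, hb, hab⟩ := c1
  obtain ⟨a', ha', b', hb', hab'⟩ := c2
  have h3 : (1 : ℝ) ∈ (fun r : ℂ × ℂ => dist r.1 r.2) '' (A ×ˢ B) := by
    refine h2.ordConnected.out ⟨(a', b'), ⟨ha', hb'⟩, rfl⟩ ⟨(a, b), ⟨ha, hb⟩, rfl⟩ ⟨hab', hab⟩
  obtain ⟨⟨a'', b''⟩, ⟨ha'', hb''⟩, he⟩ := h3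
  exact h1 a'' ha'' b'' hb'' he

end Vale.Agent.P032.Six
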