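import Vale.Agent.P032.H587.Block
import Vale.Agent.P032.H249.RhD5
import Vale.Agent.P032.H630.Del

/-!
# P032: the rhombus over two delta ends (wild form), rules

`z = (x x' | c d)`.  `D : Del U T z V x x' c d e f ρ σ` : `V = (x e | x' c)`.

* `Del.other` : any other circle `S(w)` through `V`: with `τ` the half branch on the side of `x'`,
  `T ⊆ {x', e}` on `τ` and `T ⊆ {x, c}` on `- τ`, or `{x'}` and `{e, c}`, or `{e}` and `{x}`.
* `Irr.par_single` : a colour carried by a half branch of `S(z)` at `V` is absent on the parallel half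
  branch of `S(q)` at `V + q - z`.
* `Irr.half_dich` : a half branch of `S(V)`, `V` a two-pair point, with palettes inside `T V` is exact.
* `Irr.delta_contacts`, `Irr.delta_low` : contacts of a third circle at a delta end.
* `Del.rules_f`, `Del.rules_e`, `Del.v1s`, `Del.rule2f`, `Del.rule2e` : the corner `w = V + q - z`.
* `Del.low_A`, `Del.low_B`, `Del.low_C` : the lists of `T w` with at most three colours, complementary
  ends with different letters beyond; `Del.same_A`, `Del.same_B`, `Del.same_C` : the same letter: the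
  sixth colour is on `w` unless `w` has two explicit four-coloured palettes.
* `Del.no_same_wall` : the remaining type is the same wall.
-/

open Set Filter Topology Metric

noncomputable section

namespace Vale.Agent.P032.Six

variable {U : Fin 6 → Set ℂ} {T : ℂ → Set (Fin 6)}

/-- a half branch of a half branch point -/
theorem hb_hb (z V : ℂ) (τ s τ' t : ℝ) : hb z (hb z V τ s) τ' t = z + (V - z) * cis (τ * s + τ' * t) := by
  unfold hb
  rw [cis_add587]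
  ring

/-- **a single colour on parallel half branches** -/
theorem Irr.par_single (h : Irr U T) {z V q : ℂ} {e : Fin 6} {τ : ℝ} (hτ : τ = 1 ∨ τ = -1)
    (hVz : dist V z = 1) (hqz : dist q z = 1) (hne : q ≠ V) (hanti : q + V ≠ 2 * z)
    (hx : ∀ᶠ t : ℝ in 𝓝[>] 0, e ∈ T (hb z V τ t)) :
    ∀ᶠ t : ℝ in 𝓝[>] 0, e ∉ T (hb q (V + q - z) τ t) := by
  have hpar : ∀ t : ℝ, hb q (V + q - z) τ t = q + hb z V τ t - z := by
    intro t; unfold hb; ring
  have h1 : ∀ᶠ t : ℝ in 𝓝[>] 0, q + hb z V τ t ≠ 2 * z := by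
    have h2 : ∀ᶠ x in 𝓝 V, q + x ≠ 2 * z :=
      (isOpen_ne_fun (continuous_const.add continuous_id) continuous_const).mem_nhds hanti
    exact (tendsto_hb z V τ).eventually h2
  have h1' : ∀ᶠ t : ℝ in 𝓝[>] 0, hb z V τ t ≠ q := by
    have h2 : ∀ᶠ x in 𝓝 V, x ≠ q := isOpen_ne.mem_nhds hne.symm
    exact (tendsto_hb z V τ).eventually h2
  obtain ⟨η, hη, hsub⟩ := mem_nhdsGT_iff_exists_Ioo_subset.1 (hx.and (h1.and h1'))
  rw [mem_Ioi] at hη
  filter_upwards [Ioo_mem_nhdsGT hη] with s hs hcon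
  obtain ⟨-, m2, m3⟩ := hsub hs
  rw [hpar] at hcon
  set X := hb z V τ s with hX
  have hXz : dist X z = 1 := dist_hb hVz τ s
  have hXY : dist X (q + X - z) = 1 := by
    rw [dist_eq_norm, show X - (q + X - z) = z - q by ring, ← dist_eq_norm, dist_comm]; exact hqz
  have hYX : dist (q + X - z) X = 1 := by rw [dist_comm]; exact hXY
  have hsg : sg z X (q + X - z) ≠ 0 := sg_ne hXz hYX
    (fun h2 => m2 (by linear_combination h2)) (fun h2 => m3 (by linear_combination -h2))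
  -- the colour on both half branches of `S(z)` at `X`
  have hboth : ∀ τ' : ℝ, (τ' = 1 ∨ τ' = -1) → ∀ᶠ t : ℝ in 𝓝[>] 0, e ∈ T (hb z X τ' t) := by
    intro τ' hτ'
    have hc : Tendsto (fun t : ℝ => s + τ * τ' * t) (𝓝[>] 0) (𝓝 s) := by
      have : Continuous fun t : ℝ => s + τ * τ' * t := by fun_prop
      have h2 := this.tendsto 0
      simp only [mul_zero, add_zero] at h2
      exact h2.mono_left nhdsWithin_le_nhds
    filter_upwards [hc.eventually (Ioo_mem_nhds hs.1 hs.2)] with t ht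
    have h3 := (hsub ht).1
    have e1 : hb z X τ' t = hb z V τ (s + τ * τ' * t) := by
      rw [hX, hb_hb]
      unfold hb
      have h4 : τ * τ = 1 := by rcases hτ with h5 | h5 <;> rw [h5] <;> norm_num
      have h6 : τ * (s + τ * τ' * t) = τ * s + τ' * t := by
        have : τ * (s + τ * τ' * t) = τ * s + (τ * τ) * τ' * t := by ring
        rw [this, h4, one_mul]
      rw [h6]
    rw [e1]
    exact h3
  have k1 : OutF U X (q + X - z) e := by
    rcases lt_or_gt_of_ne hsg with h2 | h2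
    · exact h.br_out (hboth 1 (Or.inl rfl)) hYX (by rw [one_mul]; exact h2)
    · exact h.br_out (hboth (-1) (Or.inr rfl)) hYX (by linarith)
  have k2 : InF U X (q + X - z) e := by
    rcases lt_or_gt_of_ne hsg with h2 | h2
    · exact h.br_in (hboth (-1) (Or.inr rfl)) hYX (by linarith)
    · exact h.br_in (hboth 1 (Or.inl rfl)) hYX (by rw [one_mul]; exact h2)
  exact h.not_both_free hcon k1 k2

/-- **dichotomy**: a half branch of `S(V)` inside `T V` is exact -/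
theorem Irr.half_dich (h : Irr U T) {V w : ℂ} {a b c d : Fin 6} (hV : DPt T V a b c d)
    (hw : dist w V = 1) {τ : ℝ} (hτ : τ = 1 ∨ τ = -1)
    (hT : ∀ᶠ t : ℝ in 𝓝[>] 0, T (hb V w τ t) ⊆ T V) :
    (∀ᶠ t : ℝ in 𝓝[>] 0, T (hb V w τ t) = {a, b}) ∨
      ∀ᶠ t : ℝ in 𝓝[>] 0, T (hb V w τ t) = {c, d} := by
  by_cases h1 : ∀ᶠ t : ℝ in 𝓝[>] 0, ¬ Arc T V (hb V w τ t) {c, d}
  · exact Or.inl (h.half_exact hV hw hτ hT h1)
  by_cases h2 : ∀ᶠ t : ℝ in 𝓝[>] 0, ¬ Arc T V (hb V w τ t) {a, b}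
  · exact Or.inr (h.half_exact hV.swap hw hτ hT h2)
  exfalso
  have f1 : ∃ᶠ t : ℝ in 𝓝[>] 0, Arc T V (hb V w τ t) {c, d} := h1
  have f2 : ∃ᶠ t : ℝ in 𝓝[>] 0, Arc T V (hb V w τ t) {a, b} := h2
  obtain ⟨σ, hσ⟩ := h.exists_ori hV hw
  have hall : ∀ᶠ t : ℝ in 𝓝[>] 0, Ori U V (hb V w τ t) a b σ ∧ 0 < t ∧ t < 1 :=
    ((tendsto_hb V w τ).eventually hσ.nhd).and (ev_small one_pos)
  obtain ⟨t3, A3, o3, l3, l3'⟩ := (f2.and_eventually hall).exists
  obtain ⟨t2, ⟨A2, -, l2, -⟩, l23⟩ :=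
    ((f1.and_eventually hall).and_eventually (Ioo_mem_nhdsGT l3)).exists
  obtain ⟨t1, ⟨A1, o1, l1, -⟩, l12⟩ :=
    ((f2.and_eventually hall).and_eventually (Ioo_mem_nhdsGT l2)).exists
  have hπ := Real.pi_gt_three
  have key : c ∉ Pal U (hb V w τ t2) := by
    rw [hb_eq_an] at A1 A3 o1 o3 ⊢
    rcases hτ with rfl | rfl
    · exact (h.zone_an hV hw (r1 := 1 * t1) (s := 1 * t2) (r2 := 1 * t3) (by linarith [l12.2])
        (by linarith [l23.2]) (by linarith) (by linarith) A1 A3 o1 o3).1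
    · exact (h.zone_an hV hw (r1 := -1 * t3) (s := -1 * t2) (r2 := -1 * t1)
        (by linarith [l23.2]) (by linarith [l12.2]) (by linarith) (by linarith) A3 A1 o3 o1).1
  exact key (h.sub _ (by rw [A2.2.self_of_nhdsWithin A2.1]; simp))

/-- the palette is not empty -/
theorem Irr.ne_empty587 (h : Irr U T) (y : ℂ) {X : Set (Fin 6)} (hX : T y ⊆ X) (hX' : X ⊆ ∅) :
    False := by
  obtain ⟨i, hi⟩ := h.ne y
  exact hX' (hX hi)

/-- **Another circle at a delta end.** -/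
theorem Irr.delta_other (h : Irr U T) {z V w : ℂ} {x x' c d e : Fin 6} (hz : DPt T z x x' c d)
    (hVz : dist V z = 1) (hDV : DPt T V x e x' c) (hVw : dist V w = 1) (hwz : w ≠ z)
    (hwz2 : w + z ≠ 2 * V) : ∃ τ : ℝ, (τ = 1 ∨ τ = -1) ∧
      ((Sd U z V x' x ∧ τ * sg w V z < 0) ∨ (Sd U z V x x' ∧ 0 < τ * sg w V z)) ∧
      (((∀ᶠ t : ℝ in 𝓝[>] 0, T (hb w V τ t) ⊆ {x', e}) ∧
          ∀ᶠ t : ℝ in 𝓝[>] 0, T (hb w V (-τ) t) ⊆ {x, c}) ∨
        ((∀ᶠ t : ℝ in 𝓝[>] 0, T (hb w V τ t) ⊆ {x'}) ∧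
          ∀ᶠ t : ℝ in 𝓝[>] 0, T (hb w V (-τ) t) ⊆ {e, c}) ∨
        ((∀ᶠ t : ℝ in 𝓝[>] 0, T (hb w V τ t) ⊆ {e}) ∧
          ∀ᶠ t : ℝ in 𝓝[>] 0, T (hb w V (-τ) t) ⊆ {x})) := by
  have hzV : dist z V = 1 := by rw [dist_comm]; exact hVz
  have hsg : sg w V z ≠ 0 := sg_ne hVw hzV hwz.symm (by rw [add_comm]; exact hwz2)
  have hz' : DPt T z x' x c d := hz.swap12
  have hV' : DPt T V x' c x e := hDV.swap
  -- the two sides
  have hside : ∃ τ : ℝ, (τ = 1 ∨ τ = -1) ∧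
      ((Sd U z V x' x ∧ τ * sg w V z < 0) ∨ (Sd U z V x x' ∧ 0 < τ * sg w V z)) ∧
      (∀ᶠ t : ℝ in 𝓝[>] 0, T (hb w V τ t) ⊆ {x', e}) ∧
      ∀ᶠ t : ℝ in 𝓝[>] 0, T (hb w V (-τ) t) ⊆ {x, c, e} := by
    rcases h.delta_side hz' hV' hVz with hs | hs
    · obtain ⟨τ, hτ, hτ'⟩ := (exists_sign hsg).1
      refine ⟨τ, hτ, Or.inl ⟨hs.1, hτ'⟩, ?_, ?_⟩
      · filter_upwards [hb_in (z := w) (v := V) (g := z) hzV hτ',
          (tendsto_hb w V τ).eventually (h.delta_near hV' hs).1] with t h1 h2 using h2 h1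
      · filter_upwards [hb_out (z := w) (v := V) (g := z) hzV (τ := -τ) (by linarith),
          (tendsto_hb w V (-τ)).eventually (h.delta_near hV' hs).2] with t h1 h2 using h2 h1
    · obtain ⟨τ, hτ, hτ'⟩ := (exists_sign hsg).2
      refine ⟨τ, hτ, Or.inr ⟨hs.1, hτ'⟩, ?_, ?_⟩
      · filter_upwards [hb_out (z := w) (v := V) (g := z) hzV hτ',
          (tendsto_hb w V τ).eventually (h.delta_near' hV' hs).1] with t h1 h2 using h2 h1
      · filter_upwards [hb_in (z := w) (v := V) (g := z) hzV (τ := -τ) (by linarith),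
          (tendsto_hb w V (-τ)).eventually (h.delta_near' hV' hs).2] with t h1 h2 using h2 h1
  obtain ⟨τ, hτ, hs, s1, s2⟩ := hside
  refine ⟨τ, hτ, hs, ?_⟩
  obtain ⟨nxe, nxx', nxc, nex', nec, nx'c⟩ : x ≠ e ∧ x ≠ x' ∧ x ≠ c ∧ e ≠ x' ∧ e ≠ c ∧ x' ≠ c :=
    ⟨hDV.ab, hDV.ac, hDV.ad, hDV.bc, hDV.bd, hDV.cd⟩
  -- the germ, with the half branches `τ`, `-τ`
  have hg : ((∀ᶠ t : ℝ in 𝓝[>] 0, T (hb w V τ t) ⊆ {x, x'}) ∧
        ∀ᶠ t : ℝ in 𝓝[>] 0, T (hb w V (-τ) t) ⊆ {e, c}) ∨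
      ((∀ᶠ t : ℝ in 𝓝[>] 0, T (hb w V τ t) ⊆ {x, c}) ∧
        ∀ᶠ t : ℝ in 𝓝[>] 0, T (hb w V (-τ) t) ⊆ {e, x'}) ∨
      ((∀ᶠ t : ℝ in 𝓝[>] 0, T (hb w V τ t) ⊆ {e, x'}) ∧
        ∀ᶠ t : ℝ in 𝓝[>] 0, T (hb w V (-τ) t) ⊆ {x, c}) ∨
      ((∀ᶠ t : ℝ in 𝓝[>] 0, T (hb w V τ t) ⊆ {e, c}) ∧
        ∀ᶠ t : ℝ in 𝓝[>] 0, T (hb w V (-τ) t) ⊆ {x, x'}) := by
    rcases h.germ_branch hDV hVw with h1 | h1 | h1 | h1 <;> rcases hτ with rfl | rfl
    · exact Or.inl h1
    · right; right; right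
      rw [neg_neg]; exact ⟨h1.2, h1.1⟩
    · exact Or.inr (Or.inl h1)
    · right; right; left
      rw [neg_neg]; exact ⟨h1.2, h1.1⟩
    · exact Or.inr (Or.inr (Or.inl h1))
    · right; left
      rw [neg_neg]; exact ⟨h1.2, h1.1⟩
    · exact Or.inr (Or.inr (Or.inr h1))
    · left
      rw [neg_neg]; exact ⟨h1.2, h1.1⟩
  rcases hg with ⟨g1, g2⟩ | ⟨g1, g2⟩ | ⟨g1, g2⟩ | ⟨g1, g2⟩
  · right; left
    refine ⟨?_, g2⟩
    filter_upwards [s1, g1] with t h1 h2 i hi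
    have h3 := h1 hi
    have h4 := h2 hi
    simp only [mem_insert_iff, mem_singleton_iff] at h3 h4 ⊢
    rcases h4 with rfl | rfl
    · rcases h3 with h3 | h3
      · exact h3
      · exact absurd h3 nxe
    · rfl
  · exfalso
    obtain ⟨t, h1, h2⟩ := (s1.and g1).exists
    obtain ⟨i, hi⟩ := h.ne (hb w V τ t)
    have h3 := h1 hi
    have h4 := h2 hi
    simp only [mem_insert_iff, mem_singleton_iff] at h3 h4
    rcases h4 with rfl | rfl <;> rcases h3 with h3 | h3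
    · exact nxx' h3
    · exact nxe h3
    · exact nx'c h3.symm
    · exact nec h3.symm
  · left
    exact ⟨s1, g2⟩
  · right; right
    constructor
    · filter_upwards [s1, g1] with t h1 h2 i hi
      have h3 := h1 hi
      have h4 := h2 hi
      simp only [mem_insert_iff, mem_singleton_iff] at h3 h4 ⊢
      rcases h4 with rfl | rfl
      · rfl
      · rcases h3 with h3 | h3
        · exact absurd h3.symm nx'c
        · exact h3
    · filter_upwards [s2, g2] with t h1 h2 i hi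
      have h3 := h1 hi
      have h4 := h2 hi
      simp only [mem_insert_iff, mem_singleton_iff] at h3 h4 ⊢
      rcases h4 with rfl | rfl
      · rfl
      · rcases h3 with h3 | h3 | h3
        · exact h3
        · exact absurd h3 nx'c
        · exact absurd h3.symm nex'

/-- a half branch with palettes inside a two-element set of colours of the centre -/
theorem Irr.single_hb (h : Irr U T) {w V : ℂ} {i : Fin 6} {τ : ℝ} (hVw : dist V w = 1)
    (h1 : ∀ᶠ t : ℝ in 𝓝[>] 0, T (hb w V τ t) ⊆ {i}) : i ∉ T w := by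
  intro hi
  obtain ⟨t, ht⟩ := h1.exists
  exact h.not_single (h.sub _ hi) (dist_hb hVw τ t) ht

/-- an exact half branch of `S(w)` at `V` -/
def Eh (T : ℂ → Set (Fin 6)) (w V : ℂ) (P : Set (Fin 6)) : Prop :=
  ∃ τ : ℝ, (τ = 1 ∨ τ = -1) ∧ ∀ᶠ t : ℝ in 𝓝[>] 0, T (hb w V τ t) = P

/-- an exact half branch inside `T w` forces at least four colours -/
theorem Irr.Eh_card (h : Irr U T) {w V : ℂ} {i j : Fin 6} (hVw : dist V w = 1) (hi : i ∈ T w)
    (hj : j ∈ T w) (he : Eh T w V {i, j}) : 4 ≤ (T w).ncard := by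
  obtain ⟨τ, -, ht⟩ := he
  obtain ⟨t, ht⟩ := ht.exists
  by_contra hcon
  push Not at hcon
  have h3 : (T w).ncard ≤ 3 := by omega
  obtain ⟨l, hl, hlw⟩ := h.not_sub' (x := w) (y := hb w V τ t) (dist_hb hVw τ t) h3
  rw [ht] at hl
  rcases hl with rfl | hl
  · exact hlw hi
  · rw [mem_singleton_iff] at hl
    subst hl
    exact hlw hj

/-- **Contacts at a delta end**, `w` another centre. -/
theorem Irr.delta_contacts (h : Irr U T) {z V w : ℂ} {x x' c d e : Fin 6} (hz : DPt T z x x' c d)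
    (hVz : dist V z = 1) (hDV : DPt T V x e x' c) (hVw : dist V w = 1) (hwz : w ≠ z)
    (hwz2 : w + z ≠ 2 * V) : (x' ∈ T w → e ∈ T w → Eh T w V {x', e}) ∧
      (x' ∈ T w → x ∈ T w → c ∈ T w → Eh T w V {x, c}) ∧
      (x ∈ T w → c ∈ T w → e ∈ T w → Eh T w V {x, c} ∨ Eh T w V {e, c}) := by
  obtain ⟨τ, hτ, -, hg⟩ := h.delta_other hz hVz hDV hVw hwz hwz2
  have hτ' : -τ = 1 ∨ -τ = -1 := by
    rcases hτ with rfl | rfl
    · exact Or.inr rfl
    · exact Or.inl (neg_neg _)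
  refine ⟨fun h1 h2 => ?_, fun h1 h2 h3 => ?_, fun h1 h2 h3 => ?_⟩
  · rcases hg with ⟨g1, -⟩ | ⟨g1, -⟩ | ⟨g1, -⟩
    · exact ⟨τ, hτ, h.hb_exact hVw g1 (h.sub _ h1) (h.sub _ h2)⟩
    · exact (h.single_hb hVw g1 h1).elim
    · exact (h.single_hb hVw g1 h2).elim
  · rcases hg with ⟨-, g2⟩ | ⟨g1, -⟩ | ⟨-, g2⟩
    · exact ⟨-τ, hτ', h.hb_exact hVw g2 (h.sub _ h2) (h.sub _ h3)⟩
    · exact (h.single_hb hVw g1 h1).elim
    · exact (h.single_hb hVw g2 h2).elim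
  · rcases hg with ⟨-, g2⟩ | ⟨-, g2⟩ | ⟨-, g2⟩
    · exact Or.inl ⟨-τ, hτ', h.hb_exact hVw g2 (h.sub _ h1) (h.sub _ h2)⟩
    · exact Or.inr ⟨-τ, hτ', h.hb_exact hVw g2 (h.sub _ h3) (h.sub _ h2)⟩
    · exact (h.single_hb hVw g2 h1).elim

/-- the low case -/
theorem Irr.delta_low (h : Irr U T) {z V w : ℂ} {x x' c d e : Fin 6} (hz : DPt T z x x' c d)
    (hVz : dist V z = 1) (hDV : DPt T V x e x' c) (hVw : dist V w = 1) (hwz : w ≠ z)
    (hwz2 : w + z ≠ 2 * V) (h3 : (T w).ncard ≤ 3) : ¬ (x' ∈ T w ∧ e ∈ T w) ∧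
      ¬ (x' ∈ T w ∧ x ∈ T w ∧ c ∈ T w) ∧ ¬ (x ∈ T w ∧ c ∈ T w ∧ e ∈ T w) := by
  obtain ⟨k1, k2, k3⟩ := h.delta_contacts hz hVz hDV hVw hwz hwz2
  refine ⟨fun ⟨m1, m2⟩ => ?_, fun ⟨m1, m2, m3⟩ => ?_, fun ⟨m1, m2, m3⟩ => ?_⟩
  · have := h.Eh_card hVw m1 m2 (k1 m1 m2)
    omega
  · have := h.Eh_card hVw m2 m3 (k2 m1 m2 m3)
    omega
  · rcases k3 m1 m2 m3 with k | k
    · have := h.Eh_card hVw m1 m2 k
      omega
    · have := h.Eh_card hVw m3 m2 k
      omega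

namespace Del

variable {z V q : ℂ} {x x' c d e f y y' k l g g' : Fin 6} {ρ σ ρ' σ' : ℝ}

/-- **parallel half branches**: `S(q)` at `V + q - z` misses `x, x'` on the half branch `ρ` and `e` on
`- ρ` -/
theorem par (D : Del U T z V x x' c d e f ρ σ) (h : Irr U T) (hqz : dist q z = 1) (hne : q ≠ V)
    (hanti : q + V ≠ 2 * z) :
    (∀ᶠ t : ℝ in 𝓝[>] 0, x ∉ T (hb q (V + q - z) ρ t) ∧ x' ∉ T (hb q (V + q - z) ρ t)) ∧
      ∀ᶠ t : ℝ in 𝓝[>] 0, e ∉ T (hb q (V + q - z) (-ρ) t) := by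
  have hxz : x ∈ T z := by rw [D.hz.pal]; simp
  have hxz' : x' ∈ T z := by rw [D.hz.pal]; simp
  refine ⟨h.par_miss hxz hxz' D.hV hqz hne hanti D.ex, ?_⟩
  refine h.par_single ?_ D.hV hqz hne hanti ((D.beyond h).mono fun t ht => ht.2)
  rcases D.hρ with rfl | rfl
  · exact Or.inr rfl
  · exact Or.inl (neg_neg _)

/-- `f` is the only colour outside `T z`, `T V` -/
theorem sub_V (D : Del U T z V x x' c d e f ρ σ) {w : ℂ} {τ : ℝ}
    (h1 : ∀ᶠ t : ℝ in 𝓝[>] 0, d ∉ T (hb V w τ t)) (h2 : ∀ᶠ t : ℝ in 𝓝[>] 0, f ∉ T (hb V w τ t)) :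
    ∀ᶠ t : ℝ in 𝓝[>] 0, T (hb V w τ t) ⊆ T V := by
  filter_upwards [h1, h2] with t m1 m2 i hi
  rw [D.hDV.pal]
  rcases D.cov i with rfl | rfl | rfl | rfl | rfl | rfl
  · simp
  · simp
  · simp
  · exact absurd hi m1
  · simp
  · exact absurd hi m2

/-- absent at the point, absent near it -/
theorem _root_.Vale.Agent.P032.Six.Irr.ev_not (h : Irr U T) {V w : ℂ} {i : Fin 6} {τ : ℝ} (hi : i ∉ T w) :
    ∀ᶠ t : ℝ in 𝓝[>] 0, i ∉ T (hb V w τ t) := by
  filter_upwards [(tendsto_hb V w τ).eventually (h.nhd w)] with t ht hcon using hi (ht hcon)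

/-- **V1**: over the `cd`-arc of `S(z)` ending at `q`: if `f` is absent, `S(V)` is exact `x e` -/
theorem v1 (D : Del U T z V x x' c d e f ρ σ) (h : Irr U T) (E : Del U T z q y y' k l g g' ρ' σ')
    (hyy : (y = c ∧ y' = d) ∨ (y = d ∧ y' = c)) (hne : q ≠ V) (hanti : q + V ≠ 2 * z)
    (hf : f ∉ T (V + q - z)) : ∀ᶠ t : ℝ in 𝓝[>] 0, T (hb V (V + q - z) ρ' t) = {x, e} := by
  have hm := (E.par h D.hV hne.symm (by rw [add_comm]; exact hanti)).1
  rw [show q + V - z = V + q - z by ring] at hm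
  have hwV : dist (V + q - z) V = 1 := dist_trans2 E.hV
  have hc : ∀ᶠ t : ℝ in 𝓝[>] 0, c ∉ T (hb V (V + q - z) ρ' t) := by
    rcases hyy with ⟨rfl, rfl⟩ | ⟨rfl, rfl⟩
    · exact hm.mono fun t ht => ht.1
    · exact hm.mono fun t ht => ht.2
  have hd : ∀ᶠ t : ℝ in 𝓝[>] 0, d ∉ T (hb V (V + q - z) ρ' t) := by
    rcases hyy with ⟨rfl, rfl⟩ | ⟨rfl, rfl⟩
    · exact hm.mono fun t ht => ht.2
    · exact hm.mono fun t ht => ht.1
  rcases h.half_dich D.hDV hwV E.hρ (D.sub_V hd (h.ev_not hf)) with h1 | h1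
  · exact h1
  · obtain ⟨t, m1, m2⟩ := (h1.and hc).exists
    exact absurd (by rw [m1]; simp) m2

/-- **V2**, the letter beyond `q` is `e`: if `d, f` are absent, `S(V)` is exact `x' c` beyond -/
theorem v2e (D : Del U T z V x x' c d e f ρ σ) (h : Irr U T)
    (E : Del U T z q y y' k l e g' ρ' σ') (hne : q ≠ V) (hanti : q + V ≠ 2 * z)
    (hd : d ∉ T (V + q - z)) (hf : f ∉ T (V + q - z)) :
    ∀ᶠ t : ℝ in 𝓝[>] 0, T (hb V (V + q - z) (-ρ') t) = {x', c} := by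
  have hm := (E.par h D.hV hne.symm (by rw [add_comm]; exact hanti)).2
  rw [show q + V - z = V + q - z by ring] at hm
  have hwV : dist (V + q - z) V = 1 := dist_trans2 E.hV
  have hρ : -ρ' = 1 ∨ -ρ' = -1 := by
    rcases E.hρ with h1 | h1 <;> rw [h1] <;> norm_num
  rcases h.half_dich D.hDV hwV hρ (D.sub_V (h.ev_not hd) (h.ev_not hf)) with h1 | h1
  · obtain ⟨t, m1, m2⟩ := (h1.and hm).exists
    exact absurd (by rw [m1]; simp) m2
  · exact h1

/-- **V2**, the letter beyond `q` is `f`: if `d` is absent, `S(V)` is exact beyond -/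
theorem v2f (D : Del U T z V x x' c d e f ρ σ) (h : Irr U T)
    (E : Del U T z q y y' k l f g' ρ' σ') (hne : q ≠ V) (hanti : q + V ≠ 2 * z)
    (hd : d ∉ T (V + q - z)) :
    (∀ᶠ t : ℝ in 𝓝[>] 0, T (hb V (V + q - z) (-ρ') t) = {x, e}) ∨
      ∀ᶠ t : ℝ in 𝓝[>] 0, T (hb V (V + q - z) (-ρ') t) = {x', c} := by
  have hm := (E.par h D.hV hne.symm (by rw [add_comm]; exact hanti)).2
  rw [show q + V - z = V + q - z by ring] at hm
  have hwV : dist (V + q - z) V = 1 := dist_trans2 E.hV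
  have hρ : -ρ' = 1 ∨ -ρ' = -1 := by
    rcases E.hρ with h1 | h1 <;> rw [h1] <;> norm_num
  exact h.half_dich D.hDV hwV hρ (D.sub_V (h.ev_not hd) hm)

/-- the colours of an exact half branch belong to the point -/
theorem _root_.Vale.Agent.P032.Six.Irr.mem2 (h : Irr U T) {V w : ℂ} {i j : Fin 6} {τ : ℝ}
    (hx : ∀ᶠ t : ℝ in 𝓝[>] 0, T (hb V w τ t) = {i, j}) : i ∈ T w ∧ j ∈ T w :=
  ⟨h.mem_of_hb (hx.mono fun t ht => by rw [ht]; simp),
    h.mem_of_hb (hx.mono fun t ht => by rw [ht]; simp)⟩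

/-- **Rules, complementary ends, different letters** (`e` beyond `V`, `f` beyond `q`),
`q = (y f | y' k)`: memberships in `T (V + q - z)` -/
theorem rules_f (D : Del U T z V x x' c d e f ρ σ) (h : Irr U T)
    (E : Del U T z q y y' k l f e ρ' σ') (hyy : (y = c ∧ y' = d) ∨ (y = d ∧ y' = c))
    (hkl : (x = k ∧ x' = l) ∨ (x = l ∧ x' = k)) (hne : q ≠ V) (hanti : q + V ≠ 2 * z) :
    (f ∈ T (V + q - z) ∨ (x ∈ T (V + q - z) ∧ e ∈ T (V + q - z))) ∧
    (d ∈ T (V + q - z) ∨ (x ∈ T (V + q - z) ∧ e ∈ T (V + q - z)) ∨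
      (x' ∈ T (V + q - z) ∧ c ∈ T (V + q - z))) ∧
    (e ∈ T (V + q - z) ∨ (y ∈ T (V + q - z) ∧ f ∈ T (V + q - z))) ∧
    (l ∈ T (V + q - z) ∨ (y ∈ T (V + q - z) ∧ f ∈ T (V + q - z)) ∨
      (y' ∈ T (V + q - z) ∧ k ∈ T (V + q - z))) := by
  have e1 : q + V - z = V + q - z := by ring
  have hne' : V ≠ q := hne.symm
  have hanti' : V + q ≠ 2 * z := by rw [add_comm]; exact hanti
  refine ⟨?_, ?_, ?_, ?_⟩
  · by_cases hf : f ∈ T (V + q - z)
    · exact Or.inl hf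
    · exact Or.inr (h.mem2 (D.v1 h E hyy hne hanti hf))
  · by_cases hd : d ∈ T (V + q - z)
    · exact Or.inl hd
    · rcases D.v2f h E hne hanti hd with h1 | h1
      · exact Or.inr (Or.inl (h.mem2 h1))
      · exact Or.inr (Or.inr (h.mem2 h1))
  · by_cases he : e ∈ T (V + q - z)
    · exact Or.inl he
    · right
      have := E.v1 h D hkl hne' hanti' (by rw [e1]; exact he)
      rw [e1] at this
      exact h.mem2 this
  · by_cases hl : l ∈ T (V + q - z)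
    · exact Or.inl hl
    · right
      rcases E.v2f h D hne' hanti' (by rw [e1]; exact hl) with h1 | h1 <;> rw [e1] at h1
      · exact Or.inl (h.mem2 h1)
      · exact Or.inr (h.mem2 h1)

/-- **Rules, complementary ends, same letter** `e`, `q = (y e | y' k)` -/
theorem rules_e (D : Del U T z V x x' c d e f ρ σ) (h : Irr U T)
    (E : Del U T z q y y' k l e f ρ' σ') (hyy : (y = c ∧ y' = d) ∨ (y = d ∧ y' = c))
    (hkl : (x = k ∧ x' = l) ∨ (x = l ∧ x' = k)) (hne : q ≠ V) (hanti : q + V ≠ 2 * z) :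
    (f ∈ T (V + q - z) ∨ (x ∈ T (V + q - z) ∧ e ∈ T (V + q - z))) ∧
    (d ∈ T (V + q - z) ∨ f ∈ T (V + q - z) ∨ (x' ∈ T (V + q - z) ∧ c ∈ T (V + q - z))) ∧
    (f ∈ T (V + q - z) ∨ (y ∈ T (V + q - z) ∧ e ∈ T (V + q - z))) ∧
    (l ∈ T (V + q - z) ∨ f ∈ T (V + q - z) ∨ (y' ∈ T (V + q - z) ∧ k ∈ T (V + q - z))) := by
  have e1 : q + V - z = V + q - z := by ring
  have hne' : V ≠ q := hne.symm
  have hanti' : V + q ≠ 2 * z := by rw [add_comm]; exact hanti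
  by_cases hf : f ∈ T (V + q - z)
  · exact ⟨Or.inl hf, Or.inr (Or.inl hf), Or.inl hf, Or.inr (Or.inl hf)⟩
  refine ⟨?_, ?_, ?_, ?_⟩
  · exact Or.inr (h.mem2 (D.v1 h E hyy hne hanti hf))
  · by_cases hd : d ∈ T (V + q - z)
    · exact Or.inl hd
    · exact Or.inr (Or.inr (h.mem2 (D.v2e h E hne hanti hd hf)))
  · right
    have := E.v1 h D hkl hne' hanti' (by rw [e1]; exact hf)
    rw [e1] at this
    exact h.mem2 this
  · by_cases hl : l ∈ T (V + q - z)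
    · exact Or.inl hl
    · right; right
      have := E.v2e h D hne' hanti' (by rw [e1]; exact hl) (by rw [e1]; exact hf)
      rw [e1] at this
      exact h.mem2 this

/-- contacts at the hub `V` -/
theorem low_V (D : Del U T z V x x' c d e f ρ σ) (h : Irr U T) (hqz : dist q z = 1)
    (hne : q ≠ V) (hanti : q + V ≠ 2 * z) (h3 : (T (V + q - z)).ncard ≤ 3) :
    ¬ (x' ∈ T (V + q - z) ∧ e ∈ T (V + q - z)) ∧
      ¬ (x' ∈ T (V + q - z) ∧ x ∈ T (V + q - z) ∧ c ∈ T (V + q - z)) ∧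
      ¬ (x ∈ T (V + q - z) ∧ c ∈ T (V + q - z) ∧ e ∈ T (V + q - z)) :=
  h.delta_low D.hz D.hV D.hDV (by rw [dist_comm]; exact dist_trans2 hqz)
    (fun h1 => hanti (by linear_combination h1)) (fun h1 => hne (by linear_combination h1)) h3

/-- contacts at the hub `q` -/
theorem low_q (E : Del U T z q y y' k l g g' ρ' σ') (h : Irr U T) (hVz : dist V z = 1)
    (hne : q ≠ V) (hanti : q + V ≠ 2 * z) (h3 : (T (V + q - z)).ncard ≤ 3) :
    ¬ (y' ∈ T (V + q - z) ∧ g ∈ T (V + q - z)) ∧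
      ¬ (y' ∈ T (V + q - z) ∧ y ∈ T (V + q - z) ∧ k ∈ T (V + q - z)) ∧
      ¬ (y ∈ T (V + q - z) ∧ k ∈ T (V + q - z) ∧ g ∈ T (V + q - z)) := by
  have e1 : q + V - z = V + q - z := by ring
  have h1 := E.low_V h hVz hne.symm (by rw [add_comm]; exact hanti) (by rw [e1]; exact h3)
  rw [e1] at h1
  exact h1

/-- **Low list, type A**: `V = (x e | x' c)`, `q = (c f | d x')` -/
theorem low_A (D : Del U T z V x x' c d e f ρ σ) (h : Irr U T)
    (E : Del U T z q c d x' x f e ρ' σ') (hne : q ≠ V) (hanti : q + V ≠ 2 * z)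
    (h3 : (T (V + q - z)).ncard ≤ 3) : T (V + q - z) = {x, e} ∨ T (V + q - z) = {x, d, e} ∨
      T (V + q - z) = {x, e, f} := by
  obtain ⟨r1, r2, r3, r4⟩ := D.rules_f h E (Or.inl ⟨rfl, rfl⟩) (Or.inr ⟨rfl, rfl⟩) hne hanti
  obtain ⟨s1, s2, s3⟩ := D.low_V h E.hV hne hanti h3
  obtain ⟨t1, t2, t3⟩ := E.low_q h D.hV hne hanti h3
  have hnd := D.nd
  obtain ⟨n, n'⟩ := nd6 hnd
  obtain ⟨A, B, C, DD, EE, F, hA, hB, hC, hD, hE, hF, hn⟩ := bools hnd (T (V + q - z))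
  have key : (A = true ∧ B = false ∧ C = false ∧ DD = false ∧ EE = true ∧ F = false) ∨
      (A = true ∧ B = false ∧ C = false ∧ DD = true ∧ EE = true ∧ F = false) ∨
      (A = true ∧ B = false ∧ C = false ∧ DD = false ∧ EE = true ∧ F = true) := by
    rw [hn] at h3
    simp only [hA, hB, hC, hD, hE, hF] at r1 r2 r3 r4 s1 s2 s3 t1 t2 t3
    clear hn hA hB hC hD hE hF n n' hnd
    cases A <;> cases B <;> cases C <;> cases DD <;> cases EE <;> cases F <;>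
      first | (exact absurd h3 (by decide)) | simp_all
  rcases key with ⟨rfl, rfl, rfl, rfl, rfl, rfl⟩ | ⟨rfl, rfl, rfl, rfl, rfl, rfl⟩ |
    ⟨rfl, rfl, rfl, rfl, rfl, rfl⟩
  · left
    refine ext6 hnd ?_ ?_ ?_ ?_ ?_ ?_ <;>
      simp only [hA, hB, hC, hD, hE, hF, n, n', mem_insert_iff, mem_singleton_iff] <;> simp
  · right; left
    refine ext6 hnd ?_ ?_ ?_ ?_ ?_ ?_ <;>
      simp only [hA, hB, hC, hD, hE, hF, n, n', mem_insert_iff, mem_singleton_iff] <;> simp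
  · right; right
    refine ext6 hnd ?_ ?_ ?_ ?_ ?_ ?_ <;>
      simp only [hA, hB, hC, hD, hE, hF, n, n', mem_insert_iff, mem_singleton_iff] <;> simp

/-- **Low list, type B**: `V = (x e | x' c)`, `q = (d f | c x)` -/
theorem low_B (D : Del U T z V x x' c d e f ρ σ) (h : Irr U T)
    (E : Del U T z q d c x x' f e ρ' σ') (hne : q ≠ V) (hanti : q + V ≠ 2 * z)
    (h3 : (T (V + q - z)).ncard ≤ 3) : T (V + q - z) = {d, f} ∨
      T (V + q - z) = {x', d, f} ∨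
      T (V + q - z) = {d, e, f} := by
  obtain ⟨r1, r2, r3, r4⟩ := D.rules_f h E (Or.inr ⟨rfl, rfl⟩) (Or.inl ⟨rfl, rfl⟩) hne hanti
  obtain ⟨s1, s2, s3⟩ := D.low_V h E.hV hne hanti h3
  obtain ⟨t1, t2, t3⟩ := E.low_q h D.hV hne hanti h3
  have hnd := D.nd
  obtain ⟨n, n'⟩ := nd6 hnd
  obtain ⟨A, B, C, DD, EE, F, hA, hB, hC, hD, hE, hF, hn⟩ := bools hnd (T (V + q - z))
  have key : (A = false ∧ B = false ∧ C = false ∧ DD = true ∧ EE = false ∧ F = true) ∨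
      (A = false ∧ B = true ∧ C = false ∧ DD = true ∧ EE = false ∧ F = true) ∨
      (A = false ∧ B = false ∧ C = false ∧ DD = true ∧ EE = true ∧ F = true) := by
    rw [hn] at h3
    simp only [hA, hB, hC, hD, hE, hF] at r1 r2 r3 r4 s1 s2 s3 t1 t2 t3
    clear hn hA hB hC hD hE hF n n' hnd
    cases A <;> cases B <;> cases C <;> cases DD <;> cases EE <;> cases F <;>
      first | (exact absurd h3 (by decide)) | simp_all
  rcases key with ⟨rfl, rfl, rfl, rfl, rfl, rfl⟩ | ⟨rfl, rfl, rfl, rfl, rfl, rfl⟩ |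
    ⟨rfl, rfl, rfl, rfl, rfl, rfl⟩
  · left
    refine ext6 hnd ?_ ?_ ?_ ?_ ?_ ?_ <;>
      simp only [hA, hB, hC, hD, hE, hF, n, n', mem_insert_iff, mem_singleton_iff] <;> simp
  · right; left
    refine ext6 hnd ?_ ?_ ?_ ?_ ?_ ?_ <;>
      simp only [hA, hB, hC, hD, hE, hF, n, n', mem_insert_iff, mem_singleton_iff] <;> simp
  · right; right
    refine ext6 hnd ?_ ?_ ?_ ?_ ?_ ?_ <;>
      simp only [hA, hB, hC, hD, hE, hF, n, n', mem_insert_iff, mem_singleton_iff] <;> simp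

/-- **Low list, type C**: `V = (x e | x' c)`, `q = (c f | d x)` -/
theorem low_C (D : Del U T z V x x' c d e f ρ σ) (h : Irr U T)
    (E : Del U T z q c d x x' f e ρ' σ') (hne : q ≠ V) (hanti : q + V ≠ 2 * z)
    (h3 : (T (V + q - z)).ncard ≤ 3) : T (V + q - z) = {x, d, e} ∨
      T (V + q - z) = {x', c, f} := by
  obtain ⟨r1, r2, r3, r4⟩ := D.rules_f h E (Or.inl ⟨rfl, rfl⟩) (Or.inl ⟨rfl, rfl⟩) hne hanti
  obtain ⟨s1, s2, s3⟩ := D.low_V h E.hV hne hanti h3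
  obtain ⟨t1, t2, t3⟩ := E.low_q h D.hV hne hanti h3
  have hnd := D.nd
  obtain ⟨n, n'⟩ := nd6 hnd
  obtain ⟨A, B, C, DD, EE, F, hA, hB, hC, hD, hE, hF, hn⟩ := bools hnd (T (V + q - z))
  have key : (A = true ∧ B = false ∧ C = false ∧ DD = true ∧ EE = true ∧ F = false) ∨
      (A = false ∧ B = true ∧ C = true ∧ DD = false ∧ EE = false ∧ F = true) := by
    rw [hn] at h3
    simp only [hA, hB, hC, hD, hE, hF] at r1 r2 r3 r4 s1 s2 s3 t1 t2 t3
    clear hn hA hB hC hD hE hF n n' hnd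
    cases A <;> cases B <;> cases C <;> cases DD <;> cases EE <;> cases F <;>
      first | (exact absurd h3 (by decide)) | simp_all
  rcases key with ⟨rfl, rfl, rfl, rfl, rfl, rfl⟩ | ⟨rfl, rfl, rfl, rfl, rfl, rfl⟩
  · left
    refine ext6 hnd ?_ ?_ ?_ ?_ ?_ ?_ <;>
      simp only [hA, hB, hC, hD, hE, hF, n, n', mem_insert_iff, mem_singleton_iff] <;> simp
  · right
    refine ext6 hnd ?_ ?_ ?_ ?_ ?_ ?_ <;>
      simp only [hA, hB, hC, hD, hE, hF, n, n', mem_insert_iff, mem_singleton_iff] <;> simp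

/-- **Same letter, type A**: `V = (x e | x' c)`, `q = (c e | d x')` -/
theorem same_A (D : Del U T z V x x' c d e f ρ σ) (h : Irr U T)
    (E : Del U T z q c d x' x e f ρ' σ') (hne : q ≠ V) (hanti : q + V ≠ 2 * z)
    (h4 : (T (V + q - z)).ncard ≤ 4) (hf : f ∉ T (V + q - z)) : T (V + q - z) = {x, x', c, e} ∨
      T (V + q - z) = {x, c, d, e} := by
  obtain ⟨r1, r2, r3, r4⟩ := D.rules_e h E (Or.inl ⟨rfl, rfl⟩) (Or.inr ⟨rfl, rfl⟩) hne hanti
  have hnd := D.nd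
  obtain ⟨n, n'⟩ := nd6 hnd
  obtain ⟨A, B, C, DD, EE, F, hA, hB, hC, hD, hE, hF, hn⟩ := bools hnd (T (V + q - z))
  have key : (A = true ∧ B = true ∧ C = true ∧ DD = false ∧ EE = true ∧ F = false) ∨
      (A = true ∧ B = false ∧ C = true ∧ DD = true ∧ EE = true ∧ F = false) := by
    rw [hn] at h4
    simp only [hA, hB, hC, hD, hE, hF] at r1 r2 r3 r4 hf
    clear hn hA hB hC hD hE hF n n' hnd
    cases A <;> cases B <;> cases C <;> cases DD <;> cases EE <;> cases F <;>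
      first | (exact absurd h4 (by decide)) | simp_all
  rcases key with ⟨rfl, rfl, rfl, rfl, rfl, rfl⟩ | ⟨rfl, rfl, rfl, rfl, rfl, rfl⟩
  · left
    refine ext6 hnd ?_ ?_ ?_ ?_ ?_ ?_ <;>
      simp only [hA, hB, hC, hD, hE, hF, n, n', mem_insert_iff, mem_singleton_iff] <;> simp
  · right
    refine ext6 hnd ?_ ?_ ?_ ?_ ?_ ?_ <;>
      simp only [hA, hB, hC, hD, hE, hF, n, n', mem_insert_iff, mem_singleton_iff] <;> simp

/-- **Same letter, type B**: `V = (x e | x' c)`, `q = (d e | c x)` -/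
theorem same_B (D : Del U T z V x x' c d e f ρ σ) (h : Irr U T)
    (E : Del U T z q d c x x' e f ρ' σ') (hne : q ≠ V) (hanti : q + V ≠ 2 * z)
    (h4 : (T (V + q - z)).ncard ≤ 4) (hf : f ∉ T (V + q - z)) : T (V + q - z) = {x, x', d, e} ∨
      T (V + q - z) = {x, c, d, e} := by
  obtain ⟨r1, r2, r3, r4⟩ := D.rules_e h E (Or.inr ⟨rfl, rfl⟩) (Or.inl ⟨rfl, rfl⟩) hne hanti
  have hnd := D.nd
  obtain ⟨n, n'⟩ := nd6 hnd
  obtain ⟨A, B, C, DD, EE, F, hA, hB, hC, hD, hE, hF, hn⟩ := bools hnd (T (V + q - z))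
  have key : (A = true ∧ B = true ∧ C = false ∧ DD = true ∧ EE = true ∧ F = false) ∨
      (A = true ∧ B = false ∧ C = true ∧ DD = true ∧ EE = true ∧ F = false) := by
    rw [hn] at h4
    simp only [hA, hB, hC, hD, hE, hF] at r1 r2 r3 r4 hf
    clear hn hA hB hC hD hE hF n n' hnd
    cases A <;> cases B <;> cases C <;> cases DD <;> cases EE <;> cases F <;>
      first | (exact absurd h4 (by decide)) | simp_all
  rcases key with ⟨rfl, rfl, rfl, rfl, rfl, rfl⟩ | ⟨rfl, rfl, rfl, rfl, rfl, rfl⟩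
  · left
    refine ext6 hnd ?_ ?_ ?_ ?_ ?_ ?_ <;>
      simp only [hA, hB, hC, hD, hE, hF, n, n', mem_insert_iff, mem_singleton_iff] <;> simp
  · right
    refine ext6 hnd ?_ ?_ ?_ ?_ ?_ ?_ <;>
      simp only [hA, hB, hC, hD, hE, hF, n, n', mem_insert_iff, mem_singleton_iff] <;> simp

/-- **Same letter, type C**: `V = (x e | x' c)`, `q = (c e | d x)` -/
theorem same_C (D : Del U T z V x x' c d e f ρ σ) (h : Irr U T)
    (E : Del U T z q c d x x' e f ρ' σ') (hne : q ≠ V) (hanti : q + V ≠ 2 * z)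
    (h4 : (T (V + q - z)).ncard ≤ 4) (hf : f ∉ T (V + q - z)) : T (V + q - z) = {x, x', c, e} ∨
      T (V + q - z) = {x, c, d, e} := by
  obtain ⟨r1, r2, r3, r4⟩ := D.rules_e h E (Or.inl ⟨rfl, rfl⟩) (Or.inl ⟨rfl, rfl⟩) hne hanti
  have hnd := D.nd
  obtain ⟨n, n'⟩ := nd6 hnd
  obtain ⟨A, B, C, DD, EE, F, hA, hB, hC, hD, hE, hF, hn⟩ := bools hnd (T (V + q - z))
  have key : (A = true ∧ B = true ∧ C = true ∧ DD = false ∧ EE = true ∧ F = false) ∨
      (A = true ∧ B = false ∧ C = true ∧ DD = true ∧ EE = true ∧ F = false) := by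
    rw [hn] at h4
    simp only [hA, hB, hC, hD, hE, hF] at r1 r2 r3 r4 hf
    clear hn hA hB hC hD hE hF n n' hnd
    cases A <;> cases B <;> cases C <;> cases DD <;> cases EE <;> cases F <;>
      first | (exact absurd h4 (by decide)) | simp_all
  rcases key with ⟨rfl, rfl, rfl, rfl, rfl, rfl⟩ | ⟨rfl, rfl, rfl, rfl, rfl, rfl⟩
  · left
    refine ext6 hnd ?_ ?_ ?_ ?_ ?_ ?_ <;>
      simp only [hA, hB, hC, hD, hE, hF, n, n', mem_insert_iff, mem_singleton_iff] <;> simp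
  · right
    refine ext6 hnd ?_ ?_ ?_ ?_ ?_ ?_ <;>
      simp only [hA, hB, hC, hD, hE, hF, n, n', mem_insert_iff, mem_singleton_iff] <;> simp

/-- **Same wall excluded**: the wall `x' | c` has only one delta end -/
theorem no_same_wall (D : Del U T z V x x' c d e f ρ σ) (h : Irr U T)
    (E : Del U T z q d c x' x g g' ρ' σ') : V = q :=
  D.owner_V h E.Vz (E.symm h).hρ ((E.symm h).ex.mono fun t ht => by rw [ht, pair_comm])

/-- same wall, same pair -/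
theorem no_same_wall' (D : Del U T z V x x' c d e f ρ σ) (h : Irr U T)
    (E : Del U T z q x x' c d g g' ρ' σ') : V = q :=
  D.owner_V h E.Vz (E.symm h).hρ ((E.symm h).ex.mono fun t ht => by rw [ht, pair_comm])

/-- **V1 for a second end of the same pair** (`q` an end of an `x x'`-arc): `d` or `f` -/
theorem v1s (D : Del U T z V x x' c d e f ρ σ) (h : Irr U T) (E : Del U T z q y y' k l g g' ρ' σ')
    (hyy : (y = x ∧ y' = x') ∨ (y = x' ∧ y' = x)) (hne : q ≠ V) (hanti : q + V ≠ 2 * z) :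
    d ∈ T (V + q - z) ∨ f ∈ T (V + q - z) := by
  by_contra hcon
  rw [not_or] at hcon
  obtain ⟨hd, hf⟩ := hcon
  have hm := (E.par h D.hV hne.symm (by rw [add_comm]; exact hanti)).1
  rw [show q + V - z = V + q - z by ring] at hm
  have hwV : dist (V + q - z) V = 1 := dist_trans2 E.hV
  have hm' : ∀ᶠ t : ℝ in 𝓝[>] 0, x ∉ T (hb V (V + q - z) ρ' t) ∧
      x' ∉ T (hb V (V + q - z) ρ' t) := by
    rcases hyy with ⟨rfl, rfl⟩ | ⟨rfl, rfl⟩
    · exact hm
    · exact hm.mono fun t ht => ⟨ht.2, ht.1⟩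
  rcases h.half_dich D.hDV hwV E.hρ (D.sub_V (h.ev_not hd) (h.ev_not hf)) with h1 | h1
  · obtain ⟨t, m1, m2⟩ := (h1.and hm').exists
    exact m2.1 (by rw [m1]; simp)
  · obtain ⟨t, m1, m2⟩ := (h1.and hm').exists
    exact m2.2 (by rw [m1]; simp)

/-- **Rules at the hub `V`, any end `q`, other letter** -/
theorem rule2f (D : Del U T z V x x' c d e f ρ σ) (h : Irr U T)
    (E : Del U T z q y y' k l f g' ρ' σ') (hne : q ≠ V) (hanti : q + V ≠ 2 * z) :
    d ∈ T (V + q - z) ∨ (x ∈ T (V + q - z) ∧ e ∈ T (V + q - z)) ∨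
      (x' ∈ T (V + q - z) ∧ c ∈ T (V + q - z)) := by
  by_cases hd : d ∈ T (V + q - z)
  · exact Or.inl hd
  · rcases D.v2f h E hne hanti hd with h1 | h1
    · exact Or.inr (Or.inl (h.mem2 h1))
    · exact Or.inr (Or.inr (h.mem2 h1))

/-- **Rules at the hub `V`, any end `q`, same letter** -/
theorem rule2e (D : Del U T z V x x' c d e f ρ σ) (h : Irr U T)
    (E : Del U T z q y y' k l e g' ρ' σ') (hne : q ≠ V) (hanti : q + V ≠ 2 * z) :
    d ∈ T (V + q - z) ∨ f ∈ T (V + q - z) ∨ (x' ∈ T (V + q - z) ∧ c ∈ T (V + q - z)) := by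
  by_cases hd : d ∈ T (V + q - z)
  · exact Or.inl hd
  by_cases hf : f ∈ T (V + q - z)
  · exact Or.inr (Or.inl hf)
  · exact Or.inr (Or.inr (h.mem2 (D.v2e h E hne hanti hd hf)))

end Del

end Vale.Agent.P032.Six
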