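import Vale.Agent.P032.H587.Ring
import Vale.Agent.P032.S5.H225.Germ
import Vale.Agent.P032.S5.H825.Share

/-!
# P032: hub parity (wild form)

`v` with `T v = {a, b, e}`, `z ∈ S(v)` a two-pair centre `ab | cd`: `S(v)` flips `c`, `d` at `z`
(`Irr.hub_os`).  If `z` is the only point of `S(v)` with at least four colours, then both common
points of `S(v)` and `S(z)` carry `c, d` or none (`Irr.hub_parity`).
-/

open Set Filter Topology Metric

noncomputable section

namespace Vale.Agent.P032.Six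

variable {U : Fin 6 → Set ℂ} {T : ℂ → Set (Fin 6)} {v z : ℂ} {a b c d e f : Fin 6}

theorem cis_add587 (s t : ℝ) : cis (s + t) = cis s * cis t := by
  unfold cis
  rw [← Complex.exp_add]
  congr 1
  push_cast
  ring

theorem exists_pv {v y : ℂ} (hy : dist y v = 1) : ∃ s, y = pv v s := by
  refine ⟨Complex.arg (y - v) / (Real.pi / 3), ?_⟩
  unfold pv
  have h1 : Real.pi / 3 * (Complex.arg (y - v) / (Real.pi / 3)) = Complex.arg (y - v) := by
    have := Real.pi_pos
    field_simp
  rw [h1]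
  have h2 := Complex.norm_mul_exp_arg_mul_I (y - v)
  rw [← dist_eq_norm, hy] at h2
  have h3 : cis (Complex.arg (y - v)) = y - v := by
    unfold cis
    rw [Complex.ofReal_one, one_mul] at h2
    exact h2
  rw [h3]
  ring

/-- the half branches in the parametrisation `pv` -/
theorem hb_pv (v : ℂ) (w τ t : ℝ) : hb v (pv v w) τ t = pv v (w + τ * t * (3 / Real.pi)) := by
  unfold hb pv
  have h1 : Real.pi / 3 * (w + τ * t * (3 / Real.pi)) = Real.pi / 3 * w + τ * t := by
    have := Real.pi_ne_zero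
    field_simp
  rw [h1, cis_add587]
  ring

theorem ev_right {v : ℂ} {w : ℝ} {P : ℂ → Prop}
    (h : ∀ᶠ t : ℝ in 𝓝[>] 0, P (hb v (pv v w) 1 t)) : ∀ᶠ s in 𝓝[>] w, P (pv v s) := by
  have h1 : Tendsto (fun s : ℝ => (s - w) * (Real.pi / 3)) (𝓝[>] w) (𝓝[>] 0) := by
    refine tendsto_nhdsWithin_iff.2 ⟨?_, ?_⟩
    · have hc : Continuous fun s : ℝ => (s - w) * (Real.pi / 3) := by fun_prop
      have h2 := hc.tendsto w
      simp only [sub_self, zero_mul] at h2
      exact h2.mono_left nhdsWithin_le_nhds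
    · filter_upwards [self_mem_nhdsWithin] with s hs
      have h3 := Real.pi_pos
      have h4 : (0 : ℝ) < Real.pi / 3 := by positivity
      exact mul_pos (sub_pos.2 hs) h4
  filter_upwards [h1.eventually h] with s hs
  rw [hb_pv] at hs
  have h2 : w + 1 * ((s - w) * (Real.pi / 3)) * (3 / Real.pi) = s := by
    have := Real.pi_ne_zero
    field_simp
    ring
  rwa [h2] at hs

theorem ev_left {v : ℂ} {w : ℝ} {P : ℂ → Prop}
    (h : ∀ᶠ t : ℝ in 𝓝[>] 0, P (hb v (pv v w) (-1) t)) : ∀ᶠ s in 𝓝[<] w, P (pv v s) := by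
  have h1 : Tendsto (fun s : ℝ => (w - s) * (Real.pi / 3)) (𝓝[<] w) (𝓝[>] 0) := by
    refine tendsto_nhdsWithin_iff.2 ⟨?_, ?_⟩
    · have hc : Continuous fun s : ℝ => (w - s) * (Real.pi / 3) := by fun_prop
      have h2 := hc.tendsto w
      simp only [sub_self, zero_mul] at h2
      exact h2.mono_left nhdsWithin_le_nhds
    · filter_upwards [self_mem_nhdsWithin] with s hs
      have h3 := Real.pi_pos
      have h4 : (0 : ℝ) < Real.pi / 3 := by positivity
      exact mul_pos (sub_pos.2 hs) h4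
  filter_upwards [h1.eventually h] with s hs
  rw [hb_pv] at hs
  have h2 : w + -1 * ((w - s) * (Real.pi / 3)) * (3 / Real.pi) = s := by
    have := Real.pi_ne_zero
    field_simp
    ring
  rwa [h2] at hs

theorem nodup_all (nd : [a, b, c, d, e, f].Nodup) (i : Fin 6) :
    i = a ∨ i = b ∨ i = c ∨ i = d ∨ i = e ∨ i = f := by
  by_contra hcon
  push Not at hcon
  obtain ⟨h1, h2, h3, h4, h5, h6⟩ := hcon
  have hn : [i, a, b, c, d, e, f].Nodup := by
    rw [List.nodup_cons]
    refine ⟨?_, nd⟩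
    simp only [List.mem_cons, List.not_mem_nil, or_false, not_or]
    exact ⟨h1, h2, h3, h4, h5, h6⟩
  have h7 := hn.length_le_card
  simp at h7

/-- **the flip at the centre**: `S(v)` carries only the letter `l` on the left of `z = pv v w` and
only `l'` on the right, `{l, l'} = {0, 1}` (the letters `c`, `d`). -/
theorem Irr.hub_os (h : Irr U T) (nd : [a, b, c, d, e, f].Nodup) {w : ℝ}
    (hz : DPt T (pv v w) a b c d) (ha : a ∈ T v) (hb' : b ∈ T v) :
    ∃ l l' : Fin 3, ((l = 0 ∧ l' = 1) ∨ (l = 1 ∧ l' = 0)) ∧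
      (∀ᶠ s in 𝓝[<] w, LL T v ![c, d, f] s = {l}) ∧
      ∀ᶠ s in 𝓝[>] w, LL T v ![c, d, f] s = {l'} := by
  have hf : f ∉ T (pv v w) := by
    rw [hz.pal]
    simp only [List.nodup_cons, List.mem_cons, List.not_mem_nil, or_false, not_or] at nd
    simp only [mem_insert_iff, mem_singleton_iff, not_or]
    tauto
  have hn : ∀ᶠ s in 𝓝 w, f ∉ T (pv v s) := by
    filter_upwards [(continuous_pv v).continuousAt.eventually (h.nhd (pv v w))] with s hs hcon
    exact hf (hs hcon)
  have key : ∀ x : ℂ, c ∈ T x → d ∉ T x → f ∉ T x → {l : Fin 3 | ![c, d, f] l ∈ T x} = {0} := by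
    intro x h1 h2 h3
    ext l
    fin_cases l <;> simp [h1, h2, h3]
  have key' : ∀ x : ℂ, d ∈ T x → c ∉ T x → f ∉ T x → {l : Fin 3 | ![c, d, f] l ∈ T x} = {1} := by
    intro x h1 h2 h3
    ext l
    fin_cases l <;> simp [h1, h2, h3]
  obtain ⟨τ, hτ, h1, h2⟩ := h.germ_flip ha hb' hz (dist_pv v w)
  rcases hτ with rfl | rfl
  · refine ⟨1, 0, Or.inr ⟨rfl, rfl⟩, ?_, ?_⟩
    · have h3 := ev_left (P := fun x => d ∈ T x ∧ c ∉ T x) h2
      filter_upwards [h3, hn.filter_mono nhdsWithin_le_nhds] with s hs hs'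
      exact key' _ hs.1 hs.2 hs'
    · have h3 := ev_right (P := fun x => c ∈ T x ∧ d ∉ T x) h1
      filter_upwards [h3, hn.filter_mono nhdsWithin_le_nhds] with s hs hs'
      exact key _ hs.1 hs.2 hs'
  · refine ⟨0, 1, Or.inl ⟨rfl, rfl⟩, ?_, ?_⟩
    · have h3 := ev_left (P := fun x => c ∈ T x ∧ d ∉ T x) h1
      filter_upwards [h3, hn.filter_mono nhdsWithin_le_nhds] with s hs hs'
      exact key _ hs.1 hs.2 hs'
    · rw [neg_neg] at h2
      have h3 := ev_right (P := fun x => d ∈ T x ∧ c ∉ T x) h2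
      filter_upwards [h3, hn.filter_mono nhdsWithin_le_nhds] with s hs hs'
      exact key' _ hs.1 hs.2 hs'

/-- a letter alone on an open interval is absent at the two neighbours -/
theorem Mx.absent_left (h : Mx U) (hT : ∀ x, T x ⊆ Pal U x) {m : Fin 3 → Fin 6} {u : ℝ} {l : Fin 3}
    (hl : ∀ᶠ s in 𝓝[<] u, l ∈ LL T v m s) {σ : ℝ} (hσ : σ = 1 ∨ σ = -1) :
    ∀ᶠ s in 𝓝[<] u, l ∉ LL T v m (s + σ) := by
  obtain ⟨b, hb, hI⟩ := mem_nhdsLT_iff_exists_Ioo_subset.1 hl
  filter_upwards [Ioo_mem_nhdsLT hb] with s hs hcon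
  refine h.pv_absent (v := v) (u := s) (i := m l) ?_ hσ (hT _ hcon)
  filter_upwards [Ioo_mem_nhds hs.1 hs.2] with s' hs'
  exact hT _ (hI hs')

theorem Mx.absent_right (h : Mx U) (hT : ∀ x, T x ⊆ Pal U x) {m : Fin 3 → Fin 6} {u : ℝ}
    {l : Fin 3} (hl : ∀ᶠ s in 𝓝[>] u, l ∈ LL T v m s) {σ : ℝ} (hσ : σ = 1 ∨ σ = -1) :
    ∀ᶠ s in 𝓝[>] u, l ∉ LL T v m (s + σ) := by
  obtain ⟨b, hb, hI⟩ := mem_nhdsGT_iff_exists_Ioo_subset.1 hl
  filter_upwards [Ioo_mem_nhdsGT hb] with s hs hcon
  refine h.pv_absent (v := v) (u := s) (i := m l) ?_ hσ (hT _ hcon)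
  filter_upwards [Ioo_mem_nhds hs.1 hs.2] with s' hs'
  exact hT _ (hI hs')

/-- the two neighbours on the circle -/
theorem pv_nb {p : ℂ} {w : ℝ} (hp : dist p v = 1) (hpz : dist p (pv v w) = 1) :
    p = pv v (w + 1) ∨ p = pv v (w - 1) := by
  obtain ⟨ω, hω, he⟩ := H825.two_nbs (z := v) (a := Real.pi / 3 * w) hp
    (by rw [dist_comm]; exact hpz)
  rcases hω with rfl | rfl
  · left
    rw [he]; unfold pv
    congr 2; ring
  · right
    rw [he]; unfold pv
    congr 2; ring

/-- the letters of `S(v)` at the centre itself -/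
theorem LL_centre (nd : [a, b, c, d, e, f].Nodup) {w : ℝ} (hz : DPt T (pv v w) a b c d) {l : Fin 3}
    (hl : l ∈ LL T v ![c, d, f] w) : l = 0 ∨ l = 1 := by
  have hf : f ∉ T (pv v w) := by
    rw [hz.pal]
    simp only [List.nodup_cons, List.mem_cons, List.not_mem_nil, or_false, not_or] at nd
    simp only [mem_insert_iff, mem_singleton_iff, not_or]
    tauto
  fin_cases l
  · exact Or.inl rfl
  · exact Or.inr rfl
  · exact absurd hl hf

/-- **Hub parity.** -/
theorem Irr.hub_parity (h : Irr U T) (nd : [a, b, c, d, e, f].Nodup) (hz : DPt T z a b c d)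
    (hv : T v = {a, b, e}) (hvz : dist z v = 1)
    (hlow : ∀ y, dist y v = 1 → y ≠ z → (T y).ncard ≤ 3) {p p' : ℂ} (hpp : p ≠ p')
    (hp : dist p v = 1) (hpz : dist p z = 1) (hp' : dist p' v = 1) (hpz' : dist p' z = 1)
    (hc : c ∈ T p) (hd : d ∈ T p) (hf : f ∉ T p) : c ∈ T p' ∧ d ∈ T p' := by
  by_contra hcon
  have hall := nodup_all nd
  have nd' := nd
  simp only [List.nodup_cons, List.mem_cons, List.not_mem_nil, or_false, not_or] at nd'
  have hcard : (T v).ncard = 3 := by
    rw [hv]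
    rw [Set.ncard_eq_three]
    exact ⟨a, b, e, by tauto, by tauto, by tauto, rfl⟩
  have hm : ∀ i, i ∉ T v → ∃ l, (![c, d, f] : Fin 3 → Fin 6) l = i := by
    intro i hi
    rw [hv] at hi
    simp only [mem_insert_iff, mem_singleton_iff, not_or] at hi
    rcases hall i with rfl | rfl | rfl | rfl | rfl | rfl
    · exact absurd rfl hi.1
    · exact absurd rfl hi.2.1
    · exact ⟨0, rfl⟩
    · exact ⟨1, rfl⟩
    · exact absurd rfl hi.2.2
    · exact ⟨2, rfl⟩
  obtain ⟨w, rfl⟩ := exists_pv hvz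
  obtain ⟨l, l', hll, hL, hR⟩ := h.hub_os nd hz (by rw [hv]; simp) (by rw [hv]; simp)
  have hne : l ≠ l' := by rcases hll with ⟨rfl, rfl⟩ | ⟨rfl, rfl⟩ <;> decide
  have hthree : ∀ x : Fin 3, x ≠ 2 → x ≠ l → x = l' := by
    rcases hll with ⟨rfl, rfl⟩ | ⟨rfl, rfl⟩ <;> decide
  have hthree' : ∀ x : Fin 3, x ≠ 2 → x ≠ l' → x = l := by
    rcases hll with ⟨rfl, rfl⟩ | ⟨rfl, rfl⟩ <;> decide
  -- points of the circle different from `z`
  have hsame : ∀ s : ℝ, pv v s = pv v w → ∃ n : ℤ, s = w + n * 6 := by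
    intro s hs
    unfold pv cis at hs
    have h1 := add_left_cancel hs
    rw [Complex.exp_eq_exp_iff_exists_int] at h1
    obtain ⟨n, hn⟩ := h1
    refine ⟨n, ?_⟩
    have h2 := congrArg Complex.im hn
    simp at h2
    have h3 := Real.pi_pos
    have h4 : Real.pi / 3 * (s - (w + n * 6)) = 0 := by linear_combination h2
    rcases mul_eq_zero.1 h4 with h5 | h5
    · linarith
    · linarith
  have hlow' : ∀ s : ℝ, pv v s ≠ pv v w → (T (pv v s)).ncard ≤ 3 := fun s hs =>
    hlow _ (dist_pv v s) hs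
  have hbd : ∀ (u : ℝ) (k : Fin 6), Bd T v ![c, d, f] u k → pv v (u + (k.val : ℝ)) = pv v w ∨
      pv v (u + (k.val : ℝ) + 1) = pv v w := by
    intro u k hb
    by_contra hc2
    push Not at hc2
    rcases hb.high h hcard hm with h1 | h1
    · have := hlow' _ hc2.1; omega
    · have := hlow' _ hc2.2; omega
  -- no bad angles between
  have hmid : ∀ (n0 : ℤ) (u : ℝ), w + n0 < u → u < w + n0 + 1 → ∀ k,
      ¬ Bd T v ![c, d, f] u k := by
    intro n0 u hu1 hu2 k hb
    rcases hbd u k hb with h1 | h1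
    · obtain ⟨n, hn⟩ := hsame _ h1
      have e1 : (w + n0 : ℝ) < w + n * 6 - (k.val : ℝ) := by linarith
      have e2 : w + n * 6 - (k.val : ℝ) < (w + n0 + 1 : ℝ) := by linarith
      have e3 : ((n0 : ℤ) : ℝ) < ((n * 6 - (k.val : ℤ) : ℤ) : ℝ) := by push_cast; linarith
      have e4 : ((n * 6 - (k.val : ℤ) : ℤ) : ℝ) < ((n0 + 1 : ℤ) : ℝ) := by push_cast; linarith
      have e5 := Int.cast_lt.1 e3
      have e6 := Int.cast_lt.1 e4
      omega
    · obtain ⟨n, hn⟩ := hsame _ h1
      have e3 : ((n0 : ℤ) : ℝ) < ((n * 6 - (k.val : ℤ) - 1 : ℤ) : ℝ) := by push_cast; linarith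
      have e4 : ((n * 6 - (k.val : ℤ) - 1 : ℤ) : ℝ) < ((n0 + 1 : ℤ) : ℝ) := by push_cast; linarith
      have e5 := Int.cast_lt.1 e3
      have e6 := Int.cast_lt.1 e4
      omega
  have hbz : ∀ s : ℝ, ∀ x y : Fin 3, x ≠ y → x ∈ LL T v ![c, d, f] w → y ∈ LL T v ![c, d, f] w →
      x ∈ LL T v ![c, d, f] s → y ∈ LL T v ![c, d, f] s → c ∈ T (pv v s) ∧ d ∈ T (pv v s) := by
    intro s x y hxy h1 h2 h3 h4
    rcases LL_centre nd hz h1 with rfl | rfl <;> rcases LL_centre nd hz h2 with rfl | rfl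
    · exact absurd rfl hxy
    · exact ⟨h3, h4⟩
    · exact ⟨h4, h3⟩
    · exact absurd rfl hxy
  have hT : ∀ x, T x ⊆ Pal U x := h.sub
  have hfp : ∀ (s0 : ℝ), f ∉ T (pv v s0) → ∀ᶠ s in 𝓝 s0, (2 : Fin 3) ∉ LL T v ![c, d, f] s := by
    intro s0 hs0
    filter_upwards [(continuous_pv v).continuousAt.eventually (h.nhd (pv v s0))] with s hs hcon2
    exact hs0 (hs hcon2)
  have hmem : ∀ (x : Fin 3) (s : ℝ), LL T v ![c, d, f] s = {x} → x ∈ LL T v ![c, d, f] s := by
    intro x s hs; rw [hs]; rfl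
  rcases pv_nb hp hpz with rfl | rfl
  · -- `p = pv v (w + 1)`
    have hp2 : p' = pv v (w - 1) := by
      rcases pv_nb hp' hpz' with h1 | h1
      · exact absurd h1.symm hpp
      · exact h1
    subst hp2
    refine h.no_single_swap (by omega) hm (u0 := w) (fun u hu1 hu2 => hmid 0 u
      (by push_cast; linarith) (by push_cast; linarith)) (k0 := 0) hne ?_ ?_ ?_ ?_ ?_
    · intro k hk hb
      obtain ⟨x, y, hxy, b1, b2, b3, b4⟩ := hb
      rcases hbd w k ⟨x, y, hxy, b1, b2, b3, b4⟩ with h1 | h1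
      · obtain ⟨n, hn⟩ := hsame _ h1
        have e3 : ((k.val : ℤ) : ℝ) = ((n * 6 : ℤ) : ℝ) := by push_cast; linarith
        have e5 := Int.cast_injective e3
        have := k.isLt
        apply hk
        apply Fin.ext
        show k.val = 0
        omega
      · obtain ⟨n, hn⟩ := hsame _ h1
        have e3 : (((k.val : ℤ) + 1 : ℤ) : ℝ) = ((n * 6 : ℤ) : ℝ) := by push_cast; linarith
        have e5 := Int.cast_injective e3
        have := k.isLt
        have e6 : k.val = 5 := by omega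
        have e7 : pv v (w + (k.val : ℝ)) = pv v (w - 1) := by
          rw [e6, ← pv_six v (w - 1)]; congr 1; push_cast; ring
        have e8 : LL T v ![c, d, f] (w + (k.val : ℝ)) = LL T v ![c, d, f] (w - 1) := by
          unfold LL; rw [e7]
        have e9 : LL T v ![c, d, f] (w + (k.val : ℝ) + 1) = LL T v ![c, d, f] w := by
          unfold LL; rw [h1]
        rw [e8] at b1 b2
        rw [e9] at b3 b4
        exact hcon (hbz _ x y hxy b3 b4 b1 b2)
    · filter_upwards [hL] with s hs x hx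
      have e1 : s + (((0 : Fin 6).val : ℕ) : ℝ) = s := by simp
      rw [e1, hs] at hx
      exact hx
    · have h1 := h.mx.absent_left hT (v := v) (m := ![c, d, f]) (u := w) (l := l)
        (hL.mono fun s hs => hmem l s hs) (σ := 1) (Or.inl rfl)
      have h2 : ∀ᶠ s in 𝓝[<] w, (2 : Fin 3) ∉ LL T v ![c, d, f] (s + 1) := by
        have hc3 : Tendsto (fun s : ℝ => s + 1) (𝓝 w) (𝓝 (w + 1)) := by
          have : Continuous fun s : ℝ => s + 1 := by fun_prop
          exact this.tendsto w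
        exact (hc3.eventually (hfp (w + 1) hf)).filter_mono nhdsWithin_le_nhds
      filter_upwards [h1, h2] with s hs1 hs2 x hx
      have e1 : s + (((0 : Fin 6).val : ℕ) : ℝ) + 1 = s + 1 := by simp
      rw [e1] at hx
      exact hthree x (fun h4 => hs2 (h4 ▸ hx)) (fun h4 => hs1 (h4 ▸ hx))
    · filter_upwards [hR] with s hs x hx
      have e1 : s + (((0 : Fin 6).val : ℕ) : ℝ) = s := by simp
      rw [e1, hs] at hx
      exact hx
    · have h1 := h.mx.absent_right hT (v := v) (m := ![c, d, f]) (u := w) (l := l')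
        (hR.mono fun s hs => hmem l' s hs) (σ := 1) (Or.inl rfl)
      have h2 : ∀ᶠ s in 𝓝[>] w, (2 : Fin 3) ∉ LL T v ![c, d, f] (s + 1) := by
        have hc3 : Tendsto (fun s : ℝ => s + 1) (𝓝 w) (𝓝 (w + 1)) := by
          have : Continuous fun s : ℝ => s + 1 := by fun_prop
          exact this.tendsto w
        exact (hc3.eventually (hfp (w + 1) hf)).filter_mono nhdsWithin_le_nhds
      filter_upwards [h1, h2] with s hs1 hs2 x hx
      have e1 : s + (((0 : Fin 6).val : ℕ) : ℝ) + 1 = s + 1 := by simp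
      rw [e1] at hx
      exact hthree' x (fun h4 => hs2 (h4 ▸ hx)) (fun h4 => hs1 (h4 ▸ hx))
  · -- `p = pv v (w - 1)`
    have hp2 : p' = pv v (w + 1) := by
      rcases pv_nb hp' hpz' with h1 | h1
      · exact h1
      · exact absurd h1.symm hpp
    subst hp2
    have hsh : ∀ {F G : Filter ℝ} {P : ℝ → Prop}, Tendsto (fun s : ℝ => s + 1) F G →
        (∀ᶠ s in G, P s) → ∀ᶠ s in F, P (s + 1) := fun ht hP => ht.eventually hP
    have htL : Tendsto (fun s : ℝ => s + 1) (𝓝[<] (w - 1)) (𝓝[<] w) := by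
      refine tendsto_nhdsWithin_iff.2 ⟨?_, ?_⟩
      · have hc3 : Continuous fun s : ℝ => s + 1 := by fun_prop
        have h2 := hc3.tendsto (w - 1)
        rw [sub_add_cancel] at h2
        exact h2.mono_left nhdsWithin_le_nhds
      · filter_upwards [self_mem_nhdsWithin] with s hs
        have : s < w - 1 := hs
        show s + 1 < w
        linarith
    have htR : Tendsto (fun s : ℝ => s + 1) (𝓝[>] (w - 1)) (𝓝[>] w) := by
      refine tendsto_nhdsWithin_iff.2 ⟨?_, ?_⟩
      · have hc3 : Continuous fun s : ℝ => s + 1 := by fun_prop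
        have h2 := hc3.tendsto (w - 1)
        rw [sub_add_cancel] at h2
        exact h2.mono_left nhdsWithin_le_nhds
      · filter_upwards [self_mem_nhdsWithin] with s hs
        have : w - 1 < s := hs
        show w < s + 1
        linarith
    refine h.no_single_swap (by omega) hm (u0 := w - 1) (fun u hu1 hu2 => hmid (-1) u
      (by push_cast; linarith) (by push_cast; linarith)) (k0 := 0) (l := l') (l' := l) hne.symm
      ?_ ?_ ?_ ?_ ?_
    · intro k hk hb
      obtain ⟨x, y, hxy, b1, b2, b3, b4⟩ := hb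
      rcases hbd (w - 1) k ⟨x, y, hxy, b1, b2, b3, b4⟩ with h1 | h1
      · obtain ⟨n, hn⟩ := hsame _ h1
        have e3 : (((k.val : ℤ) - 1 : ℤ) : ℝ) = ((n * 6 : ℤ) : ℝ) := by push_cast; linarith
        have e5 := Int.cast_injective e3
        have := k.isLt
        have e6 : k.val = 1 := by omega
        have e7 : pv v (w - 1 + (k.val : ℝ) + 1) = pv v (w + 1) := by
          rw [e6]; congr 1; push_cast; ring
        have e8 : LL T v ![c, d, f] (w - 1 + (k.val : ℝ) + 1) = LL T v ![c, d, f] (w + 1) := by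
          unfold LL; rw [e7]
        have e9 : LL T v ![c, d, f] (w - 1 + (k.val : ℝ)) = LL T v ![c, d, f] w := by
          unfold LL; rw [h1]
        rw [e8] at b3 b4
        rw [e9] at b1 b2
        exact hcon (hbz _ x y hxy b1 b2 b3 b4)
      · obtain ⟨n, hn⟩ := hsame _ h1
        have e3 : ((k.val : ℤ) : ℝ) = ((n * 6 : ℤ) : ℝ) := by push_cast; linarith
        have e5 := Int.cast_injective e3
        have := k.isLt
        apply hk
        apply Fin.ext
        show k.val = 0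
        omega
    · -- left, position 0: `p`
      have h1 := h.mx.absent_left hT (v := v) (m := ![c, d, f]) (u := w) (l := l)
        (hL.mono fun s hs => hmem l s hs) (σ := -1) (Or.inr rfl)
      have h2 := hsh htL h1
      have h3 := (hfp (w - 1) hf).filter_mono (nhdsWithin_le_nhds (s := Iio (w - 1)))
      filter_upwards [h2, h3] with s hs1 hs2 x hx
      have e1 : s + (((0 : Fin 6).val : ℕ) : ℝ) = s := by simp
      rw [e1] at hx
      have e2 : s + 1 + -1 = s := by ring
      rw [e2] at hs1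
      exact hthree x (fun h4 => hs2 (h4 ▸ hx)) (fun h4 => hs1 (h4 ▸ hx))
    · have h2 := hsh htL hL
      filter_upwards [h2] with s hs x hx
      have e1 : s + (((0 : Fin 6).val : ℕ) : ℝ) + 1 = s + 1 := by simp
      rw [e1, hs] at hx
      exact hx
    · have h1 := h.mx.absent_right hT (v := v) (m := ![c, d, f]) (u := w) (l := l')
        (hR.mono fun s hs => hmem l' s hs) (σ := -1) (Or.inr rfl)
      have h2 := hsh htR h1
      have h3 := (hfp (w - 1) hf).filter_mono (nhdsWithin_le_nhds (s := Ioi (w - 1)))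
      filter_upwards [h2, h3] with s hs1 hs2 x hx
      have e1 : s + (((0 : Fin 6).val : ℕ) : ℝ) = s := by simp
      rw [e1] at hx
      have e2 : s + 1 + -1 = s := by ring
      rw [e2] at hs1
      exact hthree' x (fun h4 => hs2 (h4 ▸ hx)) (fun h4 => hs1 (h4 ▸ hx))
    · have h2 := hsh htR hR
      filter_upwards [h2] with s hs x hx
      have e1 : s + (((0 : Fin 6).val : ℕ) : ℝ) + 1 = s + 1 := by simp
      rw [e1, hs] at hx
      exact hx

end Vale.Agent.P032.Six
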