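import Vale.Agent.P032.H587.Shell
import Vale.Agent.P032.S5.H767.Let

/-!
# P032: arc transfer, pair rule, and the second shell for letters

* `Irr.arc_transfer` : `V ∈ S(z)`, the colours carried by `S(z)` near `p` and `T V` exhaust all
  colours: then `S(V)` near `V + p - z` has palettes inside `T V`.
* `Mx.pair_rule` : `z ≠ w` at distance less than two, `V ∈ S(z) ∩ S(w)`: a colour carried by `S(z)`
  near `V` is not in `Pal U w`.
* `Ctr.shell`, `Ctr.trans` : the second shell and the translation rule for the letters of a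
  four-coloured centre.
* `genL` : the open dense set of the angles at which a letter is locally carried.
-/

open Set Filter Topology Metric

noncomputable section

namespace Vale.Agent.P032.Six

variable {k : ℕ} {U : Fin k → Set ℂ} {T : ℂ → Set (Fin k)}

/-- the second foot: `p' = q - V + z` is on `S(z)` if `q` is on `S(V)` -/
theorem dist_foot {z V q : ℂ} : dist (q - V + z) z = dist q V := by
  rw [dist_eq_norm, dist_eq_norm]; congr 1; ring

/-- **Arc transfer.** -/
theorem Irr.arc_transfer (h : Irr U T) {z V p : ℂ} {P : Set (Fin k)} (hV : dist V z = 1)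
    (hp : dist p z = 1) (hJ : ∀ᶠ q in 𝓝[sphere z 1] p, P ⊆ Pal U q)
    (hPV : ∀ i, i ∈ P ∨ i ∈ T V) (hne : p ≠ V) (hne2 : p + V ≠ 2 * z) :
    ∀ᶠ q in 𝓝[sphere V 1] (V + p - z), T q ⊆ T V := by
  have hf : Tendsto (fun q : ℂ => q - V + z) (𝓝[sphere V 1] (V + p - z)) (𝓝[sphere z 1] p) := by
    refine tendsto_nhdsWithin_iff.2 ⟨?_, ?_⟩
    · have hc : Continuous fun q : ℂ => q - V + z := by fun_prop
      have h1 := hc.tendsto (V + p - z)
      have e : V + p - z - V + z = p := by ring
      rw [e] at h1
      exact h1.mono_left nhdsWithin_le_nhds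
    · filter_upwards [self_mem_nhdsWithin] with q hq
      rw [mem_sphere, dist_foot]
      exact hq
  have h1 := hf.eventually (eventually_eventually_nhdsWithin.2 hJ)
  have h2 : ∀ᶠ q in 𝓝[sphere V 1] (V + p - z), q ≠ z ∧ q - V + z ≠ V := by
    refine mem_nhdsWithin_of_mem_nhds ?_
    have e1 : V + p - z ≠ z := fun h3 => hne2 (by linear_combination h3)
    have e2 : ∀ᶠ q : ℂ in 𝓝 (V + p - z), q ≠ z := isOpen_ne.mem_nhds e1
    have hc : Continuous fun q : ℂ => q - V + z := by fun_prop
    have e3 : ∀ᶠ q : ℂ in 𝓝 (V + p - z), q - V + z ≠ V := by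
      refine (hc.continuousAt (x := V + p - z)).eventually_ne ?_
      intro h3
      exact hne (by linear_combination h3)
    filter_upwards [e2, e3] with q h4 h5 using ⟨h4, h5⟩
  filter_upwards [h1, h2, self_mem_nhdsWithin] with q h3 h4 h5 i hi
  have h5 : dist q V = 1 := h5
  have hd : dist (q - V + z) z = 1 := by rw [dist_foot]; exact h5
  have hd2 : dist (q - V + z) q = 1 := by
    rw [dist_eq_norm, show q - V + z - q = z - V by ring, ← dist_eq_norm, dist_comm]
    exact hV
  have h6 := h.mx.shell2 hd h3 hd2 (fun h7 => h4.1 h7) (fun h7 => h4.2 (by linear_combination -h7))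
  rcases hPV i with h7 | h7
  · exact absurd (h.sub q hi) (Set.disjoint_left.1 h6 h7)
  · exact h7

/-- **Pair rule** (partner_line seen from the second centre). -/
theorem Mx.pair_rule (h : Mx U) {z w V : ℂ} (hzw : z ≠ w) (h2 : dist z w < 2)
    (hz : dist V z = 1) (hw : dist V w = 1) {P : Set (Fin k)}
    (hJ : ∀ᶠ q in 𝓝[sphere z 1] V, P ⊆ Pal U q) : Disjoint P (Pal U w) := by
  refine h.shell2 hz hJ hw hzw.symm fun h3 => ?_
  have h4 : z - w = 2 * (V - w) := by linear_combination h3
  rw [dist_eq_norm, h4, norm_mul, ← dist_eq_norm, hw] at h2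
  norm_num at h2

end Vale.Agent.P032.Six

namespace Vale.Agent.P032.S5.H767

open Vale.Agent.P032.Six

variable {U : Fin 6 → Set ℂ} {T : ℂ → Set (Fin 6)} {z : ℂ} {a b c d e f : Fin 6}

/-- the letter `l` is carried by `S(z)` near `y` -/
def Car (T : ℂ → Set (Fin 6)) (z : ℂ) (a b c d e f : Fin 6) (l : Fin 4) (y : ℂ) : Prop :=
  ∀ᶠ q in 𝓝[sphere z 1] y, q ∈ Lt T z a b c d e f l

theorem Car.pal (h : Irr U T) {l : Fin 4} {y : ℂ} (hy : Car T z a b c d e f l y) :
    ∀ᶠ q in 𝓝[sphere z 1] y, col a b c d e f l ⊆ Pal U q :=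
  hy.mono fun _ hq => (Lt_col h hq).trans (h.sub _)

/-- **second shell for letters** -/
theorem Car.shell (h : Irr U T) {l : Fin 4} {y v : ℂ} (hy : Car T z a b c d e f l y)
    (hyz : dist y z = 1) (hv : dist y v = 1) (hvz : v ≠ z) (hvz2 : v + z ≠ 2 * y) :
    Disjoint (col a b c d e f l) (Pal U v) :=
  h.mx.shell2 hyz (hy.pal h) hv hvz hvz2

/-- **two letters of the second shell**: `q = y + y' - z` has no colour of the letters `l`, `l'`
carried near `y` and `y'` -/
theorem Car.shell_two (h : Irr U T) {l l' : Fin 4} {y y' : ℂ} (hy : Car T z a b c d e f l y)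
    (hy' : Car T z a b c d e f l' y') (hyz : dist y z = 1) (hyz' : dist y' z = 1)
    (hne : y ≠ y') (hne2 : y + y' ≠ 2 * z) :
    Disjoint (col a b c d e f l ∪ col a b c d e f l') (Pal U (y + y' - z)) := by
  rw [Set.disjoint_union_left]
  constructor
  · refine hy.shell h hyz ?_ (fun h1 => hne2 (by linear_combination h1))
      (fun h1 => hne (by linear_combination -h1))
    rw [dist_eq_norm, show y - (y + y' - z) = z - y' by ring, ← dist_eq_norm, dist_comm]
    exact hyz'
  · refine hy'.shell h hyz' ?_ (fun h1 => hne2 (by linear_combination h1))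
      (fun h1 => hne (by linear_combination h1))
    rw [dist_eq_norm, show y' - (y + y' - z) = z - y by ring, ← dist_eq_norm, dist_comm]
    exact hyz

/-- **translation rule for a letter**: `v` any point at distance one of `z`, the letter `l` carried
near `y`: its colours are absent at `y + v - z` -/
theorem Car.trans (h : Irr U T) {l : Fin 4} {y v : ℂ} (hy : Car T z a b c d e f l y)
    (hyz : dist y z = 1) (hvz : dist v z = 1) (hne : y ≠ v) (hne2 : y + v ≠ 2 * z) :
    Disjoint (col a b c d e f l) (Pal U (y + v - z)) := by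
  refine hy.shell h hyz ?_ (fun h1 => hne2 (by linear_combination h1))
    (fun h1 => hne (by linear_combination -h1))
  rw [dist_eq_norm, show y - (y + v - z) = z - v by ring, ← dist_eq_norm, dist_comm]
  exact hvz

/-- the angles at which some letter is locally carried -/
def genL (T : ℂ → Set (Fin 6)) (z : ℂ) (a b c d e f : Fin 6) : Set ℝ :=
  {t | ∃ l, ∀ᶠ s in 𝓝 t, z + cis s ∈ Lt T z a b c d e f l}

theorem isOpen_genL : IsOpen (genL T z a b c d e f) := by
  rw [isOpen_iff_mem_nhds]
  rintro t ⟨l, hl⟩
  filter_upwards [hl.eventually_nhds] with s hs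
  exact ⟨l, hs⟩

theorem Ctr.dense_genL (C : Ctr U T z a b c d e f) : Dense (genL T z a b c d e f) := by
  -- the boundary of finitely many closed sets is nowhere dense
  have hcl : ∀ l, IsClosed {t : ℝ | z + cis t ∈ Lt T z a b c d e f l} := fun l =>
    (Lt_closed C.irr l).preimage (continuous_const.add continuous_cis)
  have hun : ⋃ l, {t : ℝ | z + cis t ∈ Lt T z a b c d e f l} = univ := by
    refine eq_univ_of_forall fun t => mem_iUnion.2 ?_
    exact C.cover (dist_add_cis z t)
  have h1 := dense_iUnion_interior_of_closed hcl hun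
  refine h1.mono ?_
  intro t ht
  obtain ⟨l, hl⟩ := mem_iUnion.1 ht
  exact ⟨l, mem_interior_iff_mem_nhds.1 hl⟩

end Vale.Agent.P032.S5.H767
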