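import Vale.Agent.P032.H587.Swap
import Vale.Agent.P032.S5.H767.Pts

/-!
# P032: the ring sum of swaps (wild form)

`v` has three colours, `m 0, m 1, m 2` are the other three.  `Jp T v m u σ`: the signed swaps at the
angle `u` are `σ`.  `Irr.ring_sum`: if the bad angles in a period are finitely many and have definite
signed swaps, the sum of all signed swaps is zero.  `Bd.high`: bad pairs contain a point with at
least four colours.
-/

open Set Filter Topology Metric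

noncomputable section

namespace Vale.Agent.P032.Six

variable {U : Fin 6 → Set ℂ} {T : ℂ → Set (Fin 6)} {v : ℂ} {m : Fin 3 → Fin 6}

/-- a sign of a pair which is no swap -/
theorem sgn_eq_zero {a b c d : Fin 3} (h : ¬ (a ≠ c ∧ c = b ∧ d = a)) : sgn a b c d = 0 := by
  unfold sgn
  rw [if_neg h]

/-- the signed swaps at the angle `u` -/
def Jp (T : ℂ → Set (Fin 6)) (v : ℂ) (m : Fin 3 → Fin 6) (u : ℝ) (σ : Fin 6 → ℤ) : Prop :=
  ∀ k : Fin 6, (¬ Bd T v m u k ∧ σ k = 0) ∨ ∃ x y x' y' : Fin 3,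
    (∀ᶠ s in 𝓝[<] u, (∀ l ∈ LL T v m (s + (k.val : ℝ)), l = x) ∧
      ∀ l ∈ LL T v m (s + (k.val : ℝ) + 1), l = y) ∧
    (∀ᶠ s in 𝓝[>] u, (∀ l ∈ LL T v m (s + (k.val : ℝ)), l = x') ∧
      ∀ l ∈ LL T v m (s + (k.val : ℝ) + 1), l = y') ∧ σ k = sgn x y x' y'

/-- **the jump of the winding number** -/
theorem Irr.jump (h : Irr U T) (h3 : (T v).ncard ≤ 3) (hm : ∀ i, i ∉ T v → ∃ l, m l = i) {u : ℝ}
    {σ : Fin 6 → ℤ} (hJ : Jp T v m u σ) {c c' : ℤ} (hc : ∃ᶠ s in 𝓝[<] u, Wn T v m c s)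
    (hc' : ∃ᶠ s in 𝓝[>] u, Wn T v m c' s) : c' - c = -6 * ∑ k, σ k := by
  have h1 : ∀ᶠ s in 𝓝 u, ∀ k : Fin 6, LL T v m (s + (k.val : ℝ)) ⊆ LL T v m (u + (k.val : ℝ)) :=
    eventually_all.2 fun k => LL_usc_add h u k
  -- the one-sided conditions
  have hL : ∀ᶠ s in 𝓝[<] u, ∀ k : Fin 6, (¬ Bd T v m u k ∧ σ k = 0) ∨ ∃ x y x' y' : Fin 3,
      (∀ l ∈ LL T v m (s + (k.val : ℝ)), l = x) ∧
      (∀ l ∈ LL T v m (s + (k.val : ℝ) + 1), l = y) ∧
      (∀ᶠ s in 𝓝[>] u, (∀ l ∈ LL T v m (s + (k.val : ℝ)), l = x') ∧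
      ∀ l ∈ LL T v m (s + (k.val : ℝ) + 1), l = y') ∧ σ k = sgn x y x' y' := by
    refine eventually_all.2 fun k => ?_
    rcases hJ k with h2 | ⟨x, y, x', y', h2, h4, h5⟩
    · exact Eventually.of_forall fun s => Or.inl h2
    · filter_upwards [h2] with s hs
      exact Or.inr ⟨x, y, x', y', hs.1, hs.2, h4, h5⟩
  have hL' := hL.and (h1.filter_mono (nhdsWithin_le_nhds (s := Iio u)))
  obtain ⟨b, hbu, hb⟩ := mem_nhdsLT_iff_exists_Ioo_subset.1 hL'
  obtain ⟨s0, hs0, hs0I⟩ := (hc.and_eventually (Ioo_mem_nhdsLT hbu)).exists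
  obtain ⟨q, ⟨hqW, hqI⟩, hqG⟩ := (dense_Gw (v := v) (m := m) h).inter_open_nonempty _
    ((Wn.open (T := T) (v := v) (m := m) (c := c)).inter isOpen_Ioo) ⟨s0, hs0, hs0I⟩
  obtain ⟨g, hg⟩ := Sel.exists h h3 hm q
  obtain ⟨hq1, hq2⟩ := hb hqI
  have w1 : wd g = c := hqW.self_of_nhds hqG g hg
  -- the right side
  have hR : ∀ᶠ s in 𝓝[>] u, ∀ k : Fin 6, (¬ Bd T v m u k ∧ σ k = 0) ∨ ∃ x y x' y' : Fin 3,
      (∀ l ∈ LL T v m (q + (k.val : ℝ)), l = x) ∧
      (∀ l ∈ LL T v m (q + (k.val : ℝ) + 1), l = y) ∧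
      ((∀ l ∈ LL T v m (s + (k.val : ℝ)), l = x') ∧
      ∀ l ∈ LL T v m (s + (k.val : ℝ) + 1), l = y') ∧ σ k = sgn x y x' y' := by
    refine eventually_all.2 fun k => ?_
    rcases hq1 k with h2 | ⟨x, y, x', y', h2, h2', h4, h5⟩
    · exact Eventually.of_forall fun s => Or.inl h2
    · filter_upwards [h4] with s hs
      exact Or.inr ⟨x, y, x', y', h2, h2', hs, h5⟩
  have hR' := hR.and (h1.filter_mono (nhdsWithin_le_nhds (s := Ioi u)))
  obtain ⟨b', hbu', hb'⟩ := mem_nhdsGT_iff_exists_Ioo_subset.1 hR'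
  obtain ⟨s1, hs1, hs1I⟩ := (hc'.and_eventually (Ioo_mem_nhdsGT hbu')).exists
  obtain ⟨r, ⟨hrW, hrI⟩, hrG⟩ := (dense_Gw (v := v) (m := m) h).inter_open_nonempty _
    ((Wn.open (T := T) (v := v) (m := m) (c := c')).inter isOpen_Ioo) ⟨s1, hs1, hs1I⟩
  obtain ⟨g', hg'⟩ := Sel.exists h h3 hm r
  obtain ⟨hr1, hr2⟩ := hb' hrI
  have w2 : wd g' = c' := hrW.self_of_nhds hrG g' hg'
  have w3 := wd_sub (hqG.prp h hg) (hrG.prp h hg')
  rw [w1, w2] at w3
  rw [w3]
  congr 1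
  refine Finset.sum_congr rfl fun k _ => ?_
  rcases hr1 k with ⟨h2, h4⟩ | ⟨x, y, x', y', e1, e2, ⟨e3, e4⟩, e5⟩
  · rw [h4]
    refine sgn_eq_zero fun hsw => h2 ?_
    obtain ⟨x1, x2, x4⟩ := hsw
    refine ⟨g k, g' k, x1, hq2 k (hg k), hr2 k (hg' k), ?_, ?_⟩
    · rw [← LL_succ, ← x4]; exact hr2 (k + 1) (hg' (k + 1))
    · rw [← LL_succ, x2]; exact hq2 (k + 1) (hg (k + 1))
  · have f1 : g k = x := e1 _ (hg k)
    have f2 : g (k + 1) = y := e2 _ (by rw [← LL_succ]; exact hg (k + 1))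
    have f3 : g' k = x' := e3 _ (hg' k)
    have f4 : g' (k + 1) = y' := e4 _ (by rw [← LL_succ]; exact hg' (k + 1))
    rw [e5, f1, f2, f3, f4]

/-- telescoping -/
theorem Irr.jumps (h : Irr U T) (h3 : (T v).ncard ≤ 3) (hm : ∀ i, i ∉ T v → ∃ l, m l = i)
    {σ : ℝ → Fin 6 → ℤ} (S : Finset ℝ) : ∀ {a b : ℝ} {c c' : ℤ},
    (∀ u ∈ Icc a b, ∀ k, Bd T v m u k → u ∈ S) → (∀ s ∈ S, a < s ∧ s < b) → a ≤ b →
    (∀ s ∈ S, Jp T v m s (σ s)) → Wn T v m c a → Wn T v m c' b →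
    c' - c = -6 * ∑ s ∈ S, ∑ k, σ s k := by
  classical
  induction S using Finset.induction_on_max with
  | empty =>
    intro a b c c' hS _ hab _ hc hc'
    have h1 := Wn.const h h3 hm (s := Icc a b) isPreconnected_Icc
      (fun u hu k hk => absurd (hS u hu k hk) (Finset.notMem_empty u)) (u := a)
      (left_mem_Icc.2 hab) hc b (right_mem_Icc.2 hab)
    rw [Wn.unique h h3 hm h1 hc']
    simp
  | insert s S hmax ih =>
    intro a b c c' hS hS' hab hJ hc hc'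
    have hsS : s ∉ S := fun hs => lt_irrefl _ (hmax s hs)
    obtain ⟨has, hsb⟩ := hS' s (Finset.mem_insert_self s S)
    -- a point between the other elements and `s`
    obtain ⟨r, hr1, hr2, hr3⟩ : ∃ r, a < r ∧ r < s ∧ ∀ x ∈ S, x < r := by
      have hne : (insert a S).Nonempty := Finset.insert_nonempty a S
      have hlt : (insert a S).max' hne < s := by
        rw [Finset.max'_lt_iff]
        intro y hy
        rcases Finset.mem_insert.1 hy with rfl | hy
        · exact has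
        · exact hmax y hy
      obtain ⟨r, hr1, hr2⟩ := exists_between hlt
      exact ⟨r, lt_of_le_of_lt (Finset.le_max' _ a (Finset.mem_insert_self a S)) hr1, hr2,
        fun x hx => lt_of_le_of_lt (Finset.le_max' _ x (Finset.mem_insert_of_mem hx)) hr1⟩
    have hbad : ∀ u, r ≤ u → u ≤ b → u ≠ s → ∀ k, ¬ Bd T v m u k := by
      intro u hu1 hu2 hus k hk
      rcases Finset.mem_insert.1 (hS u ⟨by linarith, hu2⟩ k hk) with h1 | h1
      · exact hus h1
      · exact absurd (hr3 u h1) (not_lt.2 hu1)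
    obtain ⟨cr, hcr⟩ := Wn.exists h h3 hm (hbad r le_rfl (by linarith) hr2.ne)
    have e1 := ih (a := a) (b := r) (c := c) (c' := cr)
      (fun u hu k hk => by
        rcases Finset.mem_insert.1 (hS u ⟨hu.1, by linarith [hu.2]⟩ k hk) with h1 | h1
        · exact absurd hu.2 (by rw [h1]; exact not_le.2 hr2)
        · exact h1)
      (fun x hx => ⟨(hS' x (Finset.mem_insert_of_mem hx)).1, hr3 x hx⟩) hr1.le
      (fun x hx => hJ x (Finset.mem_insert_of_mem hx)) hc hcr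
    have k1 := Wn.const h h3 hm (s := Ico r s) isPreconnected_Ico
      (fun u hu => hbad u hu.1 (by linarith [hu.2]) hu.2.ne) (u := r) ⟨le_rfl, hr2⟩ hcr
    have k2 := Wn.const h h3 hm (s := Ioc s b) isPreconnected_Ioc
      (fun u hu => hbad u (by linarith [hu.1]) hu.2 hu.1.ne') (u := b) ⟨hsb, le_rfl⟩ hc'
    have e2 := h.jump h3 hm (hJ s (Finset.mem_insert_self s S)) (c := cr) (c' := c')
      (by
        have : ∀ᶠ x in 𝓝[<] s, Wn T v m cr x := by
          filter_upwards [Ico_mem_nhdsLT hr2] with x hx using k1 x hx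
        exact this.frequently)
      (by
        have : ∀ᶠ x in 𝓝[>] s, Wn T v m c' x := by
          filter_upwards [Ioc_mem_nhdsGT hsb] with x hx using k2 x hx
        exact this.frequently)
    rw [Finset.sum_insert hsS]
    linarith

theorem Bd_rot {u : ℝ} {k : Fin 6} : Bd T v m (u + 1) k ↔ Bd T v m u (k + 1) := by
  have e1 : LL T v m (u + 1 + (k.val : ℝ)) = LL T v m (u + ((k + 1 : Fin 6).val : ℝ)) := by
    rw [LL_succ]
    congr 1; ring
  have e2 : LL T v m (u + 1 + (k.val : ℝ) + 1) = LL T v m (u + ((k + 1 : Fin 6).val : ℝ) + 1) := by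
    have h1 := LL_succ (T := T) (v := v) (m := m) (u + 1) k
    rw [← h1]
    congr 1; ring
  unfold Bd
  rw [e1, e2]

/-- **Ring sum.**  `v` with at most three colours; the bad angles strictly between `u0` and
`u0 + 1` are among the elements of `S` and have the signed swaps `σ s`; `u0` is not bad.  Then the
sum of all signed swaps is zero. -/
theorem Irr.ring_sum (h : Irr U T) (h3 : (T v).ncard ≤ 3) (hm : ∀ i, i ∉ T v → ∃ l, m l = i)
    {u0 : ℝ} (h0 : ∀ k, ¬ Bd T v m u0 k) (S : Finset ℝ) {σ : ℝ → Fin 6 → ℤ}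
    (hS : ∀ u, u0 < u → u < u0 + 1 → ∀ k, Bd T v m u k → u ∈ S)
    (hS' : ∀ s ∈ S, u0 < s ∧ s < u0 + 1) (hJ : ∀ s ∈ S, Jp T v m s (σ s)) :
    ∑ s ∈ S, ∑ k, σ s k = 0 := by
  have h1 : ∀ k, ¬ Bd T v m (u0 + 1) k := fun k hk => h0 _ (Bd_rot.1 hk)
  obtain ⟨c, hc⟩ := Wn.exists h h3 hm h0
  obtain ⟨c', hc'⟩ := Wn.exists h h3 hm h1
  have e1 : c = c' := by
    obtain ⟨q, hq⟩ : ∃ q, q ∈ {u | Wn T v m c u} ∩ {u | Wn T v m c' (u + 1)} ∧ Gw T v m q := by
      have ho : IsOpen ({u | Wn T v m c u} ∩ {u | Wn T v m c' (u + 1)}) := by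
        refine Wn.open.inter ?_
        exact (Wn.open (T := T) (v := v) (m := m) (c := c')).preimage
          (f := fun u : ℝ => u + 1) (by fun_prop)
      obtain ⟨q, h2, h4⟩ := (dense_Gw (v := v) (m := m) h).inter_open_nonempty _ ho ⟨u0, hc, hc'⟩
      exact ⟨q, h2, h4⟩
    obtain ⟨⟨q1, q2⟩, q3⟩ := hq
    obtain ⟨g, hg⟩ := Sel.exists h h3 hm q
    have w1 : wd g = c := (show Wn T v m c q from q1).self_of_nhds q3 g hg
    have w2 : wd (fun k => g (k + 1)) = c' :=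
      (show Wn T v m c' (q + 1) from q2).self_of_nhds q3.rot _ hg.rot
    rw [← w1, ← w2, wd_rot]
  have e2 := h.jumps h3 hm (σ := σ) S (a := u0) (b := u0 + 1) (c := c) (c' := c')
    (fun u hu k hk => by
      rcases eq_or_lt_of_le hu.1 with h2 | h2
      · exact absurd hk (h2 ▸ h0 k)
      rcases eq_or_lt_of_le hu.2 with h4 | h4
      · exact absurd hk (h4 ▸ h1 k)
      exact hS u h2 h4 k hk)
    hS' (by linarith) hJ hc hc'
  rw [e1, sub_self] at e2
  linarith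

theorem fin_three : ∀ l l' n n' : Fin 3, l ≠ l' → n ≠ l → n ≠ l' → n' ≠ l → n' ≠ l' → n = n' := by
  decide

/-- **bad pairs of a three-coloured point contain a point with at least four colours** -/
theorem Bd.high (h : Irr U T) (h3 : (T v).ncard = 3) (hm : ∀ i, i ∉ T v → ∃ l, m l = i) {u : ℝ}
    {k : Fin 6} (hb : Bd T v m u k) : 4 ≤ (T (pv v (u + (k.val : ℝ)))).ncard ∨
      4 ≤ (T (pv v (u + (k.val : ℝ) + 1))).ncard := by
  by_contra hcon
  push Not at hcon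
  obtain ⟨l, l', hne, h1, h2, h4, h5⟩ := hb
  -- the letters are outside `T v` and different
  have hcard : (T v)ᶜ.ncard = 3 := by
    have := Set.ncard_add_ncard_compl (T v)
    rw [h3, Nat.card_eq_fintype_card, Fintype.card_fin] at this
    omega
  have hsub : (T v)ᶜ ⊆ m '' univ := fun i hi => by
    obtain ⟨l, hl⟩ := hm i hi
    exact ⟨l, mem_univ l, hl⟩
  have hle : (m '' univ).ncard ≤ 3 := by
    refine (Set.ncard_image_le (toFinite _)).trans ?_
    rw [Set.ncard_univ, Nat.card_eq_fintype_card, Fintype.card_fin]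
  have heq : (T v)ᶜ = m '' univ :=
    Set.eq_of_subset_of_ncard_le hsub (by rw [hcard]; exact hle) (toFinite _)
  have hinj : Function.Injective m := by
    have h6 : (m '' univ).ncard = (univ : Set (Fin 3)).ncard := by
      rw [← heq, hcard, Set.ncard_univ, Nat.card_eq_fintype_card, Fintype.card_fin]
    have h7 := (Set.ncard_image_iff (toFinite _)).1 h6
    exact injOn_univ.1 h7
  have hmv : ∀ l, m l ∉ T v := fun l => by
    have : m l ∈ (T v)ᶜ := by rw [heq]; exact ⟨l, mem_univ l, rfl⟩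
    exact this
  obtain ⟨x, hx1, hx2, hx3, hx4, -⟩ := S5.H767.hand h (dist_pv v (u + (k.val : ℝ)))
    (dist_pv v (u + (k.val : ℝ) + 1)) (dist_pv_one v _ (Or.inl rfl)) (by omega) (by omega)
    (s := m l) (t := m l') (fun he => hne (hinj he)) h1 h2 h4 h5
  obtain ⟨x', hx1', hx2', hx3', hx4', -⟩ := S5.H767.hand h (dist_pv v (u + (k.val : ℝ) + 1))
    (dist_pv v (u + (k.val : ℝ))) (by rw [dist_comm]; exact dist_pv_one v _ (Or.inl rfl))
    (by omega) (by omega)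
    (s := m l) (t := m l') (fun he => hne (hinj he)) h4 h5 h1 h2
  obtain ⟨n, hn⟩ := hm x hx1
  obtain ⟨n', hn'⟩ := hm x' hx1'
  have a1 : n ≠ l := by rintro rfl; exact hx3 (hn ▸ h4)
  have a2 : n ≠ l' := by rintro rfl; exact hx3 (hn ▸ h5)
  have a3 : n' ≠ l := by rintro rfl; exact hx3' (hn' ▸ h1)
  have a4 : n' ≠ l' := by rintro rfl; exact hx3' (hn' ▸ h2)
  have a5 : n = n' := fin_three l l' n n' hne a1 a2 a3 a4
  rw [← hn, a5, hn'] at hx3
  exact hx3 hx2'

end Vale.Agent.P032.Six
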