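import Vale.Agent.P032.H587.Hub

/-!
# P032: hub parity with several centres (wild form)

`v` with at most three colours, `m 0, m 1, m 2` the other colours, letters of `S(v)` in units of
sixty degrees (`pv v u`, `LL T v m u`).

* `PS T v m u k r`: the signed swap of the pair of positions `k`, `k + 1` at the angle `u` is `r`,
  whatever letters are read near `u` on the left and on the right.  `Irr.ps_low`: not a bad pair,
  `r = 0` (in particular both points low, `Bd.high`); `DL.ps_dd`: both points have definite letters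
  on both sides; `Irr.ps_dl`, `Irr.ps_ld`: one point has definite letters `l | l'`, the other one,
  `p`, lacks one of the three letters: `r` is the sign of `(l, l')` if `p` carries `l` and `l'` and
  `0` otherwise.
* `Irr.ring_sum2`: the sum of all signed swaps over a period is zero.
* `Irr.hub_sum`: `v` with finitely many points `z = pv v s` (no two in one hexagon) which contain all
  bad pairs and have definite letters `l s | l' s`: the sum over the centres of
  `± ([both letters at z+] - [both letters at z-])` is zero; `Irr.hub_even`: the number of centres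
  such that exactly one of the two neighbours carries both letters is even.
* `Irr.dl_centre`: every two-pair centre `ab | cd` on `S(v)`, `a, b` in `T v`, has definite
  letters.  `Irr.hub_parity2`: the two centre case.
-/

open Set Filter Topology Metric

noncomputable section

namespace Vale.Agent.P032.Six

variable {U : Fin 6 → Set ℂ} {T : ℂ → Set (Fin 6)} {v : ℂ} {m : Fin 3 → Fin 6}

/-- the signed swap of the pair `k`, `k + 1` at the angle `u` is `r` -/
def PS (T : ℂ → Set (Fin 6)) (v : ℂ) (m : Fin 3 → Fin 6) (u : ℝ) (k : Fin 6) (r : ℤ) : Prop :=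
  ∀ᶠ s in 𝓝[<] u, ∀ᶠ s' in 𝓝[>] u, ∀ x ∈ LL T v m (s + (k.val : ℝ)),
    ∀ y ∈ LL T v m (s + (k.val : ℝ) + 1), ∀ x' ∈ LL T v m (s' + (k.val : ℝ)),
    ∀ y' ∈ LL T v m (s' + (k.val : ℝ) + 1), x ≠ y → x' ≠ y' → sgn x y x' y' = r

/-- **the jump of the winding number** -/
theorem Irr.jump2 (h : Irr U T) (h3 : (T v).ncard ≤ 3) (hm : ∀ i, i ∉ T v → ∃ l, m l = i) {u : ℝ}
    {σ : Fin 6 → ℤ} (hJ : ∀ k, PS T v m u k (σ k)) {c c' : ℤ} (hc : ∃ᶠ s in 𝓝[<] u, Wn T v m c s)
    (hc' : ∃ᶠ s in 𝓝[>] u, Wn T v m c' s) : c' - c = -6 * ∑ k, σ k := by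
  have hL := eventually_all.2 hJ
  obtain ⟨b, hbu, hb⟩ := mem_nhdsLT_iff_exists_Ioo_subset.1 hL
  obtain ⟨s0, hs0, hs0I⟩ := (hc.and_eventually (Ioo_mem_nhdsLT hbu)).exists
  obtain ⟨q, ⟨hqW, hqI⟩, hqG⟩ := (dense_Gw (v := v) (m := m) h).inter_open_nonempty _
    ((Wn.open (T := T) (v := v) (m := m) (c := c)).inter isOpen_Ioo) ⟨s0, hs0, hs0I⟩
  obtain ⟨g, hg⟩ := Sel.exists h h3 hm q
  have w1 : wd g = c := hqW.self_of_nhds hqG g hg
  have hR := eventually_all.2 (hb hqI)
  obtain ⟨b', hbu', hb'⟩ := mem_nhdsGT_iff_exists_Ioo_subset.1 hR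
  obtain ⟨s1, hs1, hs1I⟩ := (hc'.and_eventually (Ioo_mem_nhdsGT hbu')).exists
  obtain ⟨r, ⟨hrW, hrI⟩, hrG⟩ := (dense_Gw (v := v) (m := m) h).inter_open_nonempty _
    ((Wn.open (T := T) (v := v) (m := m) (c := c')).inter isOpen_Ioo) ⟨s1, hs1, hs1I⟩
  obtain ⟨g', hg'⟩ := Sel.exists h h3 hm r
  have w2 : wd g' = c' := hrW.self_of_nhds hrG g' hg'
  have p1 := hqG.prp h hg
  have p2 := hrG.prp h hg'
  have w3 := wd_sub p1 p2
  rw [w1, w2] at w3
  rw [w3]
  congr 1
  refine Finset.sum_congr rfl fun k _ => ?_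
  exact hb' hrI k (g k) (hg k) (g (k + 1)) (by rw [← LL_succ]; exact hg (k + 1)) (g' k) (hg' k)
    (g' (k + 1)) (by rw [← LL_succ]; exact hg' (k + 1)) (p1 k) (p2 k)

/-- telescoping -/
theorem Irr.jumps2 (h : Irr U T) (h3 : (T v).ncard ≤ 3) (hm : ∀ i, i ∉ T v → ∃ l, m l = i)
    {σ : ℝ → Fin 6 → ℤ} (S : Finset ℝ) : ∀ {a b : ℝ} {c c' : ℤ},
    (∀ u ∈ Icc a b, ∀ k, Bd T v m u k → u ∈ S) → (∀ s ∈ S, a < s ∧ s < b) → a ≤ b →
    (∀ s ∈ S, ∀ k, PS T v m s k (σ s k)) → Wn T v m c a → Wn T v m c' b →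
    c' - c = -6 * ∑ s ∈ S, ∑ k, σ s k := by
  classical
  induction S using Finset.induction_on_max with
  | empty =>
    intro a b c c' hS _ hab _ hc hc'
    have h1 := Wn.const h h3 hm (s := Icc a b) isPreconnected_Icc
      (fun u hu k hk => absurd (hS u hu k hk) (Finset.notMem_empty u)) (u := a)
      (left_mem_Icc.2 hab) hc b (right_mem_Icc.2 hab)
    rw [Wn.unique h h3 hm h1 hc']
    simp
  | insert s S hmax ih =>
    intro a b c c' hS hS' hab hJ hc hc'
    have hsS : s ∉ S := fun hs => lt_irrefl _ (hmax s hs)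
    obtain ⟨has, hsb⟩ := hS' s (Finset.mem_insert_self s S)
    -- a point between the other elements and `s`
    obtain ⟨r, hr1, hr2, hr3⟩ : ∃ r, a < r ∧ r < s ∧ ∀ x ∈ S, x < r := by
      have hne : (insert a S).Nonempty := Finset.insert_nonempty a S
      have hlt : (insert a S).max' hne < s := by
        rw [Finset.max'_lt_iff]
        intro y hy
        rcases Finset.mem_insert.1 hy with rfl | hy
        · exact has
        · exact hmax y hy
      obtain ⟨r, hr1, hr2⟩ := exists_between hlt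
      exact ⟨r, lt_of_le_of_lt (Finset.le_max' _ a (Finset.mem_insert_self a S)) hr1, hr2,
        fun x hx => lt_of_le_of_lt (Finset.le_max' _ x (Finset.mem_insert_of_mem hx)) hr1⟩
    have hbad : ∀ u, r ≤ u → u ≤ b → u ≠ s → ∀ k, ¬ Bd T v m u k := by
      intro u hu1 hu2 hus k hk
      rcases Finset.mem_insert.1 (hS u ⟨by linarith, hu2⟩ k hk) with h1 | h1
      · exact hus h1
      · exact absurd (hr3 u h1) (not_lt.2 hu1)
    obtain ⟨cr, hcr⟩ := Wn.exists h h3 hm (hbad r le_rfl (by linarith) hr2.ne)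
    have e1 := ih (a := a) (b := r) (c := c) (c' := cr)
      (fun u hu k hk => by
        rcases Finset.mem_insert.1 (hS u ⟨hu.1, by linarith [hu.2]⟩ k hk) with h1 | h1
        · exact absurd hu.2 (by rw [h1]; exact not_le.2 hr2)
        · exact h1)
      (fun x hx => ⟨(hS' x (Finset.mem_insert_of_mem hx)).1, hr3 x hx⟩) hr1.le
      (fun x hx => hJ x (Finset.mem_insert_of_mem hx)) hc hcr
    have k1 := Wn.const h h3 hm (s := Ico r s) isPreconnected_Ico
      (fun u hu => hbad u hu.1 (by linarith [hu.2]) hu.2.ne) (u := r) ⟨le_rfl, hr2⟩ hcr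
    have k2 := Wn.const h h3 hm (s := Ioc s b) isPreconnected_Ioc
      (fun u hu => hbad u (by linarith [hu.1]) hu.2 hu.1.ne') (u := b) ⟨hsb, le_rfl⟩ hc'
    have e2 := h.jump2 h3 hm (hJ s (Finset.mem_insert_self s S)) (c := cr) (c' := c')
      (by
        have : ∀ᶠ x in 𝓝[<] s, Wn T v m cr x := by
          filter_upwards [Ico_mem_nhdsLT hr2] with x hx using k1 x hx
        exact this.frequently)
      (by
        have : ∀ᶠ x in 𝓝[>] s, Wn T v m c' x := by
          filter_upwards [Ioc_mem_nhdsGT hsb] with x hx using k2 x hx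
        exact this.frequently)
    rw [Finset.sum_insert hsS]
    linarith

theorem tendsto_add_left (a b : ℝ) : Tendsto (fun s : ℝ => s + a) (𝓝[<] b) (𝓝[<] (b + a)) := by
  refine tendsto_nhdsWithin_iff.2 ⟨?_, ?_⟩
  · have hc : Continuous fun s : ℝ => s + a := by fun_prop
    exact (hc.tendsto b).mono_left nhdsWithin_le_nhds
  · filter_upwards [self_mem_nhdsWithin] with s hs
    have : s < b := hs
    show s + a < b + a
    linarith

theorem tendsto_add_right (a b : ℝ) : Tendsto (fun s : ℝ => s + a) (𝓝[>] b) (𝓝[>] (b + a)) := by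
  refine tendsto_nhdsWithin_iff.2 ⟨?_, ?_⟩
  · have hc : Continuous fun s : ℝ => s + a := by fun_prop
    exact (hc.tendsto b).mono_left nhdsWithin_le_nhds
  · filter_upwards [self_mem_nhdsWithin] with s hs
    have : b < s := hs
    show b + a < s + a
    linarith

theorem LL_succ' (u : ℝ) (k : Fin 6) :
    LL T v m (u + ((k + 1 : Fin 6).val : ℝ) + 1) = LL T v m (u + (k.val : ℝ) + 1 + 1) := by
  have h1 := LL_succ (T := T) (v := v) (m := m) (u + 1) k
  have e1 : u + 1 + ((k + 1 : Fin 6).val : ℝ) = u + ((k + 1 : Fin 6).val : ℝ) + 1 := by ring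
  have e2 : u + 1 + (k.val : ℝ) + 1 = u + (k.val : ℝ) + 1 + 1 := by ring
  rw [e1, e2] at h1
  exact h1

theorem LL_rot1 (s : ℝ) (k : Fin 6) :
    LL T v m (s + 1 + (k.val : ℝ)) = LL T v m (s + ((k + 1 : Fin 6).val : ℝ)) := by
  rw [LL_succ]
  congr 1; ring

theorem LL_rot2 (s : ℝ) (k : Fin 6) :
    LL T v m (s + 1 + (k.val : ℝ) + 1) = LL T v m (s + ((k + 1 : Fin 6).val : ℝ) + 1) := by
  rw [LL_succ']
  congr 1; ring

theorem PS_rot {u : ℝ} {k : Fin 6} {r : ℤ} :
    PS T v m (u + 1) k r ↔ PS T v m u (k + 1) r := by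
  constructor
  · intro h1
    have h2 := (tendsto_add_left 1 u).eventually h1
    unfold PS
    filter_upwards [h2] with s hs
    filter_upwards [(tendsto_add_right 1 u).eventually hs] with s' hs'
    rw [LL_rot1, LL_rot2, LL_rot1, LL_rot2] at hs'
    exact hs'
  · intro h1
    have t1 := tendsto_add_left (-1) (u + 1)
    have t2 := tendsto_add_right (-1) (u + 1)
    rw [add_neg_cancel_right] at t1 t2
    have h2 := t1.eventually h1
    unfold PS
    filter_upwards [h2] with s hs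
    filter_upwards [t2.eventually hs] with s' hs'
    rw [← LL_rot1, ← LL_rot2, ← LL_rot1, ← LL_rot2, neg_add_cancel_right,
      neg_add_cancel_right] at hs'
    exact hs'

/-- change of the base angle by an integer -/
theorem PS.shift {u : ℝ} {σ : Fin 6 → ℤ} (hJ : ∀ k, PS T v m u k (σ k)) (n : ℤ) :
    ∃ σ' : Fin 6 → ℤ, (∀ k, PS T v m (u + n) k (σ' k)) ∧ ∑ k, σ' k = ∑ k, σ k := by
  induction n using Int.induction_on with
  | zero => exact ⟨σ, by simpa using hJ, rfl⟩
  | succ n ih =>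
    obtain ⟨σ', h1, h2⟩ := ih
    refine ⟨fun k => σ' (k + 1), ?_, ?_⟩
    · intro k
      have e : u + (((n : ℤ) + 1 : ℤ) : ℝ) = u + ((n : ℤ) : ℝ) + 1 := by push_cast; ring
      rw [e]
      exact PS_rot.2 (h1 (k + 1))
    · rw [← h2]
      exact Equiv.sum_comp (Equiv.addRight (1 : Fin 6)) fun k => σ' k
  | pred n ih =>
    obtain ⟨σ', h1, h2⟩ := ih
    refine ⟨fun k => σ' (k - 1), ?_, ?_⟩
    · intro k
      have e : u + ((-(n : ℤ) : ℤ) : ℝ) = u + ((-(n : ℤ) - 1 : ℤ) : ℝ) + 1 := by push_cast; ring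
      have h3 : PS T v m (u + ((-(n : ℤ) - 1 : ℤ) : ℝ) + 1) (k - 1) (σ' (k - 1)) := by
        rw [← e]
        exact h1 (k - 1)
      have h4 := PS_rot.1 h3
      rw [sub_add_cancel] at h4
      exact h4
    · rw [← h2]
      exact Equiv.sum_comp (Equiv.subRight (1 : Fin 6)) fun k => σ' k

/-- **Ring sum.**  `S` a finite set of angles, pairwise incongruent modulo `1` (sixty degrees), every
bad angle is congruent to one of them; the signed swaps at `s` are `σ s`.  Then the sum of all signed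
swaps is zero. -/
theorem Irr.ring_sum2 (h : Irr U T) (h3 : (T v).ncard ≤ 3) (hm : ∀ i, i ∉ T v → ∃ l, m l = i)
    (S : Finset ℝ) {σ : ℝ → Fin 6 → ℤ} (hinc : ∀ s ∈ S, ∀ s' ∈ S, ∀ n : ℤ, s = s' + n → s = s')
    (hS : ∀ u k, Bd T v m u k → ∃ s ∈ S, ∃ n : ℤ, u = s + n)
    (hJ : ∀ s ∈ S, ∀ k, PS T v m s k (σ s k)) : ∑ s ∈ S, ∑ k, σ s k = 0 := by
  classical
  -- a base angle
  obtain ⟨u0, hu0⟩ : ∃ u0 : ℝ, ∀ s ∈ S, ∀ n : ℤ, u0 ≠ s + n := by
    have hc : (⋃ s ∈ S, ⋃ n : ℤ, {s + (n : ℝ)}).Countable := by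
      refine Set.Countable.biUnion S.countable_toSet fun s _ => ?_
      exact Set.countable_iUnion fun n => Set.countable_singleton _
    obtain ⟨u0, hu0⟩ := (hc.dense_compl ℝ).nonempty
    refine ⟨u0, fun s hs n he => hu0 ?_⟩
    simp only [mem_iUnion, mem_singleton_iff]
    exact ⟨s, hs, n, he⟩
  -- the representatives in the period
  set r : ℝ → ℝ := fun s => s + ((-⌊s - u0⌋ : ℤ) : ℝ) with hr
  have hr0 : ∀ s ∈ S, u0 < r s ∧ r s < u0 + 1 := by
    intro s hs
    have h1 := Int.floor_le (s - u0)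
    have h2 := Int.lt_floor_add_one (s - u0)
    have h4 : r s = s - (⌊s - u0⌋ : ℝ) := by rw [hr]; push_cast; ring
    rw [h4]
    refine ⟨lt_of_le_of_ne (by linarith) fun he => hu0 s hs (-⌊s - u0⌋) ?_, by linarith⟩
    push_cast; linarith
  have hinj : Set.InjOn r S := by
    intro s hs s' hs' he
    refine hinc s hs s' hs' (⌊s - u0⌋ - ⌊s' - u0⌋) ?_
    simp only [hr] at he
    push_cast at he ⊢
    linarith
  choose! τ hτ1 hτ2 using fun s (hs : s ∈ S) => PS.shift (hJ s hs) (-⌊s - u0⌋)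
  set g : ℝ → Fin 6 → ℤ := fun x => if hx : ∃ s ∈ S, r s = x then τ hx.choose else 0 with hg
  have hgr : ∀ s ∈ S, g (r s) = τ s := by
    intro s hs
    have hx : ∃ s' ∈ S, r s' = r s := ⟨s, hs, rfl⟩
    have h1 : g (r s) = τ hx.choose := by simp only [hg]; rw [dif_pos hx]
    rw [h1, hinj hx.choose_spec.1 hs hx.choose_spec.2]
  have h0 : ∀ k, ¬ Bd T v m u0 k := by
    intro k hk
    obtain ⟨s, hs, n, hn⟩ := hS u0 k hk
    exact hu0 s hs n hn
  have h1 : ∀ k, ¬ Bd T v m (u0 + 1) k := fun k hk => h0 _ (Bd_rot.1 hk)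
  obtain ⟨c, hc⟩ := Wn.exists h h3 hm h0
  obtain ⟨c', hc'⟩ := Wn.exists h h3 hm h1
  have e1 : c = c' := by
    obtain ⟨q, hq⟩ : ∃ q, q ∈ {u | Wn T v m c u} ∩ {u | Wn T v m c' (u + 1)} ∧ Gw T v m q := by
      have ho : IsOpen ({u | Wn T v m c u} ∩ {u | Wn T v m c' (u + 1)}) := by
        refine Wn.open.inter ?_
        exact (Wn.open (T := T) (v := v) (m := m) (c := c')).preimage
          (f := fun u : ℝ => u + 1) (by fun_prop)
      obtain ⟨q, h2, h4⟩ := (dense_Gw (v := v) (m := m) h).inter_open_nonempty _ ho ⟨u0, hc, hc'⟩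
      exact ⟨q, h2, h4⟩
    obtain ⟨⟨q1, q2⟩, q3⟩ := hq
    obtain ⟨g, hg⟩ := Sel.exists h h3 hm q
    have w1 : wd g = c := (show Wn T v m c q from q1).self_of_nhds q3 g hg
    have w2 : wd (fun k => g (k + 1)) = c' :=
      (show Wn T v m c' (q + 1) from q2).self_of_nhds q3.rot _ hg.rot
    rw [← w1, ← w2, wd_rot]
  have e2 := h.jumps2 h3 hm (σ := g) (S.image r) (a := u0) (b := u0 + 1) (c := c) (c' := c')
    ?_ ?_ (by linarith) ?_ hc hc'
  · rw [e1, sub_self, Finset.sum_image hinj] at e2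
    have e3 : ∑ s ∈ S, ∑ k, g (r s) k = ∑ s ∈ S, ∑ k, σ s k := by
      refine Finset.sum_congr rfl fun s hs => ?_
      rw [hgr s hs, hτ2 s hs]
    rw [e3] at e2
    omega
  · intro u hu k hk
    have hu1 : u0 < u := lt_of_le_of_ne hu.1 fun he => h0 k (he ▸ hk)
    have hu2 : u < u0 + 1 := lt_of_le_of_ne hu.2 fun he => h1 k (he ▸ hk)
    obtain ⟨s, hs, n, hn⟩ := hS u k hk
    refine Finset.mem_image.2 ⟨s, hs, ?_⟩
    obtain ⟨h1, h2⟩ := hr0 s hs
    have h4 : r s = s - (⌊s - u0⌋ : ℝ) := by rw [hr]; push_cast; ring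
    have e1 : ((n + ⌊s - u0⌋ : ℤ) : ℝ) < ((1 : ℤ) : ℝ) := by push_cast; linarith
    have e2 : ((-1 : ℤ) : ℝ) < ((n + ⌊s - u0⌋ : ℤ) : ℝ) := by push_cast; linarith
    have e3 := Int.cast_lt.1 e1
    have e4 := Int.cast_lt.1 e2
    have e5 : n + ⌊s - u0⌋ = 0 := by omega
    have e6 : ((n + ⌊s - u0⌋ : ℤ) : ℝ) = 0 := by rw [e5]; simp
    push_cast at e6
    rw [h4]; linarith
  · intro x hx
    obtain ⟨s, hs, rfl⟩ := Finset.mem_image.1 hx
    exact hr0 s hs
  · intro x hx
    obtain ⟨s, hs, rfl⟩ := Finset.mem_image.1 hx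
    rw [hgr s hs]
    exact hτ1 s hs

/-! ### signed swaps of one pair -/

/-- no bad pair: no swap -/
theorem Irr.ps_low (h : Irr U T) {u : ℝ} {k : Fin 6} (hb : ¬ Bd T v m u k) : PS T v m u k 0 := by
  have h1 := LL_usc_add (v := v) (m := m) h u k
  have h2 : ∀ᶠ s in 𝓝 u, LL T v m (s + (k.val : ℝ) + 1) ⊆ LL T v m (u + (k.val : ℝ) + 1) := by
    have hc : Continuous fun s : ℝ => s + (k.val : ℝ) + 1 := by fun_prop
    exact hc.continuousAt.eventually (LL_usc h _)
  have h3 := h1.and h2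
  unfold PS
  filter_upwards [h3.filter_mono (nhdsWithin_le_nhds (s := Iio u))] with s hs
  filter_upwards [h3.filter_mono (nhdsWithin_le_nhds (s := Ioi u))] with s' hs'
  intro x hx y hy x' hx' y' hy' _ _
  refine sgn_eq_zero fun hsw => hb ?_
  obtain ⟨e1, e2, e3⟩ := hsw
  exact ⟨x, x', e1, hs.1 hx, hs'.1 hx', e3 ▸ hs'.2 hy', e2 ▸ hs.2 hy⟩

/-- `S(v)` carries only the letter `l` on the left and only `l'` on the right of `pv v w` -/
structure DL (T : ℂ → Set (Fin 6)) (v : ℂ) (m : Fin 3 → Fin 6) (w : ℝ) (l l' : Fin 3) : Prop where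
  lt : ∀ᶠ s in 𝓝[<] w, LL T v m s = {l}
  gt : ∀ᶠ s in 𝓝[>] w, LL T v m s = {l'}

/-- the two letters at `u` -/
def Bth (T : ℂ → Set (Fin 6)) (v : ℂ) (m : Fin 3 → Fin 6) (l l' : Fin 3) (u : ℝ) : Prop :=
  l ∈ LL T v m u ∧ l' ∈ LL T v m u

theorem stp_anti : ∀ l l' : Fin 3, l ≠ l' → stp l' l = -stp l l' := by decide

theorem stp_ne_zero : ∀ l l' : Fin 3, stp l l' = 1 ∨ stp l l' = -1 := by decide

theorem fin_third : ∀ l l' x : Fin 3, l ≠ l' → x ≠ l → (∃ t, t ≠ l ∧ t ≠ l' ∧ x ≠ t) → x = l' := by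
  decide

theorem sgn_swap : ∀ l l' : Fin 3, l ≠ l' → sgn l l' l' l = stp l l' := by decide

/-- the sign of a change `l | l'`, zero if `l = l'` -/
def sg2 (l l' : Fin 3) : ℤ := if l = l' then 0 else stp l l'

theorem sg2_of_ne {l l' : Fin 3} (h : l ≠ l') : sg2 l l' = stp l l' := if_neg h

theorem sg2_anti : ∀ l l' : Fin 3, sg2 l' l = -sg2 l l' := by decide

theorem sg2_self (l : Fin 3) : sg2 l l = 0 := if_pos rfl

theorem DL.lt_mem {w : ℝ} {l l' : Fin 3} (hf : DL T v m w l l') :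
    ∀ᶠ s in 𝓝[<] w, l ∈ LL T v m s := by
  filter_upwards [hf.lt] with s hs
  rw [hs]; rfl

theorem DL.gt_mem {w : ℝ} {l l' : Fin 3} (hf : DL T v m w l l') :
    ∀ᶠ s in 𝓝[>] w, l' ∈ LL T v m s := by
  filter_upwards [hf.gt] with s hs
  rw [hs]; rfl

/-- the letters of a neighbour on the left -/
theorem Irr.dl_left (h : Irr U T) {w : ℝ} {l l' : Fin 3} (hf : DL T v m w l l') {σ : ℝ}
    (hσ : σ = 1 ∨ σ = -1) :
    ∀ᶠ s in 𝓝[<] w, ∀ x ∈ LL T v m (s + σ), x ≠ l ∧ x ∈ LL T v m (w + σ) := by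
  have h1 := h.mx.absent_left h.sub (v := v) (m := m) (u := w) (l := l) hf.lt_mem hσ
  have hc3 : Tendsto (fun s : ℝ => s + σ) (𝓝 w) (𝓝 (w + σ)) := by
    have : Continuous fun s : ℝ => s + σ := by fun_prop
    exact this.tendsto w
  have h2 := (hc3.eventually (LL_usc (v := v) (m := m) h (w + σ))).filter_mono
    (nhdsWithin_le_nhds (s := Iio w))
  filter_upwards [h1, h2] with s hs1 hs2 x hx
  exact ⟨fun h4 => hs1 (h4 ▸ hx), hs2 hx⟩

theorem Irr.dl_right (h : Irr U T) {w : ℝ} {l l' : Fin 3} (hf : DL T v m w l l') {σ : ℝ}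
    (hσ : σ = 1 ∨ σ = -1) :
    ∀ᶠ s in 𝓝[>] w, ∀ x ∈ LL T v m (s + σ), x ≠ l' ∧ x ∈ LL T v m (w + σ) := by
  have h1 := h.mx.absent_right h.sub (v := v) (m := m) (u := w) (l := l') hf.gt_mem hσ
  have hc3 : Tendsto (fun s : ℝ => s + σ) (𝓝 w) (𝓝 (w + σ)) := by
    have : Continuous fun s : ℝ => s + σ := by fun_prop
    exact this.tendsto w
  have h2 := (hc3.eventually (LL_usc (v := v) (m := m) h (w + σ))).filter_mono
    (nhdsWithin_le_nhds (s := Ioi w))
  filter_upwards [h1, h2] with s hs1 hs2 x hx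
  exact ⟨fun h4 => hs1 (h4 ▸ hx), hs2 hx⟩

/-- both points definite -/
theorem DL.ps_dd {u : ℝ} {k : Fin 6} {x x' y y' : Fin 3} (h1 : DL T v m (u + (k.val : ℝ)) x x')
    (h2 : DL T v m (u + (k.val : ℝ) + 1) y y') : PS T v m u k (sgn x y x' y') := by
  have t1 := tendsto_add_left (k.val : ℝ) u
  have t2 := tendsto_add_right (k.val : ℝ) u
  have t3 : Tendsto (fun s : ℝ => s + (k.val : ℝ) + 1) (𝓝[<] u) (𝓝[<] (u + (k.val : ℝ) + 1)) :=
    (tendsto_add_left 1 _).comp t1
  have t4 : Tendsto (fun s : ℝ => s + (k.val : ℝ) + 1) (𝓝[>] u) (𝓝[>] (u + (k.val : ℝ) + 1)) :=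
    (tendsto_add_right 1 _).comp t2
  unfold PS
  filter_upwards [t1.eventually h1.lt, t3.eventually h2.lt] with s e1 e2
  filter_upwards [t2.eventually h1.gt, t4.eventually h2.gt] with s' e3 e4
  intro a ha b hb c hc d hd _ _
  rw [e1] at ha
  rw [e2] at hb
  rw [e3] at hc
  rw [e4] at hd
  rw [mem_singleton_iff.1 ha, mem_singleton_iff.1 hb, mem_singleton_iff.1 hc,
    mem_singleton_iff.1 hd]

open Classical in
/-- the first point definite, the second one lacks a letter -/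
theorem Irr.ps_dl (h : Irr U T) {u : ℝ} {k : Fin 6} {l l' : Fin 3}
    (hf : DL T v m (u + (k.val : ℝ)) l l')
    (ht : Bth T v m l l' (u + (k.val : ℝ) + 1) → ∃ t, t ∉ LL T v m (u + (k.val : ℝ) + 1)) :
    PS T v m u k (if Bth T v m l l' (u + (k.val : ℝ) + 1) then sg2 l l' else 0) := by
  have t1 := tendsto_add_left (k.val : ℝ) u
  have t2 := tendsto_add_right (k.val : ℝ) u
  have hl := t1.eventually (h.dl_left hf (Or.inl rfl))
  have hr := t2.eventually (h.dl_right hf (Or.inl rfl))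
  unfold PS
  filter_upwards [t1.eventually hf.lt, hl] with s e1 e2
  filter_upwards [t2.eventually hf.gt, hr] with s' e3 e4
  intro a ha b hb c hc d hd _ _
  rw [e1] at ha
  rw [e3] at hc
  obtain ⟨f1, f2⟩ := e2 b hb
  obtain ⟨f3, f4⟩ := e4 d hd
  rw [mem_singleton_iff] at ha hc
  subst ha hc
  split_ifs with hB
  · by_cases hne : a = c
    · subst hne
      rw [sg2_self]
      exact sgn_eq_zero fun hh => hh.1 rfl
    · obtain ⟨t, ht⟩ := ht hB
      have g1 : b = c := fin_third a c b hne f1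
        ⟨t, fun g => ht (g ▸ hB.1), fun g => ht (g ▸ hB.2), fun g => ht (g ▸ f2)⟩
      have g2 : d = a := fin_third c a d (Ne.symm hne) f3
        ⟨t, fun g => ht (g ▸ hB.2), fun g => ht (g ▸ hB.1), fun g => ht (g ▸ f4)⟩
      rw [g1, g2, sgn_swap a c hne, sg2_of_ne hne]
  · refine sgn_eq_zero fun hh => hB ⟨?_, ?_⟩
    · rw [← hh.2.2]; exact f4
    · rw [hh.2.1]; exact f2

open Classical in
/-- the second point definite, the first one lacks a letter -/
theorem Irr.ps_ld (h : Irr U T) {u : ℝ} {k : Fin 6} {l l' : Fin 3}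
    (hf : DL T v m (u + (k.val : ℝ) + 1) l l')
    (ht : Bth T v m l l' (u + (k.val : ℝ)) → ∃ t, t ∉ LL T v m (u + (k.val : ℝ))) :
    PS T v m u k (if Bth T v m l l' (u + (k.val : ℝ)) then -sg2 l l' else 0) := by
  have t1 : Tendsto (fun s : ℝ => s + (k.val : ℝ) + 1) (𝓝[<] u) (𝓝[<] (u + (k.val : ℝ) + 1)) :=
    (tendsto_add_left 1 _).comp (tendsto_add_left (k.val : ℝ) u)
  have t2 : Tendsto (fun s : ℝ => s + (k.val : ℝ) + 1) (𝓝[>] u) (𝓝[>] (u + (k.val : ℝ) + 1)) :=
    (tendsto_add_right 1 _).comp (tendsto_add_right (k.val : ℝ) u)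
  have hl := t1.eventually (h.dl_left hf (Or.inr rfl))
  have hr := t2.eventually (h.dl_right hf (Or.inr rfl))
  unfold PS
  filter_upwards [t1.eventually hf.lt, hl] with s e1 e2
  filter_upwards [t2.eventually hf.gt, hr] with s' e3 e4
  rw [add_neg_cancel_right, add_neg_cancel_right] at e2 e4
  intro a ha b hb c hc d hd _ _
  rw [e1] at hb
  rw [e3] at hd
  obtain ⟨f1, f2⟩ := e2 a ha
  obtain ⟨f3, f4⟩ := e4 c hc
  rw [mem_singleton_iff] at hb hd
  subst hb hd
  split_ifs with hB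
  · by_cases hne : b = d
    · subst hne
      rw [sg2_self, neg_zero]
      exact sgn_eq_zero fun hh => hh.1 (hh.2.2 ▸ hh.2.1.symm)
    · obtain ⟨t, ht⟩ := ht hB
      have g1 : a = d := fin_third b d a hne f1
        ⟨t, fun g => ht (g ▸ hB.1), fun g => ht (g ▸ hB.2), fun g => ht (g ▸ f2)⟩
      have g2 : c = b := fin_third d b c (Ne.symm hne) f3
        ⟨t, fun g => ht (g ▸ hB.2), fun g => ht (g ▸ hB.1), fun g => ht (g ▸ f4)⟩
      rw [g1, g2, sgn_swap d b (Ne.symm hne), sg2_of_ne hne, stp_anti b d hne]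
  · refine sgn_eq_zero fun hh => hB ⟨?_, ?_⟩
    · rw [← hh.2.1]; exact f4
    · rw [hh.2.2]; exact f2

/-! ### hubs -/

theorem pv_inj {s s' : ℝ} (hs : pv v s = pv v s') : ∃ n : ℤ, s = s' + n * 6 := by
  unfold pv cis at hs
  have h1 := add_left_cancel hs
  rw [Complex.exp_eq_exp_iff_exists_int] at h1
  obtain ⟨n, hn⟩ := h1
  refine ⟨n, ?_⟩
  have h2 := congrArg Complex.im hn
  simp at h2
  have h3 := Real.pi_pos
  have h4 : Real.pi / 3 * (s - (s' + n * 6)) = 0 := by linear_combination h2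
  rcases mul_eq_zero.1 h4 with h5 | h5
  · linarith
  · linarith

open Classical in
/-- **Hub parity, any number of centres.**  `v` has at most three colours; `S` the angles of finitely
many points of `S(v)` with definite letters `l s | l' s`, no two in one hexagon; every bad pair
contains one of them.  If a neighbour carries both letters, it lacks the third one.  Then the signed
numbers of swaps sum to zero. -/
theorem Irr.hub_sum (h : Irr U T) (h3 : (T v).ncard ≤ 3) (hm : ∀ i, i ∉ T v → ∃ l, m l = i)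
    (S : Finset ℝ) {l l' : ℝ → Fin 3} (hinc : ∀ s ∈ S, ∀ s' ∈ S, ∀ n : ℤ, s = s' + n → s = s')
    (hfl : ∀ s ∈ S, DL T v m s (l s) (l' s))
    (hS : ∀ u k, Bd T v m u k → ∃ s ∈ S, pv v (u + (k.val : ℝ)) = pv v s ∨
      pv v (u + (k.val : ℝ) + 1) = pv v s)
    (ht : ∀ s ∈ S, ∀ σ : ℝ, σ = 1 ∨ σ = -1 → Bth T v m (l s) (l' s) (s + σ) →
      ∃ t, t ∉ LL T v m (s + σ)) :
    ∑ s ∈ S, sg2 (l s) (l' s) * ((if Bth T v m (l s) (l' s) (s + 1) then 1 else 0) -
      (if Bth T v m (l s) (l' s) (s - 1) then 1 else 0)) = 0 := by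
  have hbad : ∀ u k, Bd T v m u k → ∃ s ∈ S, ∃ n : ℤ, (u + (k.val : ℝ) = s + n * 6) ∨
      (u + (k.val : ℝ) + 1 = s + n * 6) := by
    intro u k hk
    obtain ⟨s, hs, he | he⟩ := hS u k hk
    · obtain ⟨n, hn⟩ := pv_inj he
      exact ⟨s, hs, n, Or.inl hn⟩
    · obtain ⟨n, hn⟩ := pv_inj he
      exact ⟨s, hs, n, Or.inr hn⟩
  have e0 : ∀ s : ℝ, s + (((0 : Fin 6).val : ℕ) : ℝ) = s := by
    intro s
    have h5 : (0 : Fin 6).val = 0 := rfl
    rw [h5]; push_cast; ring
  have e5 : ∀ s : ℝ, s + (((5 : Fin 6).val : ℕ) : ℝ) = s + -1 + 6 := by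
    intro s
    have h5 : (5 : Fin 6).val = 5 := rfl
    rw [h5]; push_cast; ring
  have e6 : ∀ s : ℝ, s + (((5 : Fin 6).val : ℕ) : ℝ) + 1 = s + 6 := by
    intro s
    have h5 : (5 : Fin 6).val = 5 := rfl
    rw [h5]; push_cast; ring
  have hB5 : ∀ (x y : Fin 3) (s : ℝ), Bth T v m x y (s + (((5 : Fin 6).val : ℕ) : ℝ)) ↔
      Bth T v m x y (s - 1) := by
    intro x y s
    unfold Bth
    rw [e5, LL_six, ← sub_eq_add_neg]
  have key := h.ring_sum2 h3 hm S (σ := fun s k =>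
    if k = 0 then (if Bth T v m (l s) (l' s) (s + 1) then sg2 (l s) (l' s) else 0) else
      if k = 5 then (if Bth T v m (l s) (l' s) (s - 1) then -sg2 (l s) (l' s) else 0) else 0)
    hinc (fun u k hk => ?_) (fun s hs k => ?_)
  · refine Eq.trans (Finset.sum_congr rfl fun s _ => ?_) key
    rw [Fin.sum_univ_six]
    simp only [if_true, show (1 : Fin 6) ≠ 0 by decide, show (1 : Fin 6) ≠ 5 by decide,
      show (2 : Fin 6) ≠ 0 by decide, show (2 : Fin 6) ≠ 5 by decide,
      show (3 : Fin 6) ≠ 0 by decide, show (3 : Fin 6) ≠ 5 by decide,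
      show (4 : Fin 6) ≠ 0 by decide, show (4 : Fin 6) ≠ 5 by decide,
      show (5 : Fin 6) ≠ 0 by decide, if_false]
    split_ifs <;> ring
  · obtain ⟨s, hs, n, hn | hn⟩ := hbad u k hk
    · exact ⟨s, hs, n * 6 - (k.val : ℤ), by push_cast; linarith⟩
    · exact ⟨s, hs, n * 6 - (k.val : ℤ) - 1, by push_cast; linarith⟩
  · by_cases hk0 : k = 0
    · subst hk0
      simp only [if_true]
      have h1 := h.ps_dl (v := v) (m := m) (u := s) (k := 0) (l := l s) (l' := l' s)
        (by rw [e0]; exact hfl s hs)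
        (by rw [e0]; exact ht s hs 1 (Or.inl rfl))
      rw [e0] at h1
      exact h1
    by_cases hk5 : k = 5
    · subst hk5
      simp only [if_neg hk0, if_true]
      have h1 := h.ps_ld (v := v) (m := m) (u := s) (k := 5) (l := l s) (l' := l' s) (by
          have hf := hfl s hs
          refine ⟨?_, ?_⟩
          · have t := tendsto_add_left (-6) (s + (((5 : Fin 6).val : ℕ) : ℝ) + 1)
            have e : s + (((5 : Fin 6).val : ℕ) : ℝ) + 1 + -6 = s := by rw [e6]; ring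
            rw [e] at t
            filter_upwards [t.eventually hf.lt] with x hx
            rw [← hx, ← LL_six (x + -6)]
            congr 1; ring
          · have t := tendsto_add_right (-6) (s + (((5 : Fin 6).val : ℕ) : ℝ) + 1)
            have e : s + (((5 : Fin 6).val : ℕ) : ℝ) + 1 + -6 = s := by rw [e6]; ring
            rw [e] at t
            filter_upwards [t.eventually hf.gt] with x hx
            rw [← hx, ← LL_six (x + -6)]
            congr 1; ring)
        (by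
          intro hb
          rw [hB5] at hb
          obtain ⟨t, ht'⟩ := ht s hs (-1) (Or.inr rfl) (by rw [← sub_eq_add_neg]; exact hb)
          exact ⟨t, by rw [e5, LL_six]; exact ht'⟩)
      simp only [hB5] at h1
      exact h1
    · simp only [if_neg hk0, if_neg hk5]
      refine h.ps_low fun hk => ?_
      obtain ⟨s', hs', n, hn | hn⟩ := hbad s k hk
      · have e1 : s = s' := hinc s hs s' hs' (n * 6 - (k.val : ℤ)) (by push_cast; linarith)
        have e3 : ((k.val : ℤ) : ℝ) = ((n * 6 : ℤ) : ℝ) := by push_cast; linarith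
        have e5 := Int.cast_injective e3
        have := k.isLt
        apply hk0
        apply Fin.ext
        show k.val = 0
        omega
      · have e1 : s = s' := hinc s hs s' hs' (n * 6 - (k.val : ℤ) - 1) (by push_cast; linarith)
        have e3 : (((k.val : ℤ) + 1 : ℤ) : ℝ) = ((n * 6 : ℤ) : ℝ) := by push_cast; linarith
        have e5 := Int.cast_injective e3
        have := k.isLt
        apply hk5
        apply Fin.ext
        show k.val = 5
        omega

open Classical in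
/-- **the number of unbalanced centres is even** -/
theorem Irr.hub_even (h : Irr U T) (h3 : (T v).ncard ≤ 3) (hm : ∀ i, i ∉ T v → ∃ l, m l = i)
    (S : Finset ℝ) {l l' : ℝ → Fin 3} (hinc : ∀ s ∈ S, ∀ s' ∈ S, ∀ n : ℤ, s = s' + n → s = s')
    (hfl : ∀ s ∈ S, DL T v m s (l s) (l' s))
    (hS : ∀ u k, Bd T v m u k → ∃ s ∈ S, pv v (u + (k.val : ℝ)) = pv v s ∨
      pv v (u + (k.val : ℝ) + 1) = pv v s)
    (ht : ∀ s ∈ S, ∀ σ : ℝ, σ = 1 ∨ σ = -1 → Bth T v m (l s) (l' s) (s + σ) →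
      ∃ t, t ∉ LL T v m (s + σ)) :
    Even (S.filter fun s => l s ≠ l' s ∧ ¬ (Bth T v m (l s) (l' s) (s + 1) ↔
      Bth T v m (l s) (l' s) (s - 1))).card := by
  have key := h.hub_sum h3 hm S hinc hfl hS ht
  have h1 : ∀ s ∈ S, (((sg2 (l s) (l' s) * ((if Bth T v m (l s) (l' s) (s + 1) then 1 else 0) -
      (if Bth T v m (l s) (l' s) (s - 1) then 1 else 0)) : ℤ)) : ZMod 2) =
      if l s ≠ l' s ∧ ¬ (Bth T v m (l s) (l' s) (s + 1) ↔ Bth T v m (l s) (l' s) (s - 1)) then 1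
        else 0 := by
    intro s _
    by_cases hne : l s = l' s
    · simp [sg2, hne]
    · rw [sg2_of_ne hne]
      rcases stp_ne_zero (l s) (l' s) with h4 | h4 <;> rw [h4] <;>
        by_cases hp : Bth T v m (l s) (l' s) (s + 1) <;>
        by_cases hq : Bth T v m (l s) (l' s) (s - 1) <;> simp [hp, hq, hne]
  have h2 := congrArg (fun z : ℤ => (z : ZMod 2)) key
  simp only [Int.cast_sum, Int.cast_zero] at h2
  rw [Finset.sum_congr rfl h1, Finset.sum_boole] at h2
  exact (ZMod.natCast_eq_zero_iff_even).1 h2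

/-! ### two-pair centres -/

variable {a b : Fin 6}

/-- **definite letters at a two-pair centre** `z = pv v w = ab | ij`, `a, b` in `T v` -/
theorem Irr.dl_centre (h : Irr U T) {w : ℝ} {i j t : Fin 3} (hij : i ≠ j) (hti : t ≠ i) (htj : t ≠ j)
    (hz : DPt T (pv v w) a b (m i) (m j)) (ha : a ∈ T v) (hb' : b ∈ T v)
    (ht : m t ∉ T (pv v w)) :
    ∃ l l' : Fin 3, ((l = i ∧ l' = j) ∨ (l = j ∧ l' = i)) ∧ DL T v m w l l' := by
  have hn : ∀ᶠ s in 𝓝 w, m t ∉ T (pv v s) := by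
    filter_upwards [(continuous_pv v).continuousAt.eventually (h.nhd (pv v w))] with s hs hcon
    exact ht (hs hcon)
  have hfin : ∀ i j t x : Fin 3, i ≠ j → t ≠ i → t ≠ j → x ≠ j → x ≠ t → x = i := by decide
  have key : ∀ s : ℝ, m i ∈ T (pv v s) → m j ∉ T (pv v s) → m t ∉ T (pv v s) →
      LL T v m s = {i} := by
    intro s h1 h2 h4
    ext x
    constructor
    · intro hx
      exact hfin i j t x hij hti htj (fun e => h2 (e ▸ hx)) (fun e => h4 (e ▸ hx))
    · rintro rfl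
      exact h1
  have key' : ∀ s : ℝ, m j ∈ T (pv v s) → m i ∉ T (pv v s) → m t ∉ T (pv v s) →
      LL T v m s = {j} := by
    intro s h1 h2 h4
    ext x
    constructor
    · intro hx
      exact hfin j i t x hij.symm htj hti (fun e => h2 (e ▸ hx)) (fun e => h4 (e ▸ hx))
    · rintro rfl
      exact h1
  obtain ⟨τ, hτ, h1, h2⟩ := h.germ_flip ha hb' hz (dist_pv v w)
  rcases hτ with rfl | rfl
  · refine ⟨j, i, Or.inr ⟨rfl, rfl⟩, ?_, ?_⟩
    · have h3 := ev_left (P := fun x => m j ∈ T x ∧ m i ∉ T x) h2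
      filter_upwards [h3, hn.filter_mono nhdsWithin_le_nhds] with s hs hs'
      exact key' _ hs.1 hs.2 hs'
    · have h3 := ev_right (P := fun x => m i ∈ T x ∧ m j ∉ T x) h1
      filter_upwards [h3, hn.filter_mono nhdsWithin_le_nhds] with s hs hs'
      exact key _ hs.1 hs.2 hs'
  · refine ⟨i, j, Or.inl ⟨rfl, rfl⟩, ?_, ?_⟩
    · have h3 := ev_left (P := fun x => m i ∈ T x ∧ m j ∉ T x) h1
      filter_upwards [h3, hn.filter_mono nhdsWithin_le_nhds] with s hs hs'
      exact key _ hs.1 hs.2 hs'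
    · rw [neg_neg] at h2
      have h3 := ev_right (P := fun x => m j ∈ T x ∧ m i ∉ T x) h2
      filter_upwards [h3, hn.filter_mono nhdsWithin_le_nhds] with s hs hs'
      exact key' _ hs.1 hs.2 hs'

/-- the letters outside `T v` -/
theorem exists_letters (hv : (T v).ncard = 3) : ∃ m : Fin 3 → Fin 6, Function.Injective m ∧
    ∀ i, i ∉ T v ↔ ∃ l, m l = i := by
  have h1 : ((T v)ᶜ).ncard = 3 := by
    have h2 := Set.ncard_add_ncard_compl (T v)
    rw [hv, Nat.card_eq_fintype_card, Fintype.card_fin] at h2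
    omega
  obtain ⟨x, y, z, hxy, hxz, hyz, he⟩ := Set.ncard_eq_three.1 h1
  refine ⟨![x, y, z], ?_, ?_⟩
  · intro i j hij
    fin_cases i <;> fin_cases j <;> simp_all
  · intro i
    rw [← mem_compl_iff, he]
    simp only [mem_insert_iff, mem_singleton_iff]
    constructor
    · rintro (rfl | rfl | rfl)
      · exact ⟨0, rfl⟩
      · exact ⟨1, rfl⟩
      · exact ⟨2, rfl⟩
    · rintro ⟨l, rfl⟩
      fin_cases l <;> simp

/-- exactly one of the two common unit neighbours of `v` and `z` carries both colours `c`, `d` -/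
def Unb (T : ℂ → Set (Fin 6)) (v z : ℂ) (c d : Fin 6) : Prop :=
  ∃ p p', p ≠ p' ∧ dist p v = 1 ∧ dist p z = 1 ∧ dist p' v = 1 ∧ dist p' z = 1 ∧
    (c ∈ T p ∧ d ∈ T p) ∧ ¬ (c ∈ T p' ∧ d ∈ T p')

open Classical in
/-- **Hub parity for several centres, in terms of points.**  `v` three-coloured; `Z` finitely many
two-pair centres on `S(v)` with one pair inside and one pair `c z, d z` outside `T v`, no two in one
hexagon about `v`; all other points of `S(v)` have at most three colours, or at most one colour outside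
`T v`; a common unit neighbour of `v` and `z` in `Z` with both `c z` and `d z` lacks some colour
outside `T v`.  Then the number of `z` in `Z` with exactly one `c z, d z`-neighbour is even. -/
theorem Irr.hub_even_points (h : Irr U T) (hv : (T v).ncard = 3) (Z : Finset ℂ)
    {A B C D : ℂ → Fin 6} (hzv : ∀ z ∈ Z, dist z v = 1)
    (hD : ∀ z ∈ Z, DPt T z (A z) (B z) (C z) (D z))
    (hA : ∀ z ∈ Z, A z ∈ T v ∧ B z ∈ T v ∧ C z ∉ T v ∧ D z ∉ T v)
    (hinc : ∀ z ∈ Z, ∀ z' ∈ Z, z ≠ z' → ∀ ω : ℂ, ω ^ 6 = 1 → z' - v ≠ ω * (z - v))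
    (hlow : ∀ y, dist y v = 1 → y ∉ Z → (T y).ncard ≤ 3 ∨
      ∀ c ∈ T y, ∀ d ∈ T y, c ∉ T v → d ∉ T v → c = d)
    (ht : ∀ z ∈ Z, ∀ p, dist p v = 1 → dist p z = 1 → C z ∈ T p → D z ∈ T p →
      ∃ t, t ∉ T v ∧ t ∉ T p) :
    Even (Z.filter fun z => Unb T v z (C z) (D z)).card := by
  obtain ⟨m, hmi, hmv⟩ := exists_letters (T := T) (v := v) hv
  have hm : ∀ i, i ∉ T v → ∃ l, m l = i := fun i hi => (hmv i).1 hi
  have hθ : ∀ z, ∃ s : ℝ, z ∈ Z → z = pv v s := by
    intro z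
    by_cases hz : z ∈ Z
    · obtain ⟨s, hs⟩ := exists_pv (hzv z hz)
      exact ⟨s, fun _ => hs⟩
    · exact ⟨0, fun hz' => absurd hz' hz⟩
  choose θ hθ using hθ
  have hlet : ∀ z, ∃ l l' : Fin 3, z ∈ Z → DL T v m (θ z) l l' ∧ l ≠ l' ∧
      ∀ p, (m l ∈ T p ∧ m l' ∈ T p) ↔ (C z ∈ T p ∧ D z ∈ T p) := by
    intro z
    by_cases hz : z ∈ Z
    · obtain ⟨h1, h2, h4, h5⟩ := hA z hz
      obtain ⟨i, hi⟩ := hm _ h4
      obtain ⟨j, hj⟩ := hm _ h5
      have hcd := (hD z hz).cd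
      have hij : i ≠ j := fun e => hcd (by rw [← hi, ← hj, e])
      obtain ⟨t, ht1, ht2⟩ : ∃ t : Fin 3, t ≠ i ∧ t ≠ j := by
        have : ∀ i j : Fin 3, ∃ t : Fin 3, t ≠ i ∧ t ≠ j := by decide
        exact this i j
      have ht4 : m t ∉ T (pv v (θ z)) := by
        rw [← hθ z hz, (hD z hz).pal]
        simp only [mem_insert_iff, mem_singleton_iff, not_or]
        have h6 : m t ∉ T v := (hmv _).2 ⟨t, rfl⟩
        exact ⟨fun e => h6 (e ▸ h1), fun e => h6 (e ▸ h2), fun e => ht1 (hmi (e.trans hi.symm)),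
          fun e => ht2 (hmi (e.trans hj.symm))⟩
      have hz' : DPt T (pv v (θ z)) (A z) (B z) (m i) (m j) := by
        rw [hi, hj, ← hθ z hz]; exact hD z hz
      obtain ⟨l, l', hll, hdl⟩ := h.dl_centre hij ht1 ht2 hz' h1 h2 ht4
      refine ⟨l, l', fun _ => ⟨hdl, ?_, ?_⟩⟩
      · rcases hll with ⟨rfl, rfl⟩ | ⟨rfl, rfl⟩
        · exact hij
        · exact hij.symm
      · intro p
        rcases hll with ⟨rfl, rfl⟩ | ⟨rfl, rfl⟩
        · rw [hi, hj]
        · rw [hi, hj, and_comm]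
    · exact ⟨0, 0, fun hz' => absurd hz' hz⟩
  choose L L' hL using hlet
  have hinj : Set.InjOn θ Z := by
    intro z hz z' hz' he
    rw [hθ z hz, hθ z' hz', he]
  have hback : ∀ z ∈ Z, pv v (θ z) = z := fun z hz => (hθ z hz).symm
  have hd1 : ∀ s : ℝ, dist (pv v (s + 1)) (pv v s) = 1 := fun s => by
    rw [dist_comm]; exact dist_pv_one v s (Or.inl rfl)
  have hd2 : ∀ s : ℝ, dist (pv v (s - 1)) (pv v s) = 1 := fun s => by
    rw [dist_comm, sub_eq_add_neg]; exact dist_pv_one v s (Or.inr rfl)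
  have hBth : ∀ z ∈ Z, ∀ s : ℝ, Bth T v m (L z) (L' z) s ↔ (C z ∈ T (pv v s) ∧ D z ∈ T (pv v s)) :=
    fun z hz s => (hL z hz).2.2 (pv v s)
  have key := h.hub_even (le_of_eq hv) hm (Z.image θ) (l := fun s => L (pv v s))
    (l' := fun s => L' (pv v s)) ?_ ?_ ?_ ?_
  · have e1 : (Z.image θ).filter (fun s => L (pv v s) ≠ L' (pv v s) ∧
        ¬ (Bth T v m (L (pv v s)) (L' (pv v s)) (s + 1) ↔
          Bth T v m (L (pv v s)) (L' (pv v s)) (s - 1))) =
        (Z.filter fun z => Unb T v z (C z) (D z)).image θ := by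
      ext s
      simp only [Finset.mem_filter, Finset.mem_image]
      constructor
      · rintro ⟨⟨z, hz, rfl⟩, h1, h2⟩
        refine ⟨z, ⟨hz, ?_⟩, rfl⟩
        rw [hback z hz, hBth z hz, hBth z hz] at h2
        have hne : pv v (θ z + 1) ≠ pv v (θ z - 1) := by
          intro he
          rw [he] at h2
          exact h2 Iff.rfl
        have d1 := hd1 (θ z)
        have d2 := hd2 (θ z)
        rw [hback z hz] at d1 d2
        by_cases h4 : C z ∈ T (pv v (θ z + 1)) ∧ D z ∈ T (pv v (θ z + 1))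
        · exact ⟨pv v (θ z + 1), pv v (θ z - 1), hne, dist_pv _ _, d1, dist_pv _ _, d2, h4,
            fun h5 => h2 ⟨fun _ => h5, fun _ => h4⟩⟩
        · by_cases h5 : C z ∈ T (pv v (θ z - 1)) ∧ D z ∈ T (pv v (θ z - 1))
          · exact ⟨pv v (θ z - 1), pv v (θ z + 1), hne.symm, dist_pv _ _, d2, dist_pv _ _, d1, h5,
              h4⟩
          · exact absurd ⟨fun x => absurd x h4, fun x => absurd x h5⟩ h2
      · rintro ⟨z, ⟨hz, hu⟩, rfl⟩
        refine ⟨⟨z, hz, rfl⟩, ?_, ?_⟩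
        · rw [hback z hz]; exact (hL z hz).2.1
        · rw [hback z hz, hBth z hz, hBth z hz]
          intro hiff
          obtain ⟨p, p', hpp, hp, hpz, hp', hpz', h1, h2⟩ := hu
          have q1 := pv_nb (v := v) (w := θ z) hp (by rw [hback z hz]; exact hpz)
          have q2 := pv_nb (v := v) (w := θ z) hp' (by rw [hback z hz]; exact hpz')
          rcases q1 with rfl | rfl <;> rcases q2 with rfl | rfl
          · exact hpp rfl
          · exact h2 (hiff.1 h1)
          · exact h2 (hiff.2 h1)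
          · exact hpp rfl
    rw [e1, Finset.card_image_of_injOn (hinj.mono (by
      intro z hz
      exact (Finset.mem_filter.1 hz).1))] at key
    exact key
  · -- incongruent
    intro s hs s' hs' n hn
    obtain ⟨z, hz, rfl⟩ := Finset.mem_image.1 hs
    obtain ⟨z', hz', rfl⟩ := Finset.mem_image.1 hs'
    by_contra hne
    have hzz : z' ≠ z := fun e => hne (by rw [e])
    refine hinc z' hz' z hz hzz (cis (Real.pi / 3 * n)) ?_ ?_
    · unfold cis
      rw [← Complex.exp_nat_mul]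
      have : ((6 : ℕ) : ℂ) * (((Real.pi / 3 * (n : ℝ) : ℝ) : ℂ) * Complex.I) =
          (n : ℂ) * (2 * (Real.pi : ℂ) * Complex.I) := by push_cast; ring
      rw [this]
      exact Complex.exp_int_mul_two_pi_mul_I n
    · have hpv : ∀ x : ℝ, pv v x - v = cis (Real.pi / 3 * x) := fun x => by unfold pv; ring
      have h1 : z - v = cis (Real.pi / 3 * θ z) := by
        have := hpv (θ z)
        rwa [hback z hz] at this
      have h2 : z' - v = cis (Real.pi / 3 * θ z') := by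
        have := hpv (θ z')
        rwa [hback z' hz'] at this
      rw [h1, h2, hn, ← cis_add587]
      congr 1; ring
  · intro s hs
    obtain ⟨z, hz, rfl⟩ := Finset.mem_image.1 hs
    rw [hback z hz]
    exact (hL z hz).1
  · intro u k hb
    have hcase := hb.high h hv hm
    obtain ⟨x, y, hxy, b1, b2, b3, b4⟩ := hb
    have hne : m x ≠ m y := fun e => hxy (hmi e)
    have hx : m x ∉ T v := (hmv _).2 ⟨x, rfl⟩
    have hy : m y ∉ T v := (hmv _).2 ⟨y, rfl⟩
    have hcov : ∀ s : ℝ, 4 ≤ (T (pv v s)).ncard → m x ∈ T (pv v s) → m y ∈ T (pv v s) →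
        ∃ s' ∈ Z.image θ, pv v s = pv v s' := by
      intro s hs c1 c2
      have h1 : pv v s ∈ Z := by
        by_contra h2
        rcases hlow _ (dist_pv v s) h2 with h4 | h4
        · omega
        · exact hne (h4 _ c1 _ c2 hx hy)
      exact ⟨θ (pv v s), Finset.mem_image_of_mem θ h1, hθ _ h1⟩
    rcases hcase with h1 | h1
    · obtain ⟨s', hs', he⟩ := hcov _ h1 b1 b2
      exact ⟨s', hs', Or.inl he⟩
    · obtain ⟨s', hs', he⟩ := hcov _ h1 b3 b4
      exact ⟨s', hs', Or.inr he⟩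
  · intro s hs σ hσ hb
    obtain ⟨z, hz, rfl⟩ := Finset.mem_image.1 hs
    rw [hback z hz, hBth z hz] at hb
    have d1 : dist (pv v (θ z + σ)) z = 1 := by
      have := dist_pv_one v (θ z) hσ
      rw [hback z hz, dist_comm] at this
      exact this
    obtain ⟨t, ht1, ht2⟩ := ht z hz _ (dist_pv _ _) d1 hb.1 hb.2
    obtain ⟨l, rfl⟩ := hm t ht1
    exact ⟨l, ht2⟩

end Vale.Agent.P032.Six
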