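import Vale.Agent.P032.H587.Gen

/-!
# P032: the swap rule (469, 349, 887), wild form

`v` has at most three colours; every point of `S(v)` has a colour outside `T v`.  If the colours outside
`T v` are `m 0, m 1, m 2`, the letters on `S(v)` are read as proper colourings of the hexagon with
three letters.  `wd` is the winding number (sum of the six steps); two proper colourings differ in `wd`
by `-6` times the signed number of swaps between them (`wd_sub`).  Along `S(v)` the winding number is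
constant on intervals without bad points (`Swap.const`), bad: two points of `S(v)` at distance one
with two common letters.
-/

open Set Filter Topology Metric

noncomputable section

namespace Vale.Agent.P032.Six

/-! ### the combinatorial identity -/

/-- one step of the winding number -/
def stp (a b : Fin 3) : ℤ := if b = a + 1 then 1 else -1

/-- the lift of a change of one letter -/
def dlt (a b : Fin 3) : ℤ := if b = a then 0 else if b = a + 1 then -2 else 2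

/-- the sign of a swap `(a, b) → (c, d)`, zero if it is no swap -/
def sgn (a b c d : Fin 3) : ℤ := if a ≠ c ∧ c = b ∧ d = a then stp a b else 0

theorem stp_loc : ∀ a b c d : Fin 3, a ≠ b → c ≠ d →
    stp c d - stp a b = dlt b d - dlt a c - 6 * sgn a b c d := by decide

/-- the winding number of a hexagon -/
def wd (h : Fin 6 → Fin 3) : ℤ := ∑ k, stp (h k) (h (k + 1))

/-- proper hexagon -/
def Prp (h : Fin 6 → Fin 3) : Prop := ∀ k, h k ≠ h (k + 1)

theorem wd_sub {h g : Fin 6 → Fin 3} (hh : Prp h) (hg : Prp g) :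
    wd g - wd h = -6 * ∑ k, sgn (h k) (h (k + 1)) (g k) (g (k + 1)) := by
  have h1 : ∀ k : Fin 6, stp (g k) (g (k + 1)) - stp (h k) (h (k + 1)) =
      dlt (h (k + 1)) (g (k + 1)) - dlt (h k) (g k) - 6 * sgn (h k) (h (k + 1)) (g k) (g (k + 1)) :=
    fun k => stp_loc _ _ _ _ (hh k) (hg k)
  have h2 : ∑ k : Fin 6, dlt (h (k + 1)) (g (k + 1)) = ∑ k : Fin 6, dlt (h k) (g k) :=
    Equiv.sum_comp (Equiv.addRight (1 : Fin 6)) fun k => dlt (h k) (g k)
  unfold wd
  rw [← Finset.sum_sub_distrib, Finset.sum_congr rfl fun k _ => h1 k, Finset.sum_sub_distrib,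
    Finset.sum_sub_distrib, h2, ← Finset.mul_sum]
  ring

/-- without swaps the winding numbers agree -/
theorem wd_eq {h g : Fin 6 → Fin 3} (hh : Prp h) (hg : Prp g)
    (hns : ∀ k, ¬ (h k ≠ g k ∧ g k = h (k + 1) ∧ g (k + 1) = h k)) : wd g = wd h := by
  have h1 := wd_sub hh hg
  have h2 : ∑ k : Fin 6, sgn (h k) (h (k + 1)) (g k) (g (k + 1)) = 0 := by
    refine Finset.sum_eq_zero fun k _ => ?_
    unfold sgn
    rw [if_neg (hns k)]
  rw [h2] at h1
  linarith

/-- one swap -/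
theorem wd_one {h g : Fin 6 → Fin 3} (hh : Prp h) (hg : Prp g) {k0 : Fin 6}
    (hs : h k0 ≠ g k0 ∧ g k0 = h (k0 + 1) ∧ g (k0 + 1) = h k0)
    (hns : ∀ k, k ≠ k0 → ¬ (h k ≠ g k ∧ g k = h (k + 1) ∧ g (k + 1) = h k)) :
    wd g = wd h - 6 * stp (h k0) (g k0) := by
  have h1 := wd_sub hh hg
  have h2 : ∑ k : Fin 6, sgn (h k) (h (k + 1)) (g k) (g (k + 1)) = stp (h k0) (g k0) := by
    rw [Finset.sum_eq_single k0]
    · unfold sgn
      rw [if_pos hs, hs.2.1]
    · intro k _ hk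
      unfold sgn
      rw [if_neg (hns k hk)]
    · intro hk
      exact absurd (Finset.mem_univ k0) hk
  rw [h2] at h1
  linarith

theorem wd_rot (h : Fin 6 → Fin 3) : wd (fun k => h (k + 1)) = wd h := by
  unfold wd
  exact Equiv.sum_comp (Equiv.addRight (1 : Fin 6)) fun k => stp (h k) (h (k + 1))

/-! ### letters on `S(v)` -/

variable {U : Fin 6 → Set ℂ} {T : ℂ → Set (Fin 6)}

/-- the point of `S(v)` at the angle `u` in units of sixty degrees -/
def pv (v : ℂ) (u : ℝ) : ℂ := v + cis (Real.pi / 3 * u)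

theorem dist_pv (v : ℂ) (u : ℝ) : dist (pv v u) v = 1 := dist_add_cis _ _

theorem continuous_pv (v : ℂ) : Continuous (pv v) :=
  continuous_const.add (continuous_cis.comp (continuous_const.mul continuous_id))

theorem hasDerivAt_pv (v : ℂ) (u : ℝ) :
    HasDerivAt (pv v) ((Real.pi / 3 : ℝ) * (Complex.I * cis (Real.pi / 3 * u))) u := by
  have h1 : HasDerivAt (fun s : ℝ => Real.pi / 3 * s) (Real.pi / 3) u := by
    simpa using (hasDerivAt_id u).const_mul (Real.pi / 3)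
  have h2 := (hasDerivAt_cis (Real.pi / 3 * u)).scomp u h1
  have h3 : HasDerivAt (pv v) ((Real.pi / 3) • (Complex.I * cis (Real.pi / 3 * u))) u :=
    h2.const_add v
  refine h3.congr_deriv ?_
  rw [Complex.real_smul]

theorem cis_re587 (t : ℝ) : (cis t).re = Real.cos t := by
  unfold cis; rw [Complex.exp_ofReal_mul_I_re]

theorem cis_im587 (t : ℝ) : (cis t).im = Real.sin t := by
  unfold cis; rw [Complex.exp_ofReal_mul_I_im]

theorem pv_six (v : ℂ) (u : ℝ) : pv v (u + 6) = pv v u := by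
  unfold pv
  have : Real.pi / 3 * (u + 6) = Real.pi / 3 * u + 2 * Real.pi := by ring
  rw [this]
  congr 1
  apply Complex.ext
  · rw [cis_re587, cis_re587, Real.cos_add_two_pi]
  · rw [cis_im587, cis_im587, Real.sin_add_two_pi]

theorem dist_pv_one (v : ℂ) (u : ℝ) {σ : ℝ} (hσ : σ = 1 ∨ σ = -1) :
    dist (pv v u) (pv v (u + σ)) = 1 := by
  rw [dist_eq_one_iff]
  unfold pv
  simp only [Complex.add_re, Complex.add_im, cis_re587, cis_im587]
  have e : Real.pi / 3 * (u + σ) = Real.pi / 3 * u + σ * (Real.pi / 3) := by ring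
  rw [e, Real.cos_add, Real.sin_add]
  have h1 := Real.sin_sq_add_cos_sq (Real.pi / 3 * u)
  have hc : Real.cos (σ * (Real.pi / 3)) = 1 / 2 := by
    rcases hσ with rfl | rfl
    · rw [one_mul, Real.cos_pi_div_three]
    · rw [neg_one_mul, Real.cos_neg, Real.cos_pi_div_three]
  have h2 := Real.sin_sq_add_cos_sq (σ * (Real.pi / 3))
  rw [hc] at h2 ⊢
  nlinarith [h1, h2]

/-- a colour carried by `S(v)` near `pv v u` is absent at the two neighbours -/
theorem Mx.pv_absent (h : Mx U) {v : ℂ} {u : ℝ} {i : Fin 6}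
    (hc : ∀ᶠ s in 𝓝 u, i ∈ Pal U (pv v s)) {σ : ℝ} (hσ : σ = 1 ∨ σ = -1) :
    i ∉ Pal U (pv v (u + σ)) := by
  intro hi
  have h1 := h.curve_perp (hasDerivAt_pv v u) (continuous_pv v) hc (dist_pv_one v u hσ) hi
  unfold pv at h1
  simp only [Complex.add_re, Complex.add_im, cis_re587, cis_im587, Complex.mul_re, Complex.mul_im,
    Complex.ofReal_re, Complex.ofReal_im, Complex.I_re, Complex.I_im] at h1
  have e : Real.pi / 3 * (u + σ) = Real.pi / 3 * u + σ * (Real.pi / 3) := by ring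
  rw [e, Real.cos_add, Real.sin_add] at h1
  have h2 := Real.sin_sq_add_cos_sq (Real.pi / 3 * u)
  have h3 : Real.pi / 3 * Real.sin (σ * (Real.pi / 3)) = 0 := by
    linear_combination -h1 - (Real.pi / 3 * Real.sin (σ * (Real.pi / 3))) * h2
  have h4 := Real.pi_pos
  have h5 : Real.sin (σ * (Real.pi / 3)) ≠ 0 := by
    have hs : 0 < Real.sin (Real.pi / 3) :=
      Real.sin_pos_of_pos_of_lt_pi (by linarith) (by linarith)
    rcases hσ with rfl | rfl
    · rw [one_mul]; exact hs.ne'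
    · rw [neg_one_mul, Real.sin_neg]; exact (neg_neg_of_pos hs).ne
  rcases mul_eq_zero.1 h3 with h6 | h6
  · linarith
  · exact h5 h6

/-- the letters of `pv v u` -/
def LL (T : ℂ → Set (Fin 6)) (v : ℂ) (m : Fin 3 → Fin 6) (u : ℝ) : Set (Fin 3) :=
  {l | m l ∈ T (pv v u)}

/-- a selection of letters for the hexagon at `u` -/
def Sel (T : ℂ → Set (Fin 6)) (v : ℂ) (m : Fin 3 → Fin 6) (u : ℝ) (h : Fin 6 → Fin 3) : Prop :=
  ∀ k : Fin 6, h k ∈ LL T v m (u + (k.val : ℝ))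

/-- all six palettes are locally constant -/
def Gw (T : ℂ → Set (Fin 6)) (v : ℂ) (m : Fin 3 → Fin 6) (u : ℝ) : Prop :=
  ∀ k : Fin 6, ∀ᶠ s in 𝓝 u, LL T v m (s + (k.val : ℝ)) = LL T v m (u + (k.val : ℝ))

/-- the pair of the positions `k`, `k + 1` of the hexagon at `u` has two common letters -/
def Bd (T : ℂ → Set (Fin 6)) (v : ℂ) (m : Fin 3 → Fin 6) (u : ℝ) (k : Fin 6) : Prop :=
  ∃ l l', l ≠ l' ∧ l ∈ LL T v m (u + (k.val : ℝ)) ∧ l' ∈ LL T v m (u + (k.val : ℝ)) ∧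
    l ∈ LL T v m (u + (k.val : ℝ) + 1) ∧ l' ∈ LL T v m (u + (k.val : ℝ) + 1)

section

variable {v : ℂ} {m : Fin 3 → Fin 6}

theorem LL_six (u : ℝ) : LL T v m (u + 6) = LL T v m u := by
  unfold LL; rw [pv_six]

theorem LL_succ (u : ℝ) (k : Fin 6) :
    LL T v m (u + ((k + 1 : Fin 6).val : ℝ)) = LL T v m (u + (k.val : ℝ) + 1) := by
  by_cases hk : k = 5
  · subst hk
    have h1 : ((5 : Fin 6) + 1).val = 0 := rfl
    have h2 : (5 : Fin 6).val = 5 := rfl
    rw [h1, h2]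
    have : u + ((5 : ℕ) : ℝ) + 1 = u + ((0 : ℕ) : ℝ) + 6 := by push_cast; ring
    rw [this, LL_six]
  · have h1 : (k + 1).val = k.val + 1 := by
      have : k.val ≠ 5 := fun h => hk (Fin.ext h)
      have h6 := k.isLt
      rw [Fin.val_add_one_of_lt]
      rw [Fin.lt_def]
      show k.val < 5
      omega
    rw [h1]
    congr 1
    push_cast
    ring

theorem LL_usc (h : Irr U T) (u : ℝ) : ∀ᶠ s in 𝓝 u, LL T v m s ⊆ LL T v m u := by
  filter_upwards [(continuous_pv v).continuousAt.eventually (h.nhd (pv v u))] with s hs l hl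
  exact hs hl

theorem LL_usc_add (h : Irr U T) (u : ℝ) (k : Fin 6) :
    ∀ᶠ s in 𝓝 u, LL T v m (s + (k.val : ℝ)) ⊆ LL T v m (u + (k.val : ℝ)) := by
  have hc : Continuous fun s : ℝ => s + (k.val : ℝ) := by fun_prop
  exact hc.continuousAt.eventually (LL_usc h _)

theorem LL_ne (h : Irr U T) (h3 : (T v).ncard ≤ 3) (hm : ∀ i, i ∉ T v → ∃ l, m l = i) (u : ℝ) :
    (LL T v m u).Nonempty := by
  obtain ⟨t, ht, ht'⟩ := h.not_sub' (dist_pv v u) h3
  obtain ⟨l, hl⟩ := hm t ht'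
  exact ⟨l, show m l ∈ _ from hl ▸ ht⟩

theorem Sel.exists (h : Irr U T) (h3 : (T v).ncard ≤ 3) (hm : ∀ i, i ∉ T v → ∃ l, m l = i)
    (u : ℝ) : ∃ g, Sel T v m u g := by
  choose g hg using fun k : Fin 6 => LL_ne h h3 hm (u + (k.val : ℝ))
  exact ⟨g, hg⟩

theorem isOpen_Gw : IsOpen {u | Gw T v m u} := by
  have : {u | Gw T v m u} = ⋂ k : Fin 6, {u | ∀ᶠ s in 𝓝 u,
      LL T v m (s + (k.val : ℝ)) = LL T v m (u + (k.val : ℝ))} := by
    ext u; simp [Gw]
  rw [this]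
  exact isOpen_iInter_of_finite fun k => lc_open fun u : ℝ => LL T v m (u + (k.val : ℝ))

theorem dense_Gw (h : Irr U T) : Dense {u | Gw T v m u} := by
  have : {u | Gw T v m u} = ⋂ k : Fin 6, {u | ∀ᶠ s in 𝓝 u,
      LL T v m (s + (k.val : ℝ)) = LL T v m (u + (k.val : ℝ))} := by
    ext u; simp [Gw]
  rw [this]
  have ho : ∀ k : Fin 6, IsOpen {u : ℝ | ∀ᶠ s in 𝓝 u,
      LL T v m (s + (k.val : ℝ)) = LL T v m (u + (k.val : ℝ))} :=
    fun k => lc_open fun u : ℝ => LL T v m (u + (k.val : ℝ))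
  have hd : ∀ k : Fin 6, Dense {u : ℝ | ∀ᶠ s in 𝓝 u,
      LL T v m (s + (k.val : ℝ)) = LL T v m (u + (k.val : ℝ))} :=
    fun k => lc_dense (fun u : ℝ => LL T v m (u + (k.val : ℝ))) fun u => LL_usc_add h u k
  exact (dense_open_inter ho hd).1

/-- at a good angle all selections are proper -/
theorem Gw.prp (h : Irr U T) {u : ℝ} (hu : Gw T v m u) {g : Fin 6 → Fin 3} (hg : Sel T v m u g) :
    Prp g := by
  intro k hk
  have h1 : ∀ᶠ s in 𝓝 (u + (k.val : ℝ)), m (g k) ∈ Pal U (pv v s) := by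
    have hc : Tendsto (fun s : ℝ => s - (k.val : ℝ)) (𝓝 (u + (k.val : ℝ))) (𝓝 u) := by
      have : Continuous fun s : ℝ => s - (k.val : ℝ) := by fun_prop
      have h2 := this.tendsto (u + (k.val : ℝ))
      rwa [add_sub_cancel_right] at h2
    filter_upwards [hc.eventually (hu k)] with s hs
    rw [sub_add_cancel] at hs
    have h3 : g k ∈ LL T v m s := by rw [hs]; exact hg k
    exact h.sub _ h3
  have h2 := h.mx.pv_absent h1 (Or.inl rfl)
  have h3 : g (k + 1) ∈ LL T v m (u + (k.val : ℝ) + 1) := by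
    rw [← LL_succ]; exact hg (k + 1)
  rw [← hk] at h3
  exact h2 (h.sub _ h3)

/-- two selections inside the letters of `u` without bad pair have the same winding number -/
theorem wd_of_sub {u : ℝ} {g g' : Fin 6 → Fin 3} (hg : Sel T v m u g) (hg' : Sel T v m u g')
    (hp : Prp g) (hp' : Prp g') (hb : ∀ k, ¬ Bd T v m u k) : wd g' = wd g := by
  refine wd_eq hp hp' fun k hk => ?_
  obtain ⟨h1, h2, h3⟩ := hk
  refine hb k ⟨g k, g' k, h1, hg k, hg' k, ?_, ?_⟩
  · rw [← LL_succ, ← h3]; exact hg' (k + 1)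
  · rw [← LL_succ, h2]; exact hg (k + 1)

/-- the winding number near `u` is `c` -/
def Wn (T : ℂ → Set (Fin 6)) (v : ℂ) (m : Fin 3 → Fin 6) (c : ℤ) (u : ℝ) : Prop :=
  ∀ᶠ s in 𝓝 u, Gw T v m s → ∀ g, Sel T v m s g → wd g = c

theorem Wn.exists (h : Irr U T) (h3 : (T v).ncard ≤ 3) (hm : ∀ i, i ∉ T v → ∃ l, m l = i) {u : ℝ}
    (hb : ∀ k, ¬ Bd T v m u k) : ∃ c, Wn T v m c u := by
  have h1 : ∀ᶠ s in 𝓝 u, ∀ k : Fin 6, LL T v m (s + (k.val : ℝ)) ⊆ LL T v m (u + (k.val : ℝ)) :=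
    eventually_all.2 fun k => LL_usc_add h u k
  obtain ⟨o, ho, hoo, huo⟩ := _root_.eventually_nhds_iff.1 h1
  obtain ⟨s, hso, hs⟩ := (dense_Gw (v := v) (m := m) h).inter_open_nonempty _ hoo ⟨u, huo⟩
  obtain ⟨g, hg⟩ := Sel.exists h h3 hm s
  refine ⟨wd g, _root_.eventually_nhds_iff.2 ⟨o, fun s' hs' hG g' hg' => ?_, hoo, huo⟩⟩
  exact wd_of_sub (u := u) (fun k => ho s hso k (hg k)) (fun k => ho s' hs' k (hg' k))
    (hs.prp h hg) (hG.prp h hg') hb

theorem Wn.unique (h : Irr U T) (h3 : (T v).ncard ≤ 3) (hm : ∀ i, i ∉ T v → ∃ l, m l = i) {u : ℝ}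
    {c c' : ℤ} (h1 : Wn T v m c u) (h2 : Wn T v m c' u) : c = c' := by
  obtain ⟨o, ho, hoo, huo⟩ := _root_.eventually_nhds_iff.1 (h1.and h2)
  obtain ⟨s, hso, hs⟩ := (dense_Gw (v := v) (m := m) h).inter_open_nonempty _ hoo ⟨u, huo⟩
  obtain ⟨g, hg⟩ := Sel.exists h h3 hm s
  rw [← (ho s hso).1 hs g hg, ← (ho s hso).2 hs g hg]

theorem Wn.open {c : ℤ} : IsOpen {u | Wn T v m c u} := by
  rw [isOpen_iff_mem_nhds]
  intro u hu
  exact Filter.Eventually.eventually_nhds hu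

/-- **the winding number is constant on intervals without bad points** -/
theorem Wn.const (h : Irr U T) (h3 : (T v).ncard ≤ 3) (hm : ∀ i, i ∉ T v → ∃ l, m l = i)
    {s : Set ℝ} (hs : IsPreconnected s) (hb : ∀ u ∈ s, ∀ k, ¬ Bd T v m u k) {u : ℝ} (hu : u ∈ s)
    {c : ℤ} (hc : Wn T v m c u) : ∀ u' ∈ s, Wn T v m c u' := by
  classical
  have hex : ∀ x ∈ s, ∃ c, Wn T v m c x := fun x hx => Wn.exists h h3 hm (hb x hx)
  set f : ℝ → ℤ := fun x => if hx : ∃ c, Wn T v m c x then hx.choose else 0 with hf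
  have hfv : ∀ x c, Wn T v m c x → f x = c := by
    intro x c hx
    have h1 : ∃ c, Wn T v m c x := ⟨c, hx⟩
    simp only [hf, dif_pos h1]
    exact Wn.unique h h3 hm h1.choose_spec hx
  have hcont : ContinuousOn f s := by
    intro x hx
    obtain ⟨c, hc⟩ := hex x hx
    have h1 : ∀ᶠ y in 𝓝 x, f y = f x := by
      filter_upwards [Wn.open.mem_nhds hc] with y hy
      rw [hfv y c hy, hfv x c hc]
    have : Tendsto f (𝓝 x) (pure (f x)) := by
      rw [tendsto_pure]; exact h1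
    exact (this.mono_left nhdsWithin_le_nhds).mono_right (pure_le_nhds _)
  intro u' hu'
  obtain ⟨c', hc'⟩ := hex u' hu'
  have h1 := hs.constant hcont hu hu'
  rw [hfv u c hc, hfv u' c' hc'] at h1
  rwa [h1]

/-- rotation by one position -/
theorem Sel.rot {u : ℝ} {g : Fin 6 → Fin 3} (hg : Sel T v m u g) :
    Sel T v m (u + 1) fun k => g (k + 1) := by
  intro k
  have h1 := hg (k + 1)
  rw [LL_succ] at h1
  have : u + 1 + (k.val : ℝ) = u + (k.val : ℝ) + 1 := by ring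
  rw [this]
  exact h1

theorem Gw.rot {u : ℝ} (hu : Gw T v m u) : Gw T v m (u + 1) := by
  intro k
  have h1 := hu (k + 1)
  have hc : Tendsto (fun s : ℝ => s - 1) (𝓝 (u + 1)) (𝓝 u) := by
    have : Continuous fun s : ℝ => s - 1 := by fun_prop
    have h2 := this.tendsto (u + 1)
    rwa [add_sub_cancel_right] at h2
  filter_upwards [hc.eventually h1] with s hs
  rw [LL_succ, LL_succ] at hs
  have e1 : s - 1 + (k.val : ℝ) + 1 = s + (k.val : ℝ) := by ring
  have e2 : u + (k.val : ℝ) + 1 = u + 1 + (k.val : ℝ) := by ring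
  rw [e1, e2] at hs
  exact hs

/-- **Swap rule, one swap.**  If all bad angles in `(u0, u0 + 1)` are excluded, then the winding
numbers on the two sides of `u0` agree; so there is no single simple swap at `u0`: position `k0` has
only the letter `l` (`l'`) on the left (right), position `k0 + 1` only `l'` (`l`). -/
theorem Irr.no_single_swap (h : Irr U T) (h3 : (T v).ncard ≤ 3)
    (hm : ∀ i, i ∉ T v → ∃ l, m l = i) {u0 : ℝ}
    (hb : ∀ u, u0 < u → u < u0 + 1 → ∀ k, ¬ Bd T v m u k) {k0 : Fin 6} {l l' : Fin 3}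
    (hll : l ≠ l') (hb0 : ∀ k, k ≠ k0 → ¬ Bd T v m u0 k)
    (hl0 : ∀ᶠ s in 𝓝[<] u0, ∀ x ∈ LL T v m (s + (k0.val : ℝ)), x = l)
    (hl1 : ∀ᶠ s in 𝓝[<] u0, ∀ x ∈ LL T v m (s + (k0.val : ℝ) + 1), x = l')
    (hr0 : ∀ᶠ s in 𝓝[>] u0, ∀ x ∈ LL T v m (s + (k0.val : ℝ)), x = l')
    (hr1 : ∀ᶠ s in 𝓝[>] u0, ∀ x ∈ LL T v m (s + (k0.val : ℝ) + 1), x = l) : False := by
  have h1 : ∀ᶠ s in 𝓝 u0, ∀ k : Fin 6, LL T v m (s + (k.val : ℝ)) ⊆ LL T v m (u0 + (k.val : ℝ)) :=
    eventually_all.2 fun k => LL_usc_add h u0 k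
  -- the winding number on `(u0, u0 + 1)`
  have hmid : ∀ k, ¬ Bd T v m (u0 + 1 / 2) k := hb _ (by linarith) (by linarith)
  obtain ⟨c, hc⟩ := Wn.exists h h3 hm hmid
  have hconst := Wn.const h h3 hm (s := Ioo u0 (u0 + 1)) isPreconnected_Ioo
    (fun u hu k => hb u hu.1 hu.2 k) (u := u0 + 1 / 2) ⟨by linarith, by linarith⟩ hc
  -- a good point on the right
  have hI1 : ∀ᶠ s in 𝓝[>] u0, s ∈ Ioo u0 (u0 + 1) := Ioo_mem_nhdsGT (by linarith)
  have hI2 : ∀ᶠ s in 𝓝[<] u0, s ∈ Ioo (u0 - 1) u0 := Ioo_mem_nhdsLT (by linarith)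
  have hR := (h1.filter_mono (nhdsWithin_le_nhds (s := Ioi u0))).and (hr0.and (hr1.and hI1))
  have hL := (h1.filter_mono (nhdsWithin_le_nhds (s := Iio u0))).and (hl0.and (hl1.and hI2))
  obtain ⟨a, ha, haR⟩ := mem_nhdsGT_iff_exists_Ioo_subset.1 hR
  obtain ⟨b, hb', hbL⟩ := mem_nhdsLT_iff_exists_Ioo_subset.1 hL
  obtain ⟨r, hrI, hrG⟩ := (dense_Gw (v := v) (m := m) h).inter_open_nonempty _ isOpen_Ioo
    (nonempty_Ioo.2 ha)
  obtain ⟨q, hqI, hqG⟩ := (dense_Gw (v := v) (m := m) h).inter_open_nonempty _ isOpen_Ioo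
    (nonempty_Ioo.2 hb')
  obtain ⟨r1, r2, r3, r4⟩ := haR hrI
  obtain ⟨q1, q2, q3, q4⟩ := hbL hqI
  obtain ⟨g, hg⟩ := Sel.exists h h3 hm q
  obtain ⟨g', hg'⟩ := Sel.exists h h3 hm r
  have hp := hqG.prp h hg
  have hp' := hrG.prp h hg'
  have w1 : wd g' = c := (hconst r r4).self_of_nhds hrG g' hg'
  have w2 : wd g = c := by
    rw [← wd_rot g]
    exact (hconst (q + 1) ⟨by linarith [q4.1], by linarith [q4.2]⟩).self_of_nhds hqG.rot _ hg.rot
  have e0 : g k0 = l := q2 _ (hg k0)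
  have e1 : g (k0 + 1) = l' := q3 _ (by rw [← LL_succ]; exact hg (k0 + 1))
  have e0' : g' k0 = l' := r2 _ (hg' k0)
  have e1' : g' (k0 + 1) = l := r3 _ (by rw [← LL_succ]; exact hg' (k0 + 1))
  have w3 := wd_one hp hp' (k0 := k0) ⟨by rw [e0, e0']; exact hll, by rw [e0', e1], by rw [e1', e0]⟩
    (fun k hk hsw => by
      obtain ⟨x1, x2, x4⟩ := hsw
      refine hb0 k hk ⟨g k, g' k, x1, q1 k (hg k), r1 k (hg' k), ?_, ?_⟩
      · rw [← LL_succ, ← x4]; exact r1 (k + 1) (hg' (k + 1))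
      · rw [← LL_succ, x2]; exact q1 (k + 1) (hg (k + 1)))
  rw [w1, w2] at w3
  have : stp (g k0) (g' k0) ≠ 0 := by
    unfold stp; split_ifs <;> norm_num
  apply this
  linarith

end

end Vale.Agent.P032.Six
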