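import Vale.Agent.P032.H587.Ring2
import Vale.Agent.P032.H249.Apex
import Vale.Agent.P032.H630.Trans

/-!
# P032: the triple swap at an alpha point (AL9, wild form)

`z = ab | cd`, `y = pv z w` on `S(z)`.  `FE T z w e f`: `S(z)` carries `e` and not `f` on the left of
`y`, `f` and not `e` on the right.

* `Irr.fe_centre`: `y = ij | ef` two-pair centre, `i, j` in `T z`: `FE` or the reversed one
  (covers `y = ac | ef` (alpha), `y = ab | ef`, `y = cd | ef`).
* `Irr.fe_nb`: a neighbour `p = pv z (w + σ)` (`σ = ± 1`, i.e. `± 60` degrees) with at most three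
  colours and `e, f` in `T p` has the reversed definite letters.
* `Irr.triple`: `y = ac | ef`, both neighbours with at most three colours: triple swap.
* `Irr.triple_blank`: the points `z ± 120` from `y` are in the closure of the exact `ab`-arcs or of the
  exact `cd`-arcs of `S(z)`; `Irr.triple_block`: such a point with at most three colours does not
  contain `e` and `f`: the swap concerns exactly three neighbouring positions.
* `Irr.eps_nb`: `y = ab | ef`: a neighbour with at most three colours contains `c, d` or `e, f`.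
-/

open Set Filter Topology Metric

noncomputable section

namespace Vale.Agent.P032.Six

variable {U : Fin 6 → Set ℂ} {T : ℂ → Set (Fin 6)} {z y p : ℂ} {a b c d e f i j : Fin 6}

/-- `S(z)` carries `e` and not `f` on the left of `pv z w`, `f` and not `e` on the right -/
def FE (T : ℂ → Set (Fin 6)) (z : ℂ) (w : ℝ) (e f : Fin 6) : Prop :=
  (∀ᶠ s in 𝓝[<] w, e ∈ T (pv z s) ∧ f ∉ T (pv z s)) ∧
    ∀ᶠ s in 𝓝[>] w, f ∈ T (pv z s) ∧ e ∉ T (pv z s)

/-- **the flip at a two-pair centre** `y = ij | ef`, `i, j` in `T z` -/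
theorem Irr.fe_centre (h : Irr U T) {w : ℝ} (hi : i ∈ T z) (hj : j ∈ T z)
    (hy : DPt T (pv z w) i j e f) : FE T z w e f ∨ FE T z w f e := by
  obtain ⟨τ, hτ, h1, h2⟩ := h.germ_flip hi hj hy (dist_pv z w)
  rcases hτ with rfl | rfl
  · right
    exact ⟨ev_left (P := fun x => f ∈ T x ∧ e ∉ T x) h2,
      ev_right (P := fun x => e ∈ T x ∧ f ∉ T x) h1⟩
  · left
    rw [neg_neg] at h2
    exact ⟨ev_left (P := fun x => e ∈ T x ∧ f ∉ T x) h1,
      ev_right (P := fun x => f ∈ T x ∧ e ∉ T x) h2⟩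

/-- a colour on the left of `w` is absent on the left of `w ± 1` -/
theorem Irr.abs_left (h : Irr U T) {w : ℝ} (hl : ∀ᶠ s in 𝓝[<] w, e ∈ T (pv z s)) {σ : ℝ}
    (hσ : σ = 1 ∨ σ = -1) : ∀ᶠ s in 𝓝[<] (w + σ), e ∉ T (pv z s) := by
  obtain ⟨b, hb, hI⟩ := mem_nhdsLT_iff_exists_Ioo_subset.1 hl
  have h1 : b + σ < w + σ := by
    have : b < w := hb
    linarith
  filter_upwards [Ioo_mem_nhdsLT h1] with s hs hcon
  have h2 : s - σ ∈ Ioo b w := ⟨by linarith [hs.1], by linarith [hs.2]⟩
  have h3 := h.mx.pv_absent (v := z) (u := s - σ) (i := e) (by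
    filter_upwards [Ioo_mem_nhds h2.1 h2.2] with s' hs'
    exact h.sub _ (hI hs')) hσ
  rw [sub_add_cancel] at h3
  exact h3 (h.sub _ hcon)

theorem Irr.abs_right (h : Irr U T) {w : ℝ} (hl : ∀ᶠ s in 𝓝[>] w, e ∈ T (pv z s)) {σ : ℝ}
    (hσ : σ = 1 ∨ σ = -1) : ∀ᶠ s in 𝓝[>] (w + σ), e ∉ T (pv z s) := by
  obtain ⟨b, hb, hI⟩ := mem_nhdsGT_iff_exists_Ioo_subset.1 hl
  have h1 : w + σ < b + σ := by
    have : w < b := hb
    linarith
  filter_upwards [Ioo_mem_nhdsGT h1] with s hs hcon
  have h2 : s - σ ∈ Ioo w b := ⟨by linarith [hs.1], by linarith [hs.2]⟩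
  have h3 := h.mx.pv_absent (v := z) (u := s - σ) (i := e) (by
    filter_upwards [Ioo_mem_nhds h2.1 h2.2] with s' hs'
    exact h.sub _ (hI hs')) hσ
  rw [sub_add_cancel] at h3
  exact h3 (h.sub _ hcon)

/-- a single colour of `T z` is no letter of `S(z)` -/
theorem Irr.single_notMem (h : Irr U T) (hy : dist y z = 1) (hx : T y = {i}) : i ∉ T z := by
  refine h.lt_single (p := y) ?_
  have h1 : ∀ᶠ q in 𝓝 y, T q = {i} := by
    filter_upwards [h.nhd y] with q hq
    refine Set.Subset.antisymm (hx ▸ hq) ?_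
    obtain ⟨l, hl⟩ := h.ne q
    have h2 := hq hl
    rw [hx] at h2
    rw [Set.singleton_subset_iff]
    rw [mem_singleton_iff] at h2
    exact h2 ▸ hl
  have h2 : ∀ᶠ q in 𝓝[sphere z 1] y, Arc T z q {i} := by
    filter_upwards [h1.eventually_nhds.filter_mono nhdsWithin_le_nhds, self_mem_nhdsWithin]
      with q hq hqs
    exact ⟨hqs, hq.filter_mono nhdsWithin_le_nhds⟩
  have : (𝓝[sphere z 1] y).NeBot := mem_closure_iff_nhdsWithin_neBot.1 (subset_closure hy)
  exact h2.frequently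

/-- a point of `S(z)` near a point `p` with `T p` inside `{e, f, i}`, without `e`, carries `f`
(`i` in `T z`) -/
theorem Irr.mem_of_three (h : Irr U T) {q : ℂ} (hq : dist q z = 1) (hT : ∀ l ∈ T q, l = e ∨ l = f ∨
    l ∈ T z) (h1 : ∀ l ∈ T q, ∀ l' ∈ T q, l ∈ T z → l' ∈ T z → l = l') (he : e ∉ T q) :
    f ∈ T q := by
  by_contra hf
  obtain ⟨l, hl⟩ := h.ne q
  have h2 : ∀ l ∈ T q, l ∈ T z := by
    intro l hl
    rcases hT l hl with rfl | rfl | h3
    · exact absurd hl he
    · exact absurd hl hf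
    · exact h3
  have h3 : T q = {l} := by
    ext x
    constructor
    · intro hx
      exact h1 x hx l hl (h2 x hx) (h2 l hl)
    · rintro rfl
      exact hl
  exact h.single_notMem hq h3 (h2 l hl)

/-- **definite letters at a neighbour**: `S(z)` has `e | f` at `pv z w`; `p` at `± 60` degrees with at
most three colours, `e, f` in `T p`: `S(z)` has `f | e` at `p` -/
theorem Irr.fe_nb (h : Irr U T) {w : ℝ} (hef : e ≠ f) (he : e ∉ T z) (hf : f ∉ T z)
    (hall : ∀ l, l = e ∨ l = f ∨ l ∈ T z) (hw : FE T z w e f) {σ : ℝ} (hσ : σ = 1 ∨ σ = -1)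
    (h3 : (T (pv z (w + σ))).ncard ≤ 3) (he' : e ∈ T (pv z (w + σ)))
    (hf' : f ∈ T (pv z (w + σ))) : FE T z (w + σ) f e := by
  -- at most one colour of `T z` near `p`
  have hone : ∀ l ∈ T (pv z (w + σ)), ∀ l' ∈ T (pv z (w + σ)), l ∈ T z → l' ∈ T z → l = l' := by
    intro l hl l' hl' hlz hlz'
    by_contra hne
    have hsub : ({e, f, l, l'} : Set (Fin 6)) ⊆ T (pv z (w + σ)) := by
      rintro x (rfl | rfl | rfl | rfl)
      exacts [he', hf', hl, hl']
    have hc : ({e, f, l, l'} : Set (Fin 6)).ncard = 4 := by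
      rw [Set.ncard_insert_of_notMem, Set.ncard_insert_of_notMem, Set.ncard_pair hne]
      · simp only [mem_insert_iff, mem_singleton_iff, not_or]
        exact ⟨fun e1 => hf (e1 ▸ hlz), fun e1 => hf (e1 ▸ hlz')⟩
      · simp only [mem_insert_iff, mem_singleton_iff, not_or]
        exact ⟨hef, fun e1 => he (e1 ▸ hlz), fun e1 => he (e1 ▸ hlz')⟩
    have := Set.ncard_le_ncard hsub (Set.toFinite _)
    omega
  have hnear : ∀ᶠ s in 𝓝 (w + σ), T (pv z s) ⊆ T (pv z (w + σ)) :=
    (continuous_pv z).continuousAt.eventually (h.nhd (pv z (w + σ)))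
  constructor
  · have h1 := h.abs_left (hw.1.mono fun s hs => hs.1) hσ
    filter_upwards [h1, hnear.filter_mono nhdsWithin_le_nhds] with s hs hs'
    exact ⟨h.mem_of_three (e := e) (f := f) (dist_pv z s) (fun l _ => hall l)
      (fun l hl l' hl' => hone l (hs' hl) l' (hs' hl')) hs, hs⟩
  · have h1 := h.abs_right (hw.2.mono fun s hs => hs.1) hσ
    filter_upwards [h1, hnear.filter_mono nhdsWithin_le_nhds] with s hs hs'
    exact ⟨h.mem_of_three (e := f) (f := e) (dist_pv z s) (fun l _ => by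
      rcases hall l with h2 | h2 | h2
      exacts [Or.inr (Or.inl h2), Or.inl h2, Or.inr (Or.inr h2)])
      (fun l hl l' hl' => hone l (hs' hl) l' (hs' hl')) hs, hs⟩

theorem pv_sub (z : ℂ) (w : ℝ) {σ : ℝ} (hσ : σ = 1 ∨ σ = -1) :
    pv z (w + σ) - pv z w = pv z (w + 2 * σ) - z := by
  have key : ∀ x : ℝ, cis (x + σ * (Real.pi / 3)) - cis x = cis (x + 2 * σ * (Real.pi / 3)) := by
    intro x
    rw [cis_add587, cis_add587 x]
    have h1 : cis (2 * σ * (Real.pi / 3)) = cis (σ * (Real.pi / 3)) - 1 := by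
      have e1 : Real.cos (2 * σ * (Real.pi / 3)) = -1 / 2 := by
        have e2 : 2 * σ * (Real.pi / 3) = 2 * (σ * (Real.pi / 3)) := by ring
        rw [e2, Real.cos_two_mul]
        rcases hσ with rfl | rfl
        · rw [one_mul, Real.cos_pi_div_three]; norm_num
        · rw [neg_one_mul, Real.cos_neg, Real.cos_pi_div_three]; norm_num
      have e3 : Real.cos (σ * (Real.pi / 3)) = 1 / 2 := by
        rcases hσ with rfl | rfl
        · rw [one_mul, Real.cos_pi_div_three]
        · rw [neg_one_mul, Real.cos_neg, Real.cos_pi_div_three]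
      apply Complex.ext
      · rw [Complex.sub_re, cis_re587, cis_re587, e1, e3, Complex.one_re]; norm_num
      · rw [Complex.sub_im, cis_im587, cis_im587, Complex.one_im]
        have e2 : 2 * σ * (Real.pi / 3) = 2 * (σ * (Real.pi / 3)) := by ring
        rw [e2, Real.sin_two_mul, e3]; ring
    rw [h1]; ring
  unfold pv
  have e1 : Real.pi / 3 * (w + σ) = Real.pi / 3 * w + σ * (Real.pi / 3) := by ring
  have e2 : Real.pi / 3 * (w + 2 * σ) = Real.pi / 3 * w + 2 * σ * (Real.pi / 3) := by ring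
  rw [e1, e2, ← key]
  ring

/-- **the triple swap** at an alpha point `y = ac | ef` -/
theorem Irr.triple (h : Irr U T) (hnd : [a, b, c, d, e, f].Nodup) (hz : DPt T z a b c d) {w : ℝ}
    (hy : DPt T (pv z w) a c e f)
    (h3 : ∀ σ : ℝ, σ = 1 ∨ σ = -1 → (T (pv z (w + σ))).ncard ≤ 3) :
    (FE T z w e f ∧ FE T z (w + 1) f e ∧ FE T z (w - 1) f e) ∨
      (FE T z w f e ∧ FE T z (w + 1) e f ∧ FE T z (w - 1) e f) := by
  obtain ⟨⟨ab, ac, ad, ae, af, bc, bd, be, bf, cd, ce, cf, de, df, ef⟩, -⟩ := nd6 hnd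
  have hall := nodup_all hnd
  have haz : a ∈ T z := by rw [hz.pal]; simp
  have hcz : c ∈ T z := by rw [hz.pal]; simp
  have hez : e ∉ T z := by
    rw [hz.pal]; simp only [mem_insert_iff, mem_singleton_iff, not_or]
    exact ⟨ae.symm, be.symm, ce.symm, de.symm⟩
  have hfz : f ∉ T z := by
    rw [hz.pal]; simp only [mem_insert_iff, mem_singleton_iff, not_or]
    exact ⟨af.symm, bf.symm, cf.symm, df.symm⟩
  have hall' : ∀ l, l = e ∨ l = f ∨ l ∈ T z := by
    intro l
    rw [hz.pal]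
    rcases hall l with rfl | rfl | rfl | rfl | rfl | rfl <;> simp
  have hall'' : ∀ l, l = f ∨ l = e ∨ l ∈ T z := by
    intro l
    rcases hall' l with h1 | h1 | h1
    exacts [Or.inr (Or.inl h1), Or.inl h1, Or.inr (Or.inr h1)]
  have hmem : ∀ σ : ℝ, σ = 1 ∨ σ = -1 → e ∈ T (pv z (w + σ)) ∧ f ∈ T (pv z (w + σ)) := by
    intro σ hσ
    have d1 : dist (pv z (w + σ)) (pv z w) = 1 := by rw [dist_comm]; exact dist_pv_one z w hσ
    have n1 : z ≠ pv z w := by
      intro e1
      have := dist_pv z w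
      rw [← e1, dist_self] at this
      exact zero_ne_one this
    refine h.apex_alpha (a := a) (b := c) (c := e) (d := f) (e := b) (f := d) (z := pv z w) (y := z)
      ?_ hy hz d1 (dist_pv z _) n1 ?_ (h3 σ hσ)
    · simp only [List.nodup_cons, List.mem_cons, List.not_mem_nil, or_false, not_or,
        List.nodup_nil, and_true, not_false_eq_true]
      exact ⟨⟨ac, ae, af, ab, ad⟩, ⟨ce, cf, bc.symm, cd⟩, ⟨ef, be.symm, de.symm⟩,
        ⟨bf.symm, df.symm⟩, bd⟩
    · intro e1
      have h6 := dist_pv z (w + σ)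
      have h7 := dist_pv z w
      rw [dist_eq_norm] at h6 h7 d1
      have h8 : pv z w - z = 2 * (pv z (w + σ) - z) := by linear_combination e1
      rw [h8, norm_mul, h6] at h7
      norm_num at h7
  rcases h.fe_centre haz hcz hy with hw | hw
  · left
    refine ⟨hw, ?_, ?_⟩
    · exact h.fe_nb ef hez hfz hall' hw (Or.inl rfl) (h3 1 (Or.inl rfl)) (hmem 1 (Or.inl rfl)).1
        (hmem 1 (Or.inl rfl)).2
    · rw [sub_eq_add_neg]
      exact h.fe_nb ef hez hfz hall' hw (Or.inr rfl) (h3 (-1) (Or.inr rfl))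
        (hmem (-1) (Or.inr rfl)).1 (hmem (-1) (Or.inr rfl)).2
  · right
    refine ⟨hw, ?_, ?_⟩
    · exact h.fe_nb ef.symm hfz hez hall'' hw (Or.inl rfl) (h3 1 (Or.inl rfl))
        (hmem 1 (Or.inl rfl)).2 (hmem 1 (Or.inl rfl)).1
    · rw [sub_eq_add_neg]
      exact h.fe_nb ef.symm hfz hez hall'' hw (Or.inr rfl) (h3 (-1) (Or.inr rfl))
        (hmem (-1) (Or.inr rfl)).2 (hmem (-1) (Or.inr rfl)).1

/-- `p` with `e, f` and at most three colours at an alpha point: exact `ef`-arcs of `S(y)` accumulate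
at `p` -/
theorem Irr.alpha_lt (h : Irr U T) (hnd : [a, b, c, d, e, f].Nodup) (hz : DPt T z a b c d)
    (hy : DPt T y a c e f) (hpz : dist p z = 1) (hpy : dist p y = 1) (hne : z ≠ y)
    (hne2 : z + y ≠ 2 * p) (h3 : (T p).ncard ≤ 3) (he : e ∈ T p) (hf : f ∈ T p) :
    Lt T y p {e, f} := by
  obtain ⟨⟨ab, ac, ad, ae, af, bc, bd, be, bf, cd, ce, cf, de, df, ef⟩, -⟩ := nd6 hnd
  have hall := nodup_all hnd
  -- at most one further colour
  have hone : ∀ l ∈ T p, ∀ l' ∈ T p, l ≠ e → l ≠ f → l' ≠ e → l' ≠ f → l = l' := by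
    intro l hl l' hl' h1 h2 h4 h5
    by_contra hne
    have hsub : ({e, f, l, l'} : Set (Fin 6)) ⊆ T p := by
      rintro x (rfl | rfl | rfl | rfl)
      exacts [he, hf, hl, hl']
    have hc : ({e, f, l, l'} : Set (Fin 6)).ncard = 4 := by
      rw [Set.ncard_insert_of_notMem, Set.ncard_insert_of_notMem, Set.ncard_pair hne]
      · simp only [mem_insert_iff, mem_singleton_iff, not_or]
        exact ⟨fun e1 => h2 e1.symm, fun e1 => h5 e1.symm⟩
      · simp only [mem_insert_iff, mem_singleton_iff, not_or]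
        exact ⟨ef, fun e1 => h1 e1.symm, fun e1 => h4 e1.symm⟩
    have := Set.ncard_le_ncard hsub (Set.toFinite _)
    omega
  -- a letter of `S(y)` at `p` without the third colour, if this colour is not in `T y`
  have key : ∀ t ∈ T z, (∀ l ∈ T p, l = e ∨ l = f ∨ l = t ∨ l ∈ T y) →
      (∀ l ∈ T p, l ∈ T y → l = e ∨ l = f ∨ l = t) → Lt T y p {e, f} := by
    intro t ht hcov hcov'
    obtain ⟨o, ho, hto⟩ := h.apex hpy hpz hne hne2 ht
    have hop := h.lt_sub ho
    have hoy : o ⊆ T y := by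
      intro l hl
      rcases hcov l (hop hl) with rfl | rfl | rfl | h1
      · rw [hy.pal]; simp
      · rw [hy.pal]; simp
      · exact absurd hl hto
      · exact h1
    rcases h.lt_pair hy ho hoy with rfl | rfl
    · have h1 : a ∈ T p := hop (Or.inl rfl)
      have h2 : c ∈ T p := hop (Or.inr rfl)
      exact absurd (hone a h1 c h2 ae af ce cf) ac
    · exact ho
  -- the third colour
  by_cases hx : ∃ x ∈ T p, x ≠ e ∧ x ≠ f
  · obtain ⟨x, hx, hxe, hxf⟩ := hx
    have hTp : ∀ l ∈ T p, l = e ∨ l = f ∨ l = x := by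
      intro l hl
      by_cases h1 : l = e
      · exact Or.inl h1
      by_cases h2 : l = f
      · exact Or.inr (Or.inl h2)
      exact Or.inr (Or.inr (hone l hl x hx h1 h2 hxe hxf))
    have hxz : x ∈ T z := by
      rw [hz.pal]
      rcases hall x with h1 | h1 | h1 | h1 | h1 | h1
      · simp [h1]
      · simp [h1]
      · simp [h1]
      · simp [h1]
      · exact absurd h1 hxe
      · exact absurd h1 hxf
    exact key x hxz (fun l hl => by
        rcases hTp l hl with h1 | h1 | h1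
        exacts [Or.inl h1, Or.inr (Or.inl h1), Or.inr (Or.inr (Or.inl h1))])
      fun l hl _ => hTp l hl
  · push Not at hx
    have hTp : ∀ l ∈ T p, l = e ∨ l = f := by
      intro l hl
      by_contra h1
      rw [not_or] at h1
      exact h1.2 (hx l hl h1.1)
    exact key a (by rw [hz.pal]; simp) (fun l hl => by
        rcases hTp l hl with h1 | h1
        exacts [Or.inl h1, Or.inr (Or.inl h1)])
      fun l hl _ => by
        rcases hTp l hl with h1 | h1
        exacts [Or.inl h1, Or.inr (Or.inl h1)]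

/-- the translated point: exact arcs of `S(z)` accumulate at `z + p - y` -/
theorem Irr.lt_transfer (h : Irr U T) (hz : DPt T z a b c d) (hef : ∀ l, l = e ∨ l = f ∨ l ∈ T z)
    (hyz : dist z y = 1) (hpz : dist p z = 1) (hpy : dist p y = 1) (hlt : Lt T y p {e, f}) :
    Lt T z (z + p - y) {a, b} ∨ Lt T z (z + p - y) {c, d} ∨ T z ⊆ T (z + p - y) := by
  have n1 : ∀ᶠ q in 𝓝[sphere y 1] p, q ≠ z ∧ q + z ≠ 2 * y := by
    have h1 : p ≠ z := fun e1 => by rw [e1, dist_self] at hpz; exact zero_ne_one hpz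
    have h2 : p + z ≠ 2 * y := fun e1 => by
      have h4 : p - z = 2 * (y - z) := by linear_combination e1
      rw [dist_eq_norm, h4, norm_mul, ← dist_eq_norm, dist_comm, hyz] at hpz
      norm_num at hpz
    have h4 : ∀ᶠ q in 𝓝 p, q ≠ z := isOpen_ne.mem_nhds h1
    have h5 : ∀ᶠ q in 𝓝 p, q + z ≠ 2 * y := by
      have hc : Continuous fun q : ℂ => q + z := by fun_prop
      exact hc.continuousAt.eventually (isOpen_ne.mem_nhds h2)
    exact (h4.and h5).filter_mono nhdsWithin_le_nhds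
  have ht : Tendsto (fun q : ℂ => z + q - y) (𝓝[sphere y 1] p) (𝓝[sphere z 1] (z + p - y)) := by
    refine tendsto_nhdsWithin_iff.2 ⟨?_, ?_⟩
    · have hc : Continuous fun q : ℂ => z + q - y := by fun_prop
      exact (hc.tendsto p).mono_left nhdsWithin_le_nhds
    · filter_upwards [self_mem_nhdsWithin] with q hq
      rw [mem_sphere, dist_eq_norm] at hq ⊢
      rw [← hq]; congr 1; ring
  have h1 : ∃ᶠ q in 𝓝[sphere y 1] p, Arc T z (z + q - y) {a, b} ∨ Arc T z (z + q - y) {c, d} ∨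
      T (z + q - y) = T z := by
    refine (hlt.and_eventually n1).mono ?_
    rintro q ⟨hq, hq1, hq2⟩
    rcases h.transfer (V := z) (z := y) hyz hz hq (fun i => by
        rcases hef i with h2 | h2 | h2
        · exact Or.inl (Or.inl h2)
        · exact Or.inl (Or.inr h2)
        · exact Or.inr h2) hq1 hq2 with h2 | h2 | h2
    · exact Or.inl h2
    · exact Or.inr (Or.inl h2)
    · exact Or.inr (Or.inr h2.1)
  have h2 := ht.frequently (p := fun x => Arc T z x {a, b} ∨ Arc T z x {c, d} ∨ T x = T z) h1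
  rw [frequently_or_distrib, frequently_or_distrib] at h2
  rcases h2 with h2 | h2 | h2
  · exact Or.inl h2
  · exact Or.inr (Or.inl h2)
  · right; right
    obtain ⟨q, hq, hq'⟩ := (h2.and_eventually (mem_nhdsWithin_of_mem_nhds
      (h.nhd (z + p - y)))).exists
    rw [← hq]; exact hq'

/-- **the blanks of the triple swap**: at `y ± 120` degrees exact arcs of `S(z)` accumulate (or the
point has all four colours of `z`) -/
theorem Irr.triple_blank (h : Irr U T) (hnd : [a, b, c, d, e, f].Nodup) (hz : DPt T z a b c d)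
    {w : ℝ} (hy : DPt T (pv z w) a c e f) {σ : ℝ} (hσ : σ = 1 ∨ σ = -1)
    (h3 : (T (pv z (w + σ))).ncard ≤ 3) :
    Lt T z (pv z (w + 2 * σ)) {a, b} ∨ Lt T z (pv z (w + 2 * σ)) {c, d} ∨
      T z ⊆ T (pv z (w + 2 * σ)) := by
  obtain ⟨⟨ab, ac, ad, ae, af, bc, bd, be, bf, cd, ce, cf, de, df, ef⟩, -⟩ := nd6 hnd
  have hall := nodup_all hnd
  have d1 : dist (pv z (w + σ)) (pv z w) = 1 := by rw [dist_comm]; exact dist_pv_one z w hσ
  have n1 : z ≠ pv z w := by
    intro e1
    have := dist_pv z w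
    rw [← e1, dist_self] at this
    exact zero_ne_one this
  have n2 : z + pv z w ≠ 2 * pv z (w + σ) := by
    intro e1
    have h6 := dist_pv z (w + σ)
    have h7 := dist_pv z w
    rw [dist_eq_norm] at h6 h7 d1
    have h8 : pv z w - z = 2 * (pv z (w + σ) - z) := by linear_combination e1
    rw [h8, norm_mul, h6] at h7
    norm_num at h7
  have hef : e ∈ T (pv z (w + σ)) ∧ f ∈ T (pv z (w + σ)) := by
    refine h.apex_alpha (a := a) (b := c) (c := e) (d := f) (e := b) (f := d) (z := pv z w) (y := z)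
      ?_ hy hz d1 (dist_pv z _) n1 n2 h3
    simp only [List.nodup_cons, List.mem_cons, List.not_mem_nil, or_false, not_or,
      List.nodup_nil, and_true, not_false_eq_true]
    exact ⟨⟨ac, ae, af, ab, ad⟩, ⟨ce, cf, bc.symm, cd⟩, ⟨ef, be.symm, de.symm⟩,
      ⟨bf.symm, df.symm⟩, bd⟩
  have h4 := h.alpha_lt hnd hz hy (dist_pv z _) d1 n1 n2 h3 hef.1 hef.2
  have h5 := h.lt_transfer (e := e) (f := f) hz (fun l => by
      rw [hz.pal]
      rcases hall l with rfl | rfl | rfl | rfl | rfl | rfl <;> simp)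
    (by rw [dist_comm]; exact dist_pv z w) (dist_pv z _) d1 h4
  have h6 : z + pv z (w + σ) - pv z w = pv z (w + 2 * σ) := by
    have := pv_sub z w hσ
    linear_combination this
  rwa [h6] at h5

/-- the exchange block of an alpha point has length three -/
theorem Irr.triple_block (h : Irr U T) (hnd : [a, b, c, d, e, f].Nodup) (hz : DPt T z a b c d)
    {w : ℝ} (hy : DPt T (pv z w) a c e f) {σ : ℝ} (hσ : σ = 1 ∨ σ = -1)
    (h3 : (T (pv z (w + σ))).ncard ≤ 3) (h3' : (T (pv z (w + 2 * σ))).ncard ≤ 3) :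
    ¬ (e ∈ T (pv z (w + 2 * σ)) ∧ f ∈ T (pv z (w + 2 * σ))) := by
  rintro ⟨he, hf⟩
  obtain ⟨⟨ab, ac, ad, ae, af, bc, bd, be, bf, cd, ce, cf, de, df, ef⟩, -⟩ := nd6 hnd
  have four : ∀ x y : Fin 6, x ≠ y → x ≠ e → x ≠ f → y ≠ e → y ≠ f → x ∈ T (pv z (w + 2 * σ)) →
      y ∈ T (pv z (w + 2 * σ)) → False := by
    intro x y hxy h1 h2 h4 h5 hx hy'
    have hsub : ({e, f, x, y} : Set (Fin 6)) ⊆ T (pv z (w + 2 * σ)) := by
      rintro l (rfl | rfl | rfl | rfl)
      exacts [he, hf, hx, hy']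
    have hc : ({e, f, x, y} : Set (Fin 6)).ncard = 4 := by
      rw [Set.ncard_insert_of_notMem, Set.ncard_insert_of_notMem, Set.ncard_pair hxy]
      · simp only [mem_insert_iff, mem_singleton_iff, not_or]
        exact ⟨fun e1 => h2 e1.symm, fun e1 => h5 e1.symm⟩
      · simp only [mem_insert_iff, mem_singleton_iff, not_or]
        exact ⟨ef, fun e1 => h1 e1.symm, fun e1 => h4 e1.symm⟩
    have := Set.ncard_le_ncard hsub (Set.toFinite _)
    omega
  rcases h.triple_blank hnd hz hy hσ h3 with h1 | h1 | h1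
  · have h2 := h.lt_sub h1
    exact four a b ab ae af be bf (h2 (Or.inl rfl)) (h2 (Or.inr rfl))
  · have h2 := h.lt_sub h1
    exact four c d cd ce cf de df (h2 (Or.inl rfl)) (h2 (Or.inr rfl))
  · exact four a b ab ae af be bf (h1 (by rw [hz.pal]; simp)) (h1 (by rw [hz.pal]; simp))

/-- `y = ab | ef` at `z = ab | cd`: a neighbour with at most three colours contains `c, d` or `e, f` -/
theorem Irr.eps_nb (h : Irr U T) (hnd : [a, b, c, d, e, f].Nodup) (hz : DPt T z a b c d)
    {w : ℝ} (hy : DPt T (pv z w) a b e f) {σ : ℝ} (hσ : σ = 1 ∨ σ = -1)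
    (h3 : (T (pv z (w + σ))).ncard ≤ 3) :
    (c ∈ T (pv z (w + σ)) ∧ d ∈ T (pv z (w + σ))) ∨
      (e ∈ T (pv z (w + σ)) ∧ f ∈ T (pv z (w + σ))) := by
  have d1 : dist (pv z (w + σ)) (pv z w) = 1 := by rw [dist_comm]; exact dist_pv_one z w hσ
  have n1 : pv z w ≠ z := by
    intro e1
    have := dist_pv z w
    rw [e1, dist_self] at this
    exact zero_ne_one this
  refine h.apex_nn hnd hz hy (dist_pv z _) d1 n1 ?_ h3
  intro e1
  have h6 := dist_pv z (w + σ)
  have h7 := dist_pv z w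
  rw [dist_eq_norm] at h6 h7
  have h8 : pv z w - z = 2 * (pv z (w + σ) - z) := by linear_combination e1
  rw [h8, norm_mul, h6] at h7
  norm_num at h7

end Vale.Agent.P032.Six
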